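import Mathlib

/-! # Row 86, part C: Arzelà–Ascoli with a diagonal subsequence (task) -/

open Filter Topology

namespace Crest.Agent.R086.C

/-- Proof: each K j is compact hence has a countable dense subset D j; enumerate ⋃ D j.  For each point p of it the sequence g l p is
eventually bounded, hence bounded, so lies in a compact ball; by Tychonoff + sequential compactness of the countable product
(`IsCompact.tendsto_subseq`, `isCompact_univ_pi`) a subsequence converges at every such p.  Equi-Lipschitz + finite ε-nets ⇒ uniformly Cauchy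
on K j (`UniformCauchySeqOn`), define G p = limUnder; `UniformCauchySeqOn.tendstoUniformlyOn_of_tendsto`. -/
theorem aa {X Y : Type*} [PseudoMetricSpace X] [NormedAddCommGroup Y] [ProperSpace Y]
    (K : ℕ → Set X) (hK : ∀ j, IsCompact (K j)) (g : ℕ → X → Y)
    (hg : ∀ j, ∃ C : ℝ, ∀ᶠ l in atTop, (∀ p ∈ K j, ‖g l p‖ ≤ C) ∧
      ∀ p ∈ K j, ∀ p' ∈ K j, ‖g l p - g l p'‖ ≤ C * dist p p') :
    ∃ (φ : ℕ → ℕ) (G : X → Y), StrictMono φ ∧
      ∀ j, TendstoUniformlyOn (fun l => g (φ l)) G atTop (K j) := by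
  classical
  choose C hC using hg
  choose D hDK hDc hDd using fun j => (hK j).isSeparable.exists_countable_dense_subset
  have : ∀ j, Countable (D j) := fun j => (hDc j).to_subtype
  let h : ℕ → (Σ j, D j) → Y := fun l i => if ‖g l i.2‖ ≤ C i.1 then g l i.2 else 0
  have hc : IsCompact (Set.pi Set.univ fun i : (Σ j, D j) => Metric.closedBall (0 : Y) |C i.1|) :=
    isCompact_univ_pi fun i => isCompact_closedBall _ _
  obtain ⟨a, -, φ, hφ, ha⟩ := hc.tendsto_subseq (x := h) fun l i _ => by
    rw [mem_closedBall_zero_iff]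
    dsimp only [h]
    split_ifs with h1
    · exact h1.trans (le_abs_self _)
    · simp
  have hconv : ∀ j, ∀ p ∈ D j, CauchySeq fun l => g (φ l) p := by
    intro j p hp
    refine ((tendsto_pi_nhds.1 ha ⟨j, p, hp⟩).congr' ?_).cauchySeq
    filter_upwards [hφ.tendsto_atTop.eventually (hC j)] with l hl
    exact if_pos (hl.1 p (hDK j hp))
  have hU : ∀ j, UniformCauchySeqOn (fun l => g (φ l)) atTop (K j) := by
    intro j
    rw [Metric.uniformCauchySeqOn_iff]
    intro ε hε
    have hC1 : 0 < |C j| + 1 := by positivity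
    have hδ : 0 < ε / 3 / (|C j| + 1) := by positivity
    obtain ⟨t, htD, htf, ht⟩ := (hK j).elim_finite_subcover_image (b := D j)
      (c := fun p => Metric.ball p (ε / 3 / (|C j| + 1))) (fun _ _ => Metric.isOpen_ball)
      (fun x hx => by
        obtain ⟨p, hp, hxp⟩ := Metric.mem_closure_iff.1 (hDd j hx) _ hδ
        exact Set.mem_biUnion hp hxp)
    have h1 : ∀ᶠ N in atTop, ∀ p ∈ t, ∀ m ≥ N, ∀ n ≥ N, dist (g (φ m) p) (g (φ n) p) < ε / 3 := by
      rw [eventually_all_finite htf]
      intro p hp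
      obtain ⟨N, hN⟩ := Metric.cauchySeq_iff.1 (hconv j p (htD hp)) (ε / 3) (by positivity)
      filter_upwards [eventually_ge_atTop N] with N' hN' m hm n hn
      exact hN m (hN'.trans hm) n (hN'.trans hn)
    obtain ⟨N, hN1, hN2⟩ :=
      (h1.and (eventually_forall_ge_atTop.2 (hφ.tendsto_atTop.eventually (hC j)))).exists
    refine ⟨N, fun m hm n hn x hx => ?_⟩
    obtain ⟨p, hp, hxp⟩ := Set.mem_iUnion₂.1 (ht hx)
    have h2 : ∀ l ≥ N, dist (g (φ l) x) (g (φ l) p) ≤ ε / 3 := fun l hl => by
      rw [dist_eq_norm]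
      refine ((hN2 l hl).2 x hx p (hDK j (htD hp))).trans ?_
      have h3 : dist x p * (|C j| + 1) ≤ ε / 3 := (le_div_iff₀ hC1).1 (le_of_lt hxp)
      nlinarith [le_abs_self (C j), dist_nonneg (x := x) (y := p)]
    have h4 := dist_triangle4_right (g (φ m) x) (g (φ n) x) (g (φ m) p) (g (φ n) p)
    linarith [h2 m hm, h2 n hn, hN1 p hp m hm n hn]
  exact ⟨φ, fun p => limUnder atTop fun l => g (φ l) p, hφ, fun j =>
    (hU j).tendstoUniformlyOn_of_tendsto fun x hx => ((hU j).cauchySeq hx).tendsto_limUnder⟩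

end Crest.Agent.R086.C
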