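import Mathlib

/-! # Row 86, part C: approximate eigenvectors (task) -/

open Filter Topology

namespace Crest.Agent.R086.C

theorem ae_banach {Y : Type*} [NormedAddCommGroup Y] [NormedSpace ℂ Y] [CompleteSpace Y]
    [Nontrivial Y] (A : Y →L[ℂ] Y) (h : ∀ J : ℕ, 1 ≤ J → 1 / 2 ≤ ‖A ^ J‖) :
    ∃ ζ : ℂ, 1 ≤ ‖ζ‖ ∧ ∀ c : ℝ, 0 < c → ∃ y, ‖A y - ζ • y‖ < c * ‖y‖ := by
  obtain ⟨ζ, hζ, hr⟩ := spectrum.exists_nnnorm_eq_spectralRadius A
  have h1 : 1 ≤ ‖ζ‖ := by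
    have t1 := spectrum.pow_norm_pow_one_div_tendsto_nhds_spectralRadius A
    have t2 : Tendsto (fun n : ℕ => ENNReal.ofReal ((1 / 2 : ℝ) ^ (1 / n : ℝ))) atTop
        (𝓝 (ENNReal.ofReal ((1 / 2 : ℝ) ^ (0 : ℝ)))) :=
      ENNReal.tendsto_ofReal (((Real.continuousAt_const_rpow (by norm_num)).tendsto).comp
        tendsto_one_div_atTop_nhds_zero_nat)
    have t3 := le_of_tendsto_of_tendsto t2 t1 (by
      filter_upwards [eventually_ge_atTop 1] with n hn
      exact ENNReal.ofReal_le_ofReal (Real.rpow_le_rpow (by norm_num) (h n hn) (by positivity)))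
    rw [← hr, Real.rpow_zero, ENNReal.ofReal_one] at t3
    exact_mod_cast t3
  refine ⟨ζ, h1, fun c hc => ?_⟩
  by_contra hcon
  push Not at hcon
  have hz : 0 < ‖ζ‖ := by linarith
  set t : ℝ := c / (4 * ‖ζ‖) with ht
  have ht0 : 0 < t := by positivity
  have htζ : ‖(t : ℂ) * ζ‖ = c / 4 := by
    rw [norm_mul, Complex.norm_real, Real.norm_of_nonneg ht0.le, ht]; field_simp
  have hres : ((1 + t : ℝ) : ℂ) * ζ ∈ resolventSet ℂ A := by
    apply spectrum.mem_resolventSet_of_spectralRadius_lt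
    rw [← hr]
    have : ‖ζ‖ < ‖((1 + t : ℝ) : ℂ) * ζ‖ := by
      rw [norm_mul, Complex.norm_real, Real.norm_of_nonneg (by linarith)]
      nlinarith
    exact_mod_cast this
  obtain ⟨B, hB⟩ := spectrum.mem_resolventSet_iff.1 hres
  have hBy : ∀ y, 3 * c / 4 * ‖y‖ ≤ ‖(B : Y →L[ℂ] Y) y‖ := fun y => by
    have e : (B : Y →L[ℂ] Y) y = ((t : ℂ) * ζ) • y - (A y - ζ • y) := by
      rw [hB, Algebra.algebraMap_eq_smul_one]
      simp only [sub_apply, smul_apply, one_apply_eq_self]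
      push_cast
      module
    have a1 := hcon y
    have a2 := norm_sub_norm_le (A y - ζ • y) (((t : ℂ) * ζ) • y)
    rw [norm_smul, htζ] at a2
    rw [e, norm_sub_rev]
    linarith
  have hBi : ‖((B⁻¹ : (Y →L[ℂ] Y)ˣ) : Y →L[ℂ] Y)‖ ≤ 4 / (3 * c) := by
    refine ContinuousLinearMap.opNorm_le_bound _ (by positivity) fun y => ?_
    have a1 := hBy (((B⁻¹ : (Y →L[ℂ] Y)ˣ) : Y →L[ℂ] Y) y)
    have a2 : (B : Y →L[ℂ] Y) (((B⁻¹ : (Y →L[ℂ] Y)ˣ) : Y →L[ℂ] Y) y) = y := by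
      rw [← mul_apply_eq_comp, Units.mul_inv]; rfl
    rw [a2] at a1
    rw [div_mul_eq_mul_div, le_div_iff₀ (by positivity)]
    linarith
  have hpos : 0 < ‖((B⁻¹ : (Y →L[ℂ] Y)ˣ) : Y →L[ℂ] Y)‖ := norm_pos_iff.2 (B⁻¹).ne_zero
  apply hζ
  rw [spectrum.mem_resolventSet_iff]
  refine (B.ofNearby (algebraMap ℂ (Y →L[ℂ] Y) ζ - A) ?_).isUnit
  have e : algebraMap ℂ (Y →L[ℂ] Y) ζ - A - (B : Y →L[ℂ] Y)
      = algebraMap ℂ (Y →L[ℂ] Y) (-((t : ℂ) * ζ)) := by
    rw [hB, sub_sub_sub_cancel_right, ← map_sub]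
    congr 1
    push_cast
    ring
  rw [e, norm_algebraMap', norm_neg, htζ]
  have := inv_anti₀ hpos hBi
  rw [inv_div] at this
  linarith

/-- If no power of T contracts by 1/2, T has an approximate eigenvalue of modulus ≥ 1.
Proof: let X̂ = `UniformSpace.Completion X` (a complete normed ℂ-space even if X is only seminormed; nontrivial here),
T̂ the extension of T (`ContinuousLinearMap.extend` / `UniformSpace.Completion.map`), T̂^J extends T^J, so ‖T̂^J‖ ≥ 1/2.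
Gelfand (`spectrum.pow_nnnorm_pow_one_div_tendsto_nhds_spectralRadius`) ⇒ spectral radius r ≥ 1; take ζ in the spectrum with
‖ζ‖ = r (`spectrum.exists_nnnorm_eq_spectralRadius`).  ζ_l = (1+1/(l+1))ζ is in the resolvent set.  If T̂ - ζ were bounded below
(‖(T̂-ζ)x‖ ≥ c‖x‖) then ‖(T̂-ζ_l)⁻¹‖ ≤ 2/c for l large and T̂-ζ = (T̂-ζ_l)(1 + (ζ_l-ζ)(T̂-ζ_l)⁻¹) would be a unit
(`Units.oneSub`/`Units.add`).  So T̂-ζ is not bounded below on X̂, hence (density) not on X; normalise. -/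
theorem approx_eig {X : Type*} [SeminormedAddCommGroup X] [NormedSpace ℂ X] (T : X →L[ℂ] X)
    (h : ∀ J : ℕ, 1 ≤ J → ∃ x, ‖x‖ < 2 * ‖(T ^ J) x‖) :
    ∃ ζ : ℂ, 1 ≤ ‖ζ‖ ∧ ∃ x : ℕ → X, (∀ l, ‖x l‖ = 1) ∧
      Tendsto (fun l => ‖T (x l) - ζ • x l‖) atTop (𝓝 0) := by
  let Y := UniformSpace.Completion X
  let A : Y →L[ℂ] Y := T.completion
  have hA : ∀ (J : ℕ) (x : X), (A ^ J) (x : Y) = (((T ^ J) x : X) : Y) := by
    intro J
    induction J with
    | zero => intro x; simp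
    | succ J ih =>
      intro x
      rw [pow_succ', pow_succ', mul_apply_eq_comp, mul_apply_eq_comp, ih]
      exact T.completion_apply_coe _
  have hJ : ∀ J : ℕ, 1 ≤ J → 1 / 2 ≤ ‖A ^ J‖ ∧ ∃ x : X, 0 < ‖x‖ := fun J hJ => by
    obtain ⟨x, hx⟩ := h J hJ
    have a1 := (A ^ J).le_opNorm (x : Y)
    rw [hA, UniformSpace.Completion.norm_coe, UniformSpace.Completion.norm_coe] at a1
    have a2 : 0 < ‖x‖ := by
      rcases (norm_nonneg x).eq_or_lt with h0 | h0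
      · rw [← h0] at a1 hx; linarith
      · exact h0
    refine ⟨?_, x, a2⟩
    by_contra hc
    push Not at hc
    nlinarith
  have : Nontrivial Y := by
    obtain ⟨x, hx⟩ := (hJ 1 le_rfl).2
    refine nontrivial_of_ne (x : Y) 0 fun h0 => ?_
    have := UniformSpace.Completion.norm_coe x
    rw [show ((x : UniformSpace.Completion X)) = 0 from h0, norm_zero] at this
    linarith
  obtain ⟨ζ, h1, hζ⟩ := ae_banach A fun J hJ' => (hJ J hJ').1
  have hX : ∀ c : ℝ, 0 < c → ∃ x : X, ‖x‖ = 1 ∧ ‖T x - ζ • x‖ ≤ c := fun c hc => by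
    have ho : IsOpen {y : Y | ‖A y - ζ • y‖ < c * ‖y‖} := 
      isOpen_lt (A.continuous.sub (continuous_const_smul ζ)).norm
        (continuous_const.mul continuous_norm)
    obtain ⟨x, hx⟩ := (UniformSpace.Completion.denseRange_coe (α := X)).exists_mem_open ho
      (hζ c hc)
    have e : A (x : Y) - ζ • (x : Y) = ((T x - ζ • x : X) : Y) := by
      rw [UniformSpace.Completion.coe_sub, UniformSpace.Completion.coe_smul]
      congr 1
      exact T.completion_apply_coe _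
    have hx' : ‖T x - ζ • x‖ < c * ‖x‖ := by
      have hx2 : ‖A (x : Y) - ζ • (x : Y)‖ < c * ‖(x : Y)‖ := hx
      rwa [e, UniformSpace.Completion.norm_coe, UniformSpace.Completion.norm_coe] at hx2
    have a2 : 0 < ‖x‖ := (mul_pos_iff_of_pos_left hc).1 ((norm_nonneg _).trans_lt hx')
    have a3 : ‖((‖x‖⁻¹ : ℝ) : ℂ)‖ = ‖x‖⁻¹ := by
      rw [Complex.norm_real, Real.norm_of_nonneg (by positivity)]
    refine ⟨((‖x‖⁻¹ : ℝ) : ℂ) • x, by rw [norm_smul, a3, inv_mul_cancel₀ a2.ne'], ?_⟩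
    rw [map_smul, smul_comm ζ, ← smul_sub, norm_smul, a3, inv_mul_le_iff₀ a2]
    linarith
  choose x hx1 hx2 using fun l : ℕ => hX (1 / ((l : ℝ) + 1)) (by positivity)
  exact ⟨ζ, h1, x, hx1, squeeze_zero (fun l => norm_nonneg _) hx2
    tendsto_one_div_add_atTop_nhds_zero_nat⟩

/-- the same for a seminorm on a module (install `N` as the seminormed structure with `letI`) -/
theorem approx_eig' {X : Type*} [AddCommGroup X] [Module ℂ X] (N : Seminorm ℂ X) (T : X →ₗ[ℂ] X)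
    (C : ℝ) (hT : ∀ x, N (T x) ≤ C * N x) (h : ∀ J : ℕ, 1 ≤ J → ∃ x, N x < 2 * N ((T ^ J) x)) :
    ∃ ζ : ℂ, 1 ≤ ‖ζ‖ ∧ ∃ x : ℕ → X, (∀ l, N (x l) = 1) ∧
      Tendsto (fun l => N (T (x l) - ζ • x l)) atTop (𝓝 0) := by
  let _ : SeminormedAddCommGroup X := N.toAddGroupSeminorm.toSeminormedAddCommGroup
  let _ : NormedSpace ℂ X := ⟨fun a x => (map_smul_eq_mul N a x).le⟩
  have hp : ∀ (J : ℕ) (x : X), ((T.mkContinuous C hT) ^ J) x = (T ^ J) x := by
    intro J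
    induction J with
    | zero => intro x; rfl
    | succ J ih =>
      intro x
      rw [pow_succ', pow_succ', mul_apply_eq_comp, Module.End.mul_apply, ih]
      rfl
  exact approx_eig (T.mkContinuous C hT) fun J hJ => by
    obtain ⟨x, hx⟩ := h J hJ
    exact ⟨x, by rw [hp]; exact hx⟩

end Crest.Agent.R086.C
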