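import Crest.Agent.R086.C.QN
import Crest.Agent.R086.C.AE

/-! # Row 86, part C: Lasota–Yorke + compactness ⇒ decay modulo E or an eigenvector modulo E (task) -/

open Filter Topology

namespace Crest.Agent.R086.C

theorem as1_fin {X : Type*} [AddCommGroup X] [Module ℂ X] [FiniteDimensional ℂ X]
    (N : Seminorm ℂ X) (hN : ∀ x, N x = 0 → x = 0) (e : ℕ → X) {B : ℝ} (hB : ∀ l, N (e l) ≤ B) :
    ∃ (φ : ℕ → ℕ) (y : X), StrictMono φ ∧ Tendsto (fun l => N (e (φ l) - y)) atTop (𝓝 0) := by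
  letI : NormedAddCommGroup X := AddGroupNorm.toNormedAddCommGroup
    { N.toAddGroupSeminorm with eq_zero_of_map_eq_zero' := hN }
  letI : NormedSpace ℂ X := ⟨fun c x => (map_smul_eq_mul N c x).le⟩
  have : ProperSpace X := FiniteDimensional.proper ℂ X
  obtain ⟨y, -, φ, hφ, h⟩ := tendsto_subseq_of_bounded
    (Metric.isBounded_closedBall (x := (0 : X)) (r := B)) (x := e)
    fun l => mem_closedBall_zero_iff.2 (hB l)
  exact ⟨φ, y, hφ, tendsto_iff_norm_sub_tendsto_zero.1 h⟩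

theorem as1_pow {X : Type*} [AddCommGroup X] [Module ℂ X] (q : Seminorm ℂ X) (S : X →ₗ[ℂ] X)
    {C : ℝ} (hC : 0 ≤ C) (hS : ∀ x, q (S x) ≤ C * q x) {ζ : ℂ} {z : ℕ → X}
    (hz : Tendsto (fun l => q (S (z l) - ζ • z l)) atTop (𝓝 0)) (J : ℕ) :
    Tendsto (fun l => q ((S ^ J) (z l) - ζ ^ J • z l)) atTop (𝓝 0) := by
  induction J with
  | zero => simp
  | succ J ih =>
    have h := (ih.const_mul C).add (hz.const_mul ‖ζ ^ J‖)
    rw [mul_zero, mul_zero, add_zero] at h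
    refine squeeze_zero (fun l => apply_nonneg _ _) (fun l => ?_) h
    have e : (S ^ (J + 1)) (z l) - ζ ^ (J + 1) • z l =
        S ((S ^ J) (z l) - ζ ^ J • z l) + ζ ^ J • (S (z l) - ζ • z l) := by
      rw [pow_succ' S, Module.End.mul_apply, map_sub, map_smul, smul_sub, smul_smul, pow_succ]
      abel
    rw [e]
    exact (map_add_le_add q _ _).trans (add_le_add (hS _) (map_smul_eq_mul q _ _).le)

/-- `Y` is the big space, `X ≤ Y` the small one with seminorm `N`; `Wk` = "weakly null sequences".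
Proof: suppose the first alternative fails.  Restrict T to X (`LinearMap.restrict`), apply `approx_eig'` to `qS N E'`
(E' = E.comap X.subtype; `qN_map_le`): x_l, qN x_l = 1, qN(Tx_l - ζx_l) → 0.  Subtract elements of E so that N x_l ≤ 2.
Choose e_l ∈ E with N(Tx_l - ζx_l - e_l) → 0; N e_l is bounded, E is finite-dimensional and N is a norm on it, so e_l → e in N along a
subsequence (install N as a norm on E, `FiniteDimensional.proper`, `tendsto_subseq_of_bounded`); along a further subsequence x_l - x is Wk (hcomp with x_l/2).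
The constant sequence Tx - ζx - e = -(T(x_l-x) - ζ(x_l-x)) + (Tx_l-ζx_l-e_l) + (e_l-e) is Wk, so it is 0.
If x ∈ E: x_l - x ∈ X is N-bounded by B and Wk, so N(T^J(x_l-x)) ≤ 1/2 eventually (hLY with ε = 1/(2B), rescale),
but qN(T^J x_l - ζ^J x_l) → 0 (induction on J) gives qN(T^J(x_l - x)) = qN(T^J x_l) → ‖ζ‖^J ≥ 1. -/
theorem as1 {Y : Type*} [AddCommGroup Y] [Module ℂ Y] (X E : Submodule ℂ Y) (hEX : E ≤ X)
    [FiniteDimensional ℂ E] (N : Seminorm ℂ X) (hN : ∀ x : X, (x : Y) ∈ E → N x = 0 → x = 0)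
    (T : Y →ₗ[ℂ] Y) (hTX : ∀ x ∈ X, T x ∈ X) (hTE : ∀ e ∈ E, T e ∈ E) (C : ℝ) (hC : 0 ≤ C)
    (hT : ∀ x : X, N ⟨T x, hTX x x.2⟩ ≤ C * N x)
    (Wk : (ℕ → Y) → Prop)
    (wadd : ∀ x y, Wk x → Wk y → Wk (fun l => x l + y l))
    (wsmul : ∀ (c : ℂ) x, Wk x → Wk (fun l => c • x l))
    (wT : ∀ x, Wk x → Wk (fun l => T (x l)))
    (wnull : ∀ x : ℕ → X, Tendsto (fun l => N (x l)) atTop (𝓝 0) → Wk (fun l => x l))
    (wconst : ∀ x, Wk (fun _ => x) → x = 0)
    (wsub : ∀ x (φ : ℕ → ℕ), StrictMono φ → Wk x → Wk (fun l => x (φ l)))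
    (hLY : ∀ ε : ℝ, 0 < ε → ∃ J : ℕ, ∀ x : ℕ → X, (∀ l, N (x l) ≤ 1) → Wk (fun l => x l) →
      ∀ᶠ l in atTop, N (((T.restrict hTX) ^ J) (x l)) ≤ ε)
    (hcomp : ∀ x : ℕ → X, (∀ l, N (x l) ≤ 1) →
      ∃ (φ : ℕ → ℕ) (y : Y), StrictMono φ ∧ Wk (fun l => x (φ l) - y)) :
    (∃ J : ℕ, 1 ≤ J ∧ ∀ x : X, qN N (E.comap X.subtype) (((T.restrict hTX) ^ J) x)
        ≤ qN N (E.comap X.subtype) x / 2) ∨
      ∃ ζ : ℂ, 1 ≤ ‖ζ‖ ∧ ∃ y : Y, y ∉ E ∧ T y - ζ • y ∈ E := by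
  set S := T.restrict hTX with hSdef
  set E' := E.comap X.subtype with hE'
  have hS : ∀ x : X, N (S x) ≤ C * N x := hT
  have hSE : ∀ e ∈ E', S e ∈ E' := fun e he => hTE _ he
  have hq := qN_map_le N E' S hC hS hSE
  refine or_iff_not_imp_left.2 fun h => ?_
  push Not at h
  obtain ⟨ζ, hζ, x0, hx0, hx0'⟩ := approx_eig' (qS N E') S C hq fun J hJ => by
    obtain ⟨x, hx⟩ := h J hJ
    exact ⟨x, by simp only [qS_apply]; linarith⟩
  simp only [qS_apply] at hx0 hx0'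
  have hshift : ∀ x : X, ∀ a ∈ E', qN N E' (S (x - a) - ζ • (x - a)) = qN N E' (S x - ζ • x) := by
    intro x a ha
    rw [← qN_sub_mem N E' (S x - ζ • x) (E'.sub_mem (hSE a ha) (E'.smul_mem ζ ha)), map_sub,
      smul_sub]
    congr 1
    abel
  choose a ha ha' using fun l => exists_lt_qN N E' (x0 l) one_pos
  set x : ℕ → X := fun l => x0 l - a l with hx
  have hx1 : ∀ l, qN N E' (x l) = 1 := fun l => (qN_sub_mem N E' _ (ha l)).trans (hx0 l)
  have hx2 : ∀ l, N (x l) ≤ 2 := fun l => by linarith [ha' l, hx0 l]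
  have hx3 : Tendsto (fun l => qN N E' (S (x l) - ζ • x l)) atTop (𝓝 0) :=
    hx0'.congr fun l => (hshift _ _ (ha l)).symm
  choose e he he' using fun l : ℕ =>
    exists_lt_qN N E' (S (x l) - ζ • x l) (Nat.one_div_pos_of_nat (α := ℝ) (n := l))
  have he2 : Tendsto (fun l => N (S (x l) - ζ • x l - e l)) atTop (𝓝 0) := by
    have h1 := hx3.add (tendsto_one_div_add_atTop_nhds_zero_nat (𝕜 := ℝ))
    rw [add_zero] at h1
    exact squeeze_zero (fun l => apply_nonneg _ _) (fun l => (he' l).le) h1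
  obtain ⟨B, hB⟩ := he2.bddAbove_range
  have he3 : ∀ l, N (e l) ≤ C * 2 + ‖ζ‖ * 2 + B := by
    intro l
    have h1 : e l = S (x l) - ζ • x l - (S (x l) - ζ • x l - e l) := by abel
    have h2 := map_sub_le_add N (S (x l) - ζ • x l) (S (x l) - ζ • x l - e l)
    have h3 := map_sub_le_add N (S (x l)) (ζ • x l)
    have h4 := (hS (x l)).trans (mul_le_mul_of_nonneg_left (hx2 l) hC)
    have h5 := (map_smul_eq_mul N ζ (x l)).le.trans
      (mul_le_mul_of_nonneg_left (hx2 l) (norm_nonneg _))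
    have h6 : N (S (x l) - ζ • x l - e l) ≤ B := hB ⟨l, rfl⟩
    rw [← h1] at h2
    linarith
  have : FiniteDimensional ℂ E' := (Submodule.comapSubtypeEquivOfLe hEX).symm.finiteDimensional
  obtain ⟨φ, e0, hφ, he0⟩ := as1_fin (N.comp E'.subtype)
    (fun v hv => Subtype.ext (hN v v.2 hv)) (fun l => ⟨e l, he l⟩) he3
  have he0' : Tendsto (fun l => N (e (φ l) - e0)) atTop (𝓝 0) := he0
  obtain ⟨ψ, y', hψ, hy'⟩ := hcomp (fun l => (1 / 2 : ℂ) • x (φ l)) fun l => by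
    rw [map_smul_eq_mul]
    have : ‖(1 / 2 : ℂ)‖ = 1 / 2 := by simp
    rw [this]
    linarith [hx2 (φ l)]
  have hy : Wk fun l => (x (φ (ψ l)) : Y) - (2 : ℂ) • y' := by
    convert wsmul 2 _ hy' using 2 with l
    rw [smul_sub, Submodule.coe_smul, smul_smul]
    norm_num
  set y := (2 : ℂ) • y'
  have hφψ : Tendsto (fun l => φ (ψ l)) atTop atTop := (hφ.comp hψ).tendsto_atTop
  have hconst : T y - ζ • y - (e0 : X) = 0 := by
    refine wconst _ ?_
    convert wadd _ _ (wadd _ _ (wadd _ _ (wsmul (-1) _ (wT _ hy)) (wsmul ζ _ hy))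
      (wnull _ (he2.comp hφψ))) (wnull _ (he0'.comp hψ.tendsto_atTop)) using 2 with l
    have h1 : ((S (x (φ (ψ l))) : X) : Y) = T (x (φ (ψ l))) := rfl
    simp only [Submodule.coe_sub, Submodule.coe_smul, h1, map_sub, smul_sub, neg_smul, one_smul]
    abel
  refine ⟨ζ, hζ, y, fun hyE => ?_, by rw [sub_eq_zero.1 hconst]; exact e0.2⟩
  let y0 : X := ⟨y, hEX hyE⟩
  have hy0 : y0 ∈ E' := hyE
  let z : ℕ → X := fun l => x (φ (ψ l)) - y0
  have hB0 : 0 < 2 + N y0 := by positivity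
  have hz1 : ∀ l, N (z l) ≤ 2 + N y0 := fun l =>
    (map_sub_le_add N _ _).trans (add_le_add (hx2 _) le_rfl)
  have hc : ‖(((2 + N y0)⁻¹ : ℝ) : ℂ)‖ = (2 + N y0)⁻¹ := by
    rw [Complex.norm_real, Real.norm_of_nonneg (by positivity)]
  obtain ⟨J, hJ⟩ := hLY ((2 + N y0)⁻¹ * (1 / 2)) (by positivity)
  have h1 := hJ (fun l => (((2 + N y0)⁻¹ : ℝ) : ℂ) • z l) (fun l => by
    rw [map_smul_eq_mul, hc, inv_mul_le_iff₀ hB0, mul_one]
    exact hz1 l) (wsmul _ _ hy)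
  have h2 := as1_pow (qS N E') S hC hq (ζ := ζ) (z := z)
    ((hx3.comp hφψ).congr fun l => (hshift _ _ hy0).symm) J
  obtain ⟨l, h3, h4⟩ := (h1.and (h2.eventually_lt_const (show (0 : ℝ) < 1 / 2 by norm_num))).exists
  rw [map_smul, map_smul_eq_mul, hc] at h3
  have h5 := (qN_le_self N E' _).trans (le_of_mul_le_mul_left h3 (inv_pos.2 hB0))
  have h6 := map_sub_le_add (qS N E') ((S ^ J) (z l)) ((S ^ J) (z l) - ζ ^ J • z l)
  rw [sub_sub_cancel, map_smul_eq_mul, qS_apply, qS_apply, qN_sub_mem N E' _ hy0, hx1,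
    norm_pow] at h6
  linarith [one_le_pow₀ (n := J) hζ]

end Crest.Agent.R086.C
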