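import Crest.Agent.R086.C.QN

/-! # Row 86, part C: the eigenspace modulo E is finite-dimensional; the limit element e_∞ (task) -/

open Filter Topology

namespace Crest.Agent.R086.C

theorem as2_riesz {V : Type*} [NormedAddCommGroup V] [NormedSpace ℂ V] (E : Submodule ℂ V)
    [FiniteDimensional ℂ E] (h : ¬ FiniteDimensional ℂ V) :
    ∃ x : ℕ → V, (∀ l, ‖x l‖ ≤ 3) ∧ ∀ m l, m < l → ∀ e ∈ E, 1 ≤ ‖x l - x m - e‖ := by
  refine exists_seq_of_forall_finset_exists (fun x : V => ‖x‖ ≤ 3)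
    (fun x y : V => ∀ e ∈ E, 1 ≤ ‖y - x - e‖) fun s _ => ?_
  have : FiniteDimensional ℂ (Submodule.span ℂ (s : Set V)) := .of_fg ⟨s, rfl⟩
  have hc : IsClosed ((E ⊔ Submodule.span ℂ (s : Set V) : Submodule ℂ V) : Set V) :=
    Submodule.closed_of_finiteDimensional _
  have hx : ∃ x, x ∉ E ⊔ Submodule.span ℂ (s : Set V) := by
    by_contra hx
    push Not at hx
    have e : E ⊔ Submodule.span ℂ (s : Set V) = ⊤ := eq_top_iff.2 fun x _ => hx x
    have h1 : FiniteDimensional ℂ (E ⊔ Submodule.span ℂ (s : Set V) : Submodule ℂ V) :=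
      inferInstance
    rw [e] at h1
    exact h (Submodule.topEquiv.finiteDimensional)
  obtain ⟨x, h1, h2⟩ := riesz_lemma_of_norm_lt (c := (2 : ℂ)) (R := 3) (by norm_num) (by norm_num)
    hc hx
  refine ⟨x, h1, fun y hy e he => ?_⟩
  rw [sub_sub]
  exact h2 _ (add_mem (Submodule.mem_sup_right (Submodule.subset_span hy))
    (Submodule.mem_sup_left he))

theorem as2_core {V : Type*} [AddCommGroup V] [Module ℂ V] (N : Seminorm ℂ V)
    (hN : ∀ x, N x = 0 → x = 0) : @NormedSpace.Core ℂ V _ _ _ ⟨N⟩ :=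
  letI : Norm V := ⟨N⟩
  { norm_nonneg := fun x => apply_nonneg N x
    norm_smul := fun c x => map_smul_eq_mul N c x
    norm_triangle := fun x y => map_add_le_add N x y
    norm_eq_zero_iff := fun x => ⟨hN x, fun h => h ▸ map_zero N⟩ }

theorem as2_riesz' {V : Type*} [AddCommGroup V] [Module ℂ V] (N : Seminorm ℂ V)
    (hN : ∀ x, N x = 0 → x = 0) (E : Submodule ℂ V)
    [FiniteDimensional ℂ E] (h : ¬ FiniteDimensional ℂ V) :
    ∃ x : ℕ → V, (∀ l, N (x l) ≤ 3) ∧ ∀ m l, m < l → ∀ e ∈ E, 1 ≤ N (x l - x m - e) := by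
  let : Norm V := ⟨N⟩
  let : NormedAddCommGroup V := NormedAddCommGroup.ofCore (as2_core N hN)
  let : NormedSpace ℂ V := NormedSpace.ofCore (as2_core N hN)
  exact as2_riesz E h

/-- Proof: install N as a norm on G.  If G is infinite-dimensional, Riesz' lemma (`riesz_lemma_of_norm_lt` applied to the
closed finite-dimensional subspace spanned by E and x_0..x_{l-1}; or `exists_seq_norm_le_one_le_norm_sub` in the normed quotient G ⧸ E,
then lift with norm ≤ R+1) gives x_l ∈ G, N x_l ≤ R, qN(x_l - x_m) ≥ 1 for l ≠ m.  Along the subsequence of `hcomp`,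
d_l = x_{φ(l+1)} - x_{φ l} is Wk and bounded by 2R, so N(T^J d_l) ≤ 1/2 eventually; but T^J d - ζ^J d ∈ E for d ∈ G, so
N(T^J d_l) ≥ qN(T^J d_l) = ‖ζ‖^J qN(d_l) ≥ 1. -/
theorem as2 {Y : Type*} [AddCommGroup Y] [Module ℂ Y] (E G : Submodule ℂ Y) (hEG : E ≤ G)
    [FiniteDimensional ℂ E] (N : Seminorm ℂ Y) (hN : ∀ x, N x = 0 → x = 0)
    (T : Y →ₗ[ℂ] Y) (hTE : ∀ e ∈ E, T e ∈ E) (ζ : ℂ) (hζ : 1 ≤ ‖ζ‖)
    (hG : ∀ x ∈ G, T x - ζ • x ∈ E)
    (Wk : (ℕ → Y) → Prop) (wsmul : ∀ (c : ℂ) x, Wk x → Wk (fun l => c • x l))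
    (hLY : ∀ ε : ℝ, 0 < ε → ∃ J : ℕ, ∀ x : ℕ → Y, (∀ l, N (x l) ≤ 1) → Wk x →
      ∀ᶠ l in atTop, N ((T ^ J) (x l)) ≤ ε)
    (hcomp : ∀ x : ℕ → Y, (∀ l, N (x l) ≤ 1) →
      ∃ φ : ℕ → ℕ, StrictMono φ ∧ Wk (fun l => x (φ (l + 1)) - x (φ l))) :
    FiniteDimensional ℂ G := by
  by_contra h
  have : FiniteDimensional ℂ (E.comap G.subtype) :=
    (Submodule.comapSubtypeEquivOfLe hEG).symm.finiteDimensional
  obtain ⟨x, h1, h2⟩ := as2_riesz' (N.comp G.subtype) (fun x hx => Subtype.ext (hN x hx))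
    (E.comap G.subtype) h
  have h1' : ∀ l, N (x l : Y) ≤ 3 := h1
  have hq : ∀ m l, m < l → 1 ≤ qN N E ((x l : Y) - x m) := fun m l hml =>
    le_qN N E _ fun e he => h2 m l hml ⟨e, hEG he⟩ he
  have hpow : ∀ J : ℕ, ∀ y ∈ G, (T ^ J) y - ζ ^ J • y ∈ E := by
    intro J y hy
    induction J with
    | zero => simp
    | succ J ih =>
      have e : (T ^ (J + 1)) y - ζ ^ (J + 1) • y =
          T ((T ^ J) y - ζ ^ J • y) + ζ ^ J • (T y - ζ • y) := by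
        rw [pow_succ', Module.End.mul_apply, map_sub, map_smul, smul_sub, smul_smul, pow_succ]
        abel
      rw [e]
      exact add_mem (hTE _ ih) (E.smul_mem _ (hG y hy))
  have hb : ∀ l, N ((1 / 3 : ℂ) • (x l : Y)) ≤ 1 := fun l => by
    rw [map_smul_eq_mul]
    have := h1' l
    norm_num
    linarith
  obtain ⟨φ, hφ, hW⟩ := hcomp (fun l => (1 / 3 : ℂ) • (x l : Y)) hb
  obtain ⟨J, hJ⟩ := hLY (1 / 12) (by norm_num)
  obtain ⟨l, hl⟩ := (hJ _ (fun l => by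
    rw [map_smul_eq_mul]
    have h3 := map_sub_le_add N ((1 / 3 : ℂ) • (x (φ (l + 1)) : Y)) ((1 / 3 : ℂ) • (x (φ l) : Y))
    have h4 := hb (φ (l + 1))
    have h5 := hb (φ l)
    have h6 : ‖(1 / 2 : ℂ)‖ = 1 / 2 := by norm_num
    rw [h6]
    linarith) (wsmul (1 / 2) _ hW)).exists
  rw [← smul_sub, smul_smul] at hl
  set y : Y := ((1 / 2 : ℂ) * (1 / 3)) • ((x (φ (l + 1)) : Y) - x (φ l)) with hy
  have hyG : y ∈ G := G.smul_mem _ (sub_mem (x _).2 (x _).2)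
  have h3 := qN_le_self N E ((T ^ J) y)
  rw [← qN_sub_mem N E _ (hpow J y hyG), sub_sub_cancel, qN_smul, hy, qN_smul, ← hy, norm_pow] at h3
  have h4 := hq _ _ (hφ (Nat.lt_succ_self l))
  have h5 : 1 ≤ ‖ζ‖ ^ J := one_le_pow₀ hζ
  have h6 : ‖((1 / 2 : ℂ) * (1 / 3))‖ = 1 / 6 := by norm_num
  rw [h6] at h3
  nlinarith

theorem as3_bound {X : Type*} [AddCommGroup X] [Module ℂ X] {ι : Type*} [Fintype ι]
    (N : Seminorm ℂ X) (Φ : (ι → ℂ) →ₗ[ℂ] X) (hN : ∀ c, N (Φ c) = 0 → Φ c = 0) :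
    ∃ C₀ : ℝ, 0 ≤ C₀ ∧ (∀ c, N (Φ c) ≤ C₀ * ‖c‖) ∧
      ∀ e ∈ LinearMap.range Φ, ∃ c, Φ c = e ∧ ‖c‖ ≤ C₀ * N e := by
  have hN' : ∀ e : LinearMap.range Φ, N.comp (LinearMap.range Φ).subtype e = 0 → e = 0 := by
    rintro ⟨_, c, rfl⟩ h
    exact Subtype.ext (hN c h)
  let : Norm (LinearMap.range Φ) := ⟨N.comp (LinearMap.range Φ).subtype⟩
  let : NormedAddCommGroup (LinearMap.range Φ) := NormedAddCommGroup.ofCore (as2_core _ hN')
  let : NormedSpace ℂ (LinearMap.range Φ) := NormedSpace.ofCore (as2_core _ hN')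
  obtain ⟨g, hg⟩ := Φ.rangeRestrict.exists_rightInverse_of_surjective Φ.range_rangeRestrict
  let g' := LinearMap.toContinuousLinearMap g
  let f' := LinearMap.toContinuousLinearMap Φ.rangeRestrict
  refine ⟨‖g'‖ + ‖f'‖, by positivity, fun c => ?_, fun e he => ⟨g ⟨e, he⟩, ?_, ?_⟩⟩
  · have h1 : N (Φ c) ≤ ‖f'‖ * ‖c‖ := f'.le_opNorm c
    nlinarith [norm_nonneg g', norm_nonneg c]
  · exact congrArg Subtype.val (LinearMap.congr_fun hg ⟨e, he⟩)
  · have h1 : ‖g ⟨e, he⟩‖ ≤ ‖g'‖ * N e := g'.le_opNorm ⟨e, he⟩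
    nlinarith [norm_nonneg f', apply_nonneg N e]

theorem as3_tail {d K : ℝ} (hd : 1 ≤ d) (c : ℕ → ℂ) (hc : ∀ j, ‖c j‖ ≤ K * (1 / 2) ^ j) :
    ∃ r : ℕ → ℂ, (∀ j, d * r j = c j + r (j + 1)) ∧ ∀ j, ‖r j‖ ≤ 2 * K * (1 / 2) ^ j := by
  have hd0 : (d : ℂ) ≠ 0 := by exact_mod_cast (by linarith : d ≠ 0)
  have hb : ∀ j m, ‖(d : ℂ)⁻¹ ^ (m + 1) * c (j + m)‖ ≤ K * (1 / 2) ^ j * (1 / 2) ^ m := by
    intro j m
    have h1 : ‖(d : ℂ)⁻¹‖ ≤ 1 := by
      rw [norm_inv, Complex.norm_real, Real.norm_eq_abs, abs_of_pos (by linarith)]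
      exact inv_le_one_of_one_le₀ hd
    rw [norm_mul, norm_pow, mul_assoc, ← pow_add]
    exact (mul_le_of_le_one_left (norm_nonneg _) (pow_le_one₀ (norm_nonneg _) h1)).trans (hc _)
  have hs : ∀ j, HasSum (fun m : ℕ => K * (1 / 2) ^ j * (1 / 2 : ℝ) ^ m) (K * (1 / 2) ^ j * 2) :=
    fun j => hasSum_geometric_two.mul_left _
  have hS : ∀ j, Summable fun m : ℕ => (d : ℂ)⁻¹ ^ (m + 1) * c (j + m) := fun j =>
    Summable.of_norm_bounded (hs j).summable (hb j)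
  refine ⟨fun j => ∑' m : ℕ, (d : ℂ)⁻¹ ^ (m + 1) * c (j + m), fun j => ?_, fun j => ?_⟩
  · simp only
    rw [(hS j).tsum_eq_zero_add, mul_add, ← tsum_mul_left]
    congr 1
    · simp [hd0]
    · refine tsum_congr fun m => ?_
      rw [show j + (m + 1) = j + 1 + m by ring, pow_succ' _ (m + 1), ← mul_assoc, ← mul_assoc,
        mul_inv_cancel₀ hd0, one_mul]
  · exact (tsum_of_norm_bounded (hs j) (hb j)).trans_eq (by ring)

/-- Proof: E = range Φ.  There is C₀ such that every e ∈ E is Φ c with ‖c‖ ≤ C₀ N e (a linear right inverse of Φ on E,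
`LinearMap.exists_rightInverse_of_surjective`, is bounded because N is a norm on the finite-dimensional E).
qN(T^j x) ≤ 2^{-j} N x; if N x = 0 take c = 0; else pick P_j ∈ E, N(T^j x - P_j) ≤ 2·2^{-j} N x, P_0 = 0; P_{j+1} - T P_j = Φ(c_j), ‖c_j‖ ≤ C 2^{-j} N x;
c = Σ_j d^{-(j+1)} c_j (coordinatewise, d ≥ 1); T^jΦc - P_j = Φ(Σ_{i ≥ j} d^{j-i-1} c_i) has N ≤ C 2^{-j} N x. -/
theorem as3 {X : Type*} [AddCommGroup X] [Module ℂ X] {ι : Type*} [Fintype ι] (N : Seminorm ℂ X)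
    (T : X →ₗ[ℂ] X) (C : ℝ) (hC : 0 ≤ C) (hT : ∀ x, N (T x) ≤ C * N x) (Φ : (ι → ℂ) →ₗ[ℂ] X)
    (hN : ∀ c, N (Φ c) = 0 → Φ c = 0) (d : ι → ℝ) (hd : ∀ i, 1 ≤ d i)
    (hΦ : ∀ c, T (Φ c) = Φ (fun i => d i * c i))
    (hq : ∀ x, qN N (LinearMap.range Φ) (T x) ≤ qN N (LinearMap.range Φ) x / 2) :
    ∃ C' : ℝ, 0 < C' ∧ ∀ x, ∃ c : ι → ℂ, ‖c‖ ≤ C' * N x ∧
      ∀ j : ℕ, N ((T ^ j) (x - Φ c)) ≤ C' * (1 / 2) ^ j * N x := by
  obtain ⟨C₀, hC₀, hΦb, hinv⟩ := as3_bound N Φ hN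
  have hqj : ∀ x (j : ℕ), qN N (LinearMap.range Φ) ((T ^ j) x) ≤ (1 / 2) ^ j * N x := by
    intro x j
    induction j with
    | zero => simpa using qN_le_self N _ x
    | succ j ih =>
      rw [pow_succ', Module.End.mul_apply, pow_succ]
      linarith [hq ((T ^ j) x)]
  have hTE : ∀ e ∈ LinearMap.range Φ, T e ∈ LinearMap.range Φ := by
    rintro _ ⟨c, rfl⟩
    exact ⟨_, (hΦ c).symm⟩
  refine ⟨2 + (C₀ + 1) * (2 * (C₀ * (2 * C + 1))), by positivity, fun x => ?_⟩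
  rcases (apply_nonneg N x).eq_or_lt with h0 | h0
  · refine ⟨0, by simp [← h0], fun j => ?_⟩
    rw [map_zero, sub_zero, ← h0, mul_zero]
    induction j with
    | zero => simp [← h0]
    | succ j ih =>
      rw [pow_succ', Module.End.mul_apply]
      exact (hT _).trans (mul_nonpos_of_nonneg_of_nonpos hC ih)
  have hP : ∀ j : ℕ, ∃ P ∈ LinearMap.range Φ, N ((T ^ j) x - P) ≤ 2 * (1 / 2) ^ j * N x ∧
      (j = 0 → P = 0) := by
    intro j
    rcases Nat.eq_zero_or_pos j with rfl | hj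
    · exact ⟨0, zero_mem _, by simp; linarith, fun _ => rfl⟩
    · obtain ⟨e, he, h1⟩ := exists_lt_qN N (LinearMap.range Φ) ((T ^ j) x)
        (ε := (1 / 2) ^ j * N x) (by positivity)
      exact ⟨e, he, by linarith [hqj x j], fun h => absurd h hj.ne'⟩
  choose P hPm hPb hP0 using hP
  choose c hc hcb using fun j => hinv (P (j + 1) - T (P j)) (sub_mem (hPm _) (hTE _ (hPm j)))
  have hcb' : ∀ j, ‖c j‖ ≤ C₀ * (2 * C + 1) * N x * (1 / 2) ^ j := by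
    intro j
    have e : P (j + 1) - T (P j) = T ((T ^ j) x - P j) - ((T ^ (j + 1)) x - P (j + 1)) := by
      rw [pow_succ', Module.End.mul_apply, map_sub]
      abel
    have h1 := map_sub_le_add N (T ((T ^ j) x - P j)) ((T ^ (j + 1)) x - P (j + 1))
    have h2 := (hT _).trans (mul_le_mul_of_nonneg_left (hPb j) hC)
    have h3 := hPb (j + 1)
    rw [← e] at h1
    rw [pow_succ (1 / 2 : ℝ)] at h3
    refine (hcb j).trans ?_
    calc C₀ * N (P (j + 1) - T (P j)) ≤ C₀ * ((2 * C + 1) * N x * (1 / 2) ^ j) :=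
          mul_le_mul_of_nonneg_left (by linarith) hC₀
      _ = _ := by ring
  choose r hr hrb using fun i => as3_tail (hd i) (fun j => c j i)
    fun j => (norm_le_pi_norm (c j) i).trans (hcb' j)
  have hrb' : ∀ j, ‖fun i => r i j‖ ≤ 2 * (C₀ * (2 * C + 1) * N x) * (1 / 2) ^ j := fun j =>
    (pi_norm_le_iff_of_nonneg (by positivity)).2 fun i => hrb i j
  have key : ∀ j : ℕ, (T ^ j) (Φ fun i => r i 0) = P j + Φ fun i => r i j := by
    intro j
    induction j with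
    | zero => simp [hP0 0 rfl]
    | succ j ih =>
      have e : (fun i => (d i : ℂ) * r i j) = c j + fun i => r i (j + 1) := funext fun i => hr i j
      rw [pow_succ', Module.End.mul_apply, ih, map_add, hΦ, e, map_add, hc]
      abel
  have hK : 0 ≤ C₀ * (2 * C + 1) * N x := by positivity
  refine ⟨fun i => r i 0, (hrb' 0).trans ?_, fun j => ?_⟩
  · rw [pow_zero, mul_one]
    nlinarith [mul_nonneg hC₀ hK]
  · rw [map_sub, key, ← sub_sub]
    have h1 := map_sub_le_add N ((T ^ j) x - P j) (Φ fun i => r i j)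
    have h2 := (hΦb _).trans (mul_le_mul_of_nonneg_left (hrb' j) hC₀)
    have h3 := hPb j
    have h4 : 0 ≤ C₀ * (2 * C + 1) * N x * (1 / 2) ^ j := by positivity
    nlinarith

end Crest.Agent.R086.C
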