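import Mathlib

/-! # Row 86, part C: from the time-S map to the generator (task) -/

open Filter Topology

namespace Crest.Agent.R086.C

/-- `V` is a space of functions with the topology of pointwise convergence.  Proof: G and E are closed in V
(`Submodule.closed_of_finiteDimensional`), so L x ∈ G for x ∈ G, L e ∈ E for e ∈ E, and L is linear on G (uniqueness of limits).
The induced endomorphism of the nontrivial finite-dimensional G/E has an eigenvalue λ (`Module.End.exists_eigenvalue`): x ∈ G \ E, Lx - λx = e ∈ E.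
Take a linear functional ℓ on G with ℓ x = 1, ℓ = 0 on E; linear maps on G are continuous (`LinearMap.continuous_of_finiteDimensional`).
u(s) = ℓ(T s x) is continuous on [0,S] with right derivative lim ℓ(T s ((T σ x - x)/σ)) = ℓ(T s (L x)) = λ u(s); so e^{-λs}u(s) is constant
(`constant_of_has_deriv_right_zero`), ζ = u(S) = e^{λS}, and ‖ζ‖ ≥ 1 gives Re λ ≥ 0. -/
theorem as4 {V : Type*} [AddCommGroup V] [Module ℂ V] [TopologicalSpace V] [IsTopologicalAddGroup V]
    [ContinuousSMul ℂ V] [T2Space V] (E G : Submodule ℂ V) (hEG : E ≤ G) (hne : ¬ G ≤ E)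
    [FiniteDimensional ℂ G] (T : ℝ → G →ₗ[ℂ] G) (h0 : ∀ x, T 0 x = x)
    (hsemi : ∀ s σ : ℝ, 0 ≤ s → 0 ≤ σ → ∀ x, T (s + σ) x = T s (T σ x))
    (hTE : ∀ s : ℝ, 0 ≤ s → ∀ x : G, (x : V) ∈ E → (T s x : V) ∈ E)
    (hcont : ∀ x : G, ContinuousOn (fun s => (T s x : V)) (Set.Ici 0))
    (L : V → V)
    (hL : ∀ x : G, Tendsto (fun σ : ℝ => ((σ : ℂ)⁻¹) • ((T σ x : V) - x)) (𝓝[>] 0) (𝓝 (L x)))
    (S : ℝ) (hS : 0 < S) (ζ : ℂ) (hζ : 1 ≤ ‖ζ‖) (hG : ∀ x : G, (T S x : V) - ζ • (x : V) ∈ E) :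
    ∃ lam : ℂ, 0 ≤ lam.re ∧ ∃ x ∈ G, x ∉ E ∧ L x - lam • x ∈ E := by
  have hLG : ∀ x : G, L x ∈ G := fun x =>
    G.closed_of_finiteDimensional.mem_of_tendsto (hL x)
      (Eventually.of_forall fun σ => G.smul_mem _ (G.sub_mem (T σ x).2 x.2))
  have hA0 : ∀ x : G, Tendsto (fun σ : ℝ => ((σ : ℂ)⁻¹) • (T σ x - x)) (𝓝[>] 0)
      (𝓝 (⟨L x, hLG x⟩ : G)) := fun x => tendsto_subtype_rng.2 (hL x)
  let A : G →ₗ[ℂ] G :=
    { toFun := fun x => ⟨L x, hLG x⟩
      map_add' := fun x y => tendsto_nhds_unique (hA0 (x + y)) (((hA0 x).add (hA0 y)).congr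
        fun σ => by rw [map_add, ← smul_add]; congr 1; abel)
      map_smul' := fun c x => tendsto_nhds_unique (hA0 (c • x)) (((hA0 x).const_smul c).congr
        fun σ => by rw [map_smul, ← smul_sub, smul_comm]) }
  have hA : ∀ x : G, Tendsto (fun σ : ℝ => ((σ : ℂ)⁻¹) • (T σ x - x)) (𝓝[>] 0) (𝓝 (A x)) := hA0
  let E' : Submodule ℂ G := E.comap G.subtype
  have hAE : E' ≤ E'.comap A := fun x hx =>
    E'.closed_of_finiteDimensional.mem_of_tendsto (hA x)
      (eventually_nhdsWithin_of_forall fun σ hσ =>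
        E'.smul_mem _ (E'.sub_mem (hTE σ (le_of_lt hσ) x hx) hx))
  have : Nontrivial (G ⧸ E') := Submodule.Quotient.nontrivial_iff.2 fun h => hne fun x hx =>
    (h ▸ Submodule.mem_top : (⟨x, hx⟩ : G) ∈ E')
  obtain ⟨lam, hlam⟩ := Module.End.exists_eigenvalue (E'.mapQ E' A hAE)
  obtain ⟨v, hv⟩ := hlam.exists_hasEigenvector
  obtain ⟨x, rfl⟩ := E'.mkQ_surjective v
  have hx : x ∉ E' := fun h => hv.2 ((Submodule.Quotient.mk_eq_zero E').2 h)
  have hAx : A x - lam • x ∈ E' := (Submodule.Quotient.eq E').1 hv.apply_eq_smul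
  refine ⟨lam, ?_, x, x.2, hx, hAx⟩
  obtain ⟨l, hl, hlE⟩ := E'.exists_dual_map_eq_bot_of_notMem hx inferInstance
  have hl0 : ∀ y ∈ E', l y = 0 := fun y hy => by
    have : l y ∈ E'.map l := ⟨y, hy, rfl⟩
    rwa [hlE] at this
  have hu : ContinuousOn (fun s => l (T s x)) (Set.Ici 0) :=
    l.continuous_of_finiteDimensional.comp_continuousOn
      (Topology.IsInducing.subtypeVal.continuousOn_iff.2 (hcont x))
  have hd : ∀ s : ℝ, 0 ≤ s →
      HasDerivWithinAt (fun s => l (T s x)) (lam * l (T s x)) (Set.Ici s) s := fun s hs => by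
    refine HasDerivWithinAt.Ici_of_Ioi ?_
    rw [hasDerivWithinAt_iff_tendsto_slope' Set.self_notMem_Ioi]
    have h1 : Tendsto (fun t : ℝ => t - s) (𝓝[>] s) (𝓝[>] 0) :=
      tendsto_nhdsWithin_iff.2 ⟨tendsto_nhdsWithin_of_tendsto_nhds
        (by simpa using (continuous_sub_right s).tendsto s),
        eventually_nhdsWithin_of_forall fun t ht => Set.mem_Ioi.2 (sub_pos.2 ht)⟩
    have h2 := (((l ∘ₗ T s).continuous_of_finiteDimensional.tendsto _).comp (hA x)).comp h1
    have h3 : (l ∘ₗ T s) (A x) = lam * l (T s x) := by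
      have := hl0 _ (hTE s hs (A x - lam • x) hAx)
      rw [map_sub, map_sub, map_smul, map_smul, sub_eq_zero] at this
      exact this
    rw [h3] at h2
    refine h2.congr' (eventually_nhdsWithin_of_forall fun t ht => ?_)
    have h4 : T t x = T s (T (t - s) x) := by
      rw [← hsemi s (t - s) hs (sub_pos.2 ht).le, add_sub_cancel]
    simp only [Function.comp, LinearMap.comp_apply, map_smul, map_sub, slope_def_module, h4,
      smul_eq_mul, Complex.real_smul, Complex.ofReal_inv]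
  have he : ∀ s : ℝ, HasDerivAt (fun s : ℝ => Complex.exp (-lam * s))
      (Complex.exp (-lam * s) * -lam) s := fun s => by
    simpa using ((hasDerivAt_id (s : ℂ)).const_mul (-lam)).cexp.comp_ofReal
  have hc := constant_of_has_deriv_right_zero (f := fun s : ℝ => Complex.exp (-lam * s) * l (T s x))
    (a := 0) (b := S)
    (ContinuousOn.mul (fun s _ => (he s).continuousAt.continuousWithinAt)
      (hu.mono Set.Icc_subset_Ici_self))
    (fun s hs => ((he s).hasDerivWithinAt.fun_mul (hd s hs.1)).congr_deriv (by ring))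
    S ⟨hS.le, le_rfl⟩
  have h5 : l (T S x) = ζ * l x := by
    have := hl0 (T S x - ζ • x) (hG x)
    rwa [map_sub, map_smul, sub_eq_zero] at this
  rw [h5, h0, Complex.ofReal_zero, mul_zero, Complex.exp_zero, ← mul_assoc] at hc
  have h6 := congrArg norm (mul_right_cancel₀ hl hc)
  rw [norm_mul, norm_one, Complex.norm_exp] at h6
  have h7 : Real.exp (-lam * S).re ≤ 1 :=
    h6 ▸ le_mul_of_one_le_right (Real.exp_pos _).le hζ
  rw [Real.exp_le_one_iff, Complex.re_mul_ofReal, Complex.neg_re] at h7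
  by_contra h
  nlinarith [mul_pos (neg_pos.2 (not_le.1 h)) hS]

end Crest.Agent.R086.C
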