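import Crest.Agent.R086.C.Zs

/-! # Row 86, part C: algebra of `Lin` (task) -/

open MeasureTheory Set Filter Topology
open scoped ContDiff ComplexConjugate ENNReal
open Crest.AnalysisR.PDE.NLS

namespace Crest.Agent.R086

noncomputable section

variable {n : ℕ} {b : ℝ} {q : ℝ → ℂ} {k : ℕ} {h : ℝ} {J : Set ℝ} {z S w R : ℝ → R12 → ℂ}

theorem Basic_d2 (hz : Ck (k + 2) J z) {t : ℝ} (ht : t ∈ J) : ContDiff ℝ 2 (z t) :=
  (hz.diff t ht).of_le (by exact_mod_cast Nat.le_add_left 2 k)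

theorem Basic_d1 (hz : Ck (k + 2) J z) {t : ℝ} (ht : t ∈ J) : ContDiff ℝ (k + 1 : ℕ) (z t) :=
  (hz.diff t ht).of_le (by exact_mod_cast Nat.le_succ (k + 1))

theorem Basic_ck0 : Ck k J (0 : ℝ → R12 → ℂ) :=
  E.ck_space (f := fun _ => (0 : ℂ)) contDiff_const

theorem Lin.mono (hz : Lin n b q k h J z S) {J' : Set ℝ} (hJ : J' ⊆ J) : Lin n b q k h J' z S := by
  refine ⟨E.ck_subset hz.reg hJ, E.ck_subset hz.regS hJ, fun t ht => hz.per t (hJ ht),
    fun t ht => hz.perS t (hJ ht), fun h0 => ?_, fun t ht y => (hz.eqn t (hJ ht) y).mono hJ⟩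
  obtain ⟨B, hB⟩ := hz.fin h0
  exact ⟨B, fun t ht => hB t (hJ ht)⟩

theorem Lin.level (hz : Lin n b q k h J z S) {k' : ℕ} (hk : k' ≤ k) : Lin n b q k' h J z S := by
  refine ⟨E.ck_mono hz.reg (by omega), E.ck_mono hz.regS hk, hz.per, hz.perS, fun h0 => ?_, hz.eqn⟩
  obtain ⟨B, hB⟩ := hz.fin h0
  exact ⟨B, fun t ht => (C.nrmT_mono (by omega) _ _ _).trans (hB t ht)⟩

theorem Lin.congr (hz : Lin n b q k h J z S) (h1 : ∀ t ∈ J, ∀ y, z t y = w t y)
    (h2 : ∀ t ∈ J, ∀ y, S t y = R t y) : Lin n b q k h J w R := by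
  have e1 : ∀ t ∈ J, w t = z t := fun t ht => funext fun y => (h1 t ht y).symm
  have e2 : ∀ t ∈ J, R t = S t := fun t ht => funext fun y => (h2 t ht y).symm
  refine ⟨E.ck_congr hz.reg h1, E.ck_congr hz.regS h2, fun t ht => e1 t ht ▸ hz.per t ht,
    fun t ht => e2 t ht ▸ hz.perS t ht, fun h0 => ?_, fun t ht y => ?_⟩
  · obtain ⟨B, hB⟩ := hz.fin h0
    exact ⟨B, fun t ht => e1 t ht ▸ hB t ht⟩
  · rw [e1 t ht, e2 t ht]
    exact (hz.eqn t ht y).congr (fun s hs => (h1 s hs y).symm) (h1 t ht y).symm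

theorem Lin.add (hz : Lin n b q k h J z S) (hw : Lin n b q k h J w R) :
    Lin n b q k h J (fun t y => z t y + w t y) (fun t y => S t y + R t y) := by
  refine ⟨E.ck_add hz.reg hw.reg, E.ck_add hz.regS hw.regS, fun t ht h0 y i => ?_,
    fun t ht h0 y i => ?_, fun h0 => ?_, fun t ht y => ?_⟩
  · simp only [hz.per t ht h0 y i, hw.per t ht h0 y i]
  · simp only [hz.perS t ht h0 y i, hw.perS t ht h0 y i]
  · obtain ⟨B, hB⟩ := hz.fin h0
    obtain ⟨B', hB'⟩ := hw.fin h0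
    refine ⟨max B 0 + max B' 0, fun t ht => ?_⟩
    refine (C.nrmT_add_le 0 t (Basic_d1 hz.reg ht) (Basic_d1 hw.reg ht)).trans ?_
    rw [ENNReal.ofReal_add (le_max_right _ _) (le_max_right _ _)]
    exact add_le_add ((hB t ht).trans (ENNReal.ofReal_le_ofReal (le_max_left _ _)))
      ((hB' t ht).trans (ENNReal.ofReal_le_ofReal (le_max_left _ _)))
  · refine ((hz.eqn t ht y).add (hw.eqn t ht y)).congr_deriv ?_
    rw [C.lap_add (Basic_d2 hz.reg ht) (Basic_d2 hw.reg ht), map_add]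
    ring

theorem Lin.smul (hz : Lin n b q k h J z S) (c : ℝ) :
    Lin n b q k h J (fun t y => (c : ℂ) * z t y) (fun t y => (c : ℂ) * S t y) := by
  refine ⟨E.ck_const_mul _ hz.reg, E.ck_const_mul _ hz.regS, fun t ht h0 y i => ?_,
    fun t ht h0 y i => ?_, fun h0 => ?_, fun t ht y => ?_⟩
  · simp only [hz.per t ht h0 y i]
  · simp only [hz.perS t ht h0 y i]
  · obtain ⟨B, hB⟩ := hz.fin h0
    refine ⟨‖(c : ℂ)‖ * B, fun t ht => ?_⟩
    rw [C.nrmT_const_mul 0 t _ (Basic_d1 hz.reg ht), ENNReal.ofReal_mul (norm_nonneg _)]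
    exact mul_le_mul_right (hB t ht) _
  · refine ((hz.eqn t ht y).const_mul (c : ℂ)).congr_deriv ?_
    rw [C.lap_const_mul (Basic_d2 hz.reg ht), map_mul, Complex.conj_ofReal]
    ring

theorem Lin.sub (hz : Lin n b q k h J z S) (hw : Lin n b q k h J w R) :
    Lin n b q k h J (fun t y => z t y - w t y) (fun t y => S t y - R t y) := by
  refine (hz.add (hw.smul (-1))).congr (fun t _ y => ?_) (fun t _ y => ?_)
  · push_cast; ring
  · push_cast; ring

theorem Lin.zero (n : ℕ) (b : ℝ) (q : ℝ → ℂ) (k : ℕ) (h : ℝ) (J : Set ℝ) :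
    Lin n b q k h J (fun _ _ => 0) 0 := by
  refine ⟨Basic_ck0, Basic_ck0, fun t _ _ y i => rfl, fun t _ _ y i => rfl, fun _ => ⟨0, fun t _ => ?_⟩,
    fun t _ y => ?_⟩
  · rw [C.nrmT_zero]; exact zero_le
  · have : lap (fun _ : R12 => (0 : ℂ)) y = 0 := by simp [lap]
    simpa [this] using hasDerivWithinAt_const t J (0 : ℂ)

/-- the time shift + rescaling of a homogeneous solution on the whole space (`ck_Zs`, `lap_Zs`, `UU_shift`, `V1_cp`, `V2_cp`,
`nrmT_shift`; chain rule for s ↦ t₀ + (1-t₀)s) -/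
theorem Lin.shift (hn : 1 ≤ n) {t₀ T : ℝ} (h₀ : 0 ≤ t₀) (h₁ : t₀ < 1) (hT : T < 1)
    (hz : Lin n b q k 0 (Icc 0 (t₀ + (1 - t₀) * T)) z 0) :
    Lin n b q k 0 (Icc 0 T) (fun s => Zs n b (1 - t₀) 0 0 (z (t₀ + (1 - t₀) * s))) 0 := by
  have hτ : 0 < 1 - t₀ := by linarith
  have hm : MapsTo (fun s => t₀ + (1 - t₀) * s) (Icc 0 T) (Icc 0 (t₀ + (1 - t₀) * T)) := by
    intro s hs
    constructor
    · have := mul_nonneg hτ.le hs.1
      linarith
    · have := mul_le_mul_of_nonneg_left hs.2 hτ.le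
      linarith
  refine ⟨E.ck_subset (C.ck_Zs hz.reg t₀ (1 - t₀) 0 0) hm, Basic_ck0, fun t _ h0 => absurd rfl h0,
    fun t _ h0 => absurd rfl h0, fun _ => ?_, fun s hs y => ?_⟩
  · obtain ⟨B, hB⟩ := hz.fin rfl
    refine ⟨B, fun s hs => ?_⟩
    have := C.nrmT_shift (n := n) (b := b) (k + 1) 0 h₁ (hs.2.trans_lt hT) (z (t₀ + (1 - t₀) * s))
    rw [zero_mul] at this
    rw [this]
    exact hB _ (hm hs)
  · have hs1 : s < 1 := hs.2.trans_lt hT
    have hlin : HasDerivWithinAt (fun s => t₀ + (1 - t₀) * s) (1 - t₀) (Icc 0 T) s := by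
      simpa using (((hasDerivAt_id s).const_mul (1 - t₀)).const_add t₀).hasDerivWithinAt
    have h2 := ((hz.eqn _ (hm hs) (Real.sqrt (1 - t₀) • y)).scomp s hlin hm).const_mul
      (cp (1 - t₀) ((aa n : ℂ) - Complex.I * b))
    have hU := congrFun (C.UU_shift (n := n) (b := b) (q := q) 0 h₁ hs1) y
    rw [zero_mul, C.Zs_apply0] at hU
    have h3 := C.lap_Zs (n := n) (b := b) (Basic_d2 hz.reg (hm hs)) hτ 0 0 y
    beta_reduce at h3
    simp only [h3, C.Zs_apply0]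
    refine h2.congr_deriv ?_
    rw [← hU, C.V1_cp hn hτ, C.V2_cp hn hτ]
    simp only [Pi.zero_apply, Complex.real_smul]
    ring

/-- rotation invariance (`ck_affine`, `lap_isometry`, `UU_isometry`, `nrmT_isometry`) -/
theorem Lin.rot (hz : Lin n b q k 0 J z 0) (O : R12 ≃ₗᵢ[ℝ] R12) :
    Lin n b q k 0 J (fun t y => z t (O y)) 0 := by
  refine ⟨?_, Basic_ck0, fun t _ h0 => absurd rfl h0, fun t _ h0 => absurd rfl h0, fun _ => ?_,
    fun t ht y => ?_⟩
  · have := C.ck_affine hz.reg 0 1 1 0 (O.toContinuousLinearEquiv : R12 →L[ℝ] R12)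
    refine E.ck_congr (E.ck_subset this fun s hs => by simpa using hs) fun t _ y => ?_
    simp
  · obtain ⟨B, hB⟩ := hz.fin rfl
    exact ⟨B, fun t ht => by rw [C.nrmT_isometry]; exact hB t ht⟩
  · have := hz.eqn t ht (O y)
    rw [C.UU_isometry] at this
    rw [C.lap_isometry (Basic_d2 hz.reg ht)]
    exact this

/-- the right-hand side of the equation is jointly continuous -/
theorem Lin.ck_rhs (hU : UUStmt) (hP : Prof n b q) (hJ : J ⊆ Iio 1) (hz : Lin n b q k h J z S) :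
    Ck k J (fun t y => Complex.I * (lap (z t) y - (V1 n (UU n b q h t y) * z t y
      + V2 n (UU n b q h t y) * conj (z t y) + S t y))) := by
  have hu : Ck k J (UU n b q h) := E.ck_of_contDiffOn isOpen_Iio hJ ((hU n b q hP).1 h)
  have hz0 : Ck k J z := E.ck_mono hz.reg (by omega)
  exact E.ck_const_mul _ (E.ck_sub (E.ck_lap hz.reg) (E.ck_add (E.ck_add
    (E.ck_mul (E.ck_V1 n hu) hz0) (E.ck_mul (E.ck_V2 n hu) (E.ck_conj hz0))) hz.regS))

/-- uniqueness: apply the Gronwall part of the energy inequality to z - w with A = B = 0 on [0,t], then `SobStmt` (j = 0, B = 0)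
to `Zs (1-t) 0 0 (z t - w t)`, and invert `Zs` -/
theorem Lin.unique (hS : SobStmt) (hE : EnergyStmt) (hP : Prof n b q) :
    ∃ k₀ : ℕ, ∀ k : ℕ, k₀ ≤ k → ∀ T : ℝ, T < 1 → ∀ z w : ℝ → R12 → ℂ,
      Lin n b q k 0 (Icc 0 T) z 0 → Lin n b q k 0 (Icc 0 T) w 0 → z 0 = w 0 →
      ∀ t ∈ Icc 0 T, z t = w t := by
  obtain ⟨k₀, hk₀⟩ := hE n b q hP
  refine ⟨max k₀ 80, fun k hk T hT z w hz hw h0 t ht => ?_⟩
  obtain ⟨μ, C₁, -, -, hC⟩ := hk₀ k ((le_max_left _ _).trans hk)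
  obtain ⟨C', -, hC'⟩ := hS k ((le_max_right _ _).trans hk)
  have ht1 : t < 1 := ht.2.trans_lt hT
  have hτ : 0 < 1 - t := by linarith
  have hd := (hz.sub hw).mono (Icc_subset_Icc_right ht.2 : Icc 0 t ⊆ Icc 0 T)
  have hE1 := (hC 0 ⟨le_rfl, zero_le_one⟩ 0 t le_rfl ht.1 ht1 _ _ hd 0 0 le_rfl le_rfl
    (by simp only [h0, sub_self]; rw [C.nrmT_zero]; exact zero_le)
    (fun s _ => by
      simp only [Pi.zero_apply, sub_self, mul_zero]; rw [C.nrmT_zero]; exact zero_le)).1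
  rw [add_zero, mul_zero, nrmT, zero_mul] at hE1
  have hdiff : ContDiff ℝ k (fun y => z t y - w t y) :=
    (E.ck_mono hd.reg (Nat.le_add_right k 2)).diff t ⟨ht.1, le_rfl⟩
  funext y
  have h3 := (hC' 0 ⟨le_rfl, zero_le_one⟩ _ 0 le_rfl (E.contDiff_Zs n b (1 - t) 0 0 hdiff)
    (fun h0 => absurd rfl h0) hE1 0 ((Real.sqrt (1 - t))⁻¹ • y)).1 (by omega)
  rw [norm_iteratedFDeriv_zero, mul_zero, C.Zs_apply0, smul_inv_smul₀ (Real.sqrt_pos.2 hτ).ne',
    norm_le_zero_iff, mul_eq_zero] at h3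
  rcases h3 with h3 | h3
  · exact absurd h3 (E.cp_ne_zero _ _)
  · exact sub_eq_zero.1 h3

end

end Crest.Agent.R086
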