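import Crest.Agent.R086.C.AA
import Crest.Agent.R086.E.CkA

/-! # Row 86, part C: limits of C^K functions (task) -/

open MeasureTheory Set Filter Topology
open scoped ContDiff ComplexConjugate ENNReal
open Crest.AnalysisR.PDE.NLS

namespace Crest.Agent.R086.C

noncomputable section

theorem CompA_proper (j : ℕ) : ProperSpace (R12 [×j]→L[ℝ] ℂ) :=
  have : FiniteDimensional ℝ (R12 [×j]→L[ℝ] ℂ) :=
    Module.Finite.of_injective ContinuousMultilinearMap.toMultilinearMapLinear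
      ContinuousMultilinearMap.toMultilinearMap_injective
  FiniteDimensional.proper ℝ _

/-- Apply `aa` to g l (t,y) = (D^j (zs l t) y)_{j ≤ K} with values in the finite-dimensional space Π j : Fin (K+1), R12 [×j]→L[ℝ] ℂ
(or to the scalar coordinates, or j by j), K i = Icc 0 (1-1/(i+2)) ×ˢ closedBall 0 i; the Lipschitz bound in y comes from the bound on D^{j+1}
(mean value inequality, `norm_fderiv_iteratedFDeriv`).  With G the limit put z t y = G (t,y) 0 ![]; for fixed t,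
`hasFDerivAt_of_tendstoUniformlyOn` (on open balls) shows HasFDerivAt (G (t,·) j) (G (t,y) (j+1)).curryLeft y, so G (t,·) is a Taylor series
(`HasFTaylorSeriesUpTo`, `.contDiff`, `.eq_iteratedFDeriv`); uniform limits of jointly Lipschitz functions are jointly continuous. -/
theorem lim_smooth (K : ℕ) (zs : ℕ → ℝ → R12 → ℂ)
    (h : ∀ T ∈ Ico (0 : ℝ) 1, ∃ C : ℝ, ∀ᶠ l in atTop,
      (∀ t ∈ Icc 0 T, ContDiff ℝ (K + 1 : ℕ) (zs l t)) ∧
      (∀ j : ℕ, j ≤ K + 1 → ∀ t ∈ Icc 0 T, ∀ y, ‖iteratedFDeriv ℝ j (zs l t) y‖ ≤ C) ∧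
      (∀ j : ℕ, j ≤ K → ∀ s ∈ Icc 0 T, ∀ t ∈ Icc 0 T, ∀ y,
        ‖iteratedFDeriv ℝ j (zs l t) y - iteratedFDeriv ℝ j (zs l s) y‖ ≤ C * |t - s|)) :
    ∃ (φ : ℕ → ℕ) (z : ℝ → R12 → ℂ), StrictMono φ ∧ (∀ T ∈ Ico (0 : ℝ) 1, Ck K (Icc 0 T) z) ∧
      (∀ j : ℕ, j ≤ K → ∀ t ∈ Ico (0 : ℝ) 1, ∀ y,
        Tendsto (fun l => iteratedFDeriv ℝ j (zs (φ l) t) y) atTop (𝓝 (iteratedFDeriv ℝ j (z t) y))) ∧
      ∀ T ∈ Ico (0 : ℝ) 1, ∀ ϱ ε : ℝ, 0 < ε → ∀ᶠ l in atTop, ∀ t ∈ Icc 0 T, ∀ y : R12, ‖y‖ ≤ ϱ →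
        ‖zs (φ l) t y - z t y‖ ≤ ε := by
  have hL : ∀ T ∈ Ico (0 : ℝ) 1, ∃ C : ℝ, 0 ≤ C ∧ ∀ᶠ l in atTop, ∀ j ≤ K,
      (∀ p ∈ Icc 0 T ×ˢ (univ : Set R12), ‖iteratedFDeriv ℝ j (zs l p.1) p.2‖ ≤ C) ∧
      ∀ p ∈ Icc 0 T ×ˢ (univ : Set R12), ∀ p' ∈ Icc 0 T ×ˢ (univ : Set R12),
        ‖iteratedFDeriv ℝ j (zs l p.1) p.2 - iteratedFDeriv ℝ j (zs l p'.1) p'.2‖ ≤
          C * dist p p' := by
    intro T hT
    obtain ⟨C, hC⟩ := h T hT
    refine ⟨2 * |C|, by positivity, hC.mono fun l hl j hj => ⟨fun p hp => ?_, fun p hp p' hp' => ?_⟩⟩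
    · linarith [hl.2.1 j (by omega) _ hp.1 p.2, le_abs_self C, abs_nonneg C]
    · have h1 := hl.2.2 j hj _ hp'.1 _ hp.1 p.2
      have h2 : ‖iteratedFDeriv ℝ j (zs l p'.1) p.2 - iteratedFDeriv ℝ j (zs l p'.1) p'.2‖ ≤
          C * ‖p.2 - p'.2‖ := convex_univ.norm_image_sub_le_of_norm_fderiv_le (𝕜 := ℝ)
        (fun x _ => (hl.1 _ hp'.1).differentiable_iteratedFDeriv (by exact_mod_cast Nat.lt_succ_of_le hj) x)
        (fun x _ => norm_fderiv_iteratedFDeriv.trans_le (hl.2.1 (j + 1) (by omega) _ hp'.1 x))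
        (mem_univ _) (mem_univ _)
      have h3 : |p.1 - p'.1| ≤ dist p p' := by
        rw [← Real.dist_eq, Prod.dist_eq]; exact le_max_left _ _
      have h4 : ‖p.2 - p'.2‖ ≤ dist p p' := by
        rw [← dist_eq_norm, Prod.dist_eq]; exact le_max_right _ _
      have h5 := mul_le_mul (le_abs_self C) h3 (abs_nonneg _) (abs_nonneg C)
      have h6 := mul_le_mul (le_abs_self C) h4 (norm_nonneg _) (abs_nonneg C)
      linarith [norm_sub_le_norm_sub_add_norm_sub (iteratedFDeriv ℝ j (zs l p.1) p.2)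
        (iteratedFDeriv ℝ j (zs l p'.1) p.2) (iteratedFDeriv ℝ j (zs l p'.1) p'.2)]
  obtain ⟨φ, G, hφ, hU⟩ : ∃ (φ : ℕ → ℕ) (G : ∀ m : ℕ, ℝ × R12 → R12 [×m]→L[ℝ] ℂ), StrictMono φ ∧
      ∀ m ≤ K, ∀ T ∈ Ico (0 : ℝ) 1, ∀ ϱ : ℝ, TendstoUniformlyOn
        (fun l (p : ℝ × R12) => iteratedFDeriv ℝ m (zs (φ l) p.1) p.2) (G m) atTop
        (Icc 0 T ×ˢ Metric.closedBall 0 ϱ) := by
    have := CompA_proper
    obtain ⟨φ, G, hφ, hU⟩ := aa (Y := ∀ j : Fin (K + 1), R12 [×j]→L[ℝ] ℂ)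
      (fun i : ℕ => Icc (0 : ℝ) (1 - 1 / (i + 1)) ×ˢ Metric.closedBall (0 : R12) i)
      (fun i => isCompact_Icc.prod (isCompact_closedBall _ _))
      (fun l p j => iteratedFDeriv ℝ j (zs l p.1) p.2) fun i => by
        obtain ⟨C, hC0, hC⟩ := hL (1 - 1 / (i + 1)) ⟨sub_nonneg.2 (by
          rw [div_le_one (by positivity)]; linarith [i.cast_nonneg (α := ℝ)]),
          sub_lt_self _ (by positivity)⟩
        exact ⟨C, hC.mono fun l hl => ⟨fun p hp => (pi_norm_le_iff_of_nonneg hC0).2 fun j =>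
          (hl j j.is_le).1 p ⟨hp.1, trivial⟩, fun p hp p' hp' =>
          (pi_norm_le_iff_of_nonneg (by positivity)).2 fun j =>
            (hl j j.is_le).2 p ⟨hp.1, trivial⟩ p' ⟨hp'.1, trivial⟩⟩⟩
    refine ⟨φ, fun m p => if hm : m < K + 1 then G p ⟨m, hm⟩ else 0, hφ, fun m hm T hT ϱ => ?_⟩
    obtain ⟨i, hi1, hi2⟩ := ((tendsto_one_div_add_atTop_nhds_zero_nat.eventually
      (gt_mem_nhds (sub_pos.2 hT.2))).and
      (tendsto_natCast_atTop_atTop.eventually (eventually_ge_atTop ϱ))).exists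
    simp only [dif_pos (Nat.lt_succ_of_le hm)]
    exact ((Pi.uniformContinuous_proj _ (⟨m, Nat.lt_succ_of_le hm⟩ : Fin (K + 1))).comp_tendstoUniformlyOn
      (hU i)).mono (prod_mono (Icc_subset_Icc_right (by linarith))
        (Metric.closedBall_subset_closedBall hi2))
  have hP : ∀ m ≤ K, ∀ t ∈ Ico (0 : ℝ) 1, ∀ y, Tendsto
      (fun l => iteratedFDeriv ℝ m (zs (φ l) t) y) atTop (𝓝 (G m (t, y))) := fun m hm t ht y => by
    have := (hU m hm t ht ‖y‖).tendsto_at (x := (t, y))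
      ⟨⟨ht.1, le_rfl⟩, mem_closedBall_zero_iff.2 le_rfl⟩
    exact this
  have hC : ∀ m ≤ K, ∀ T ∈ Ico (0 : ℝ) 1, ContinuousOn (G m) (Icc 0 T ×ˢ univ) := by
    intro m hm T hT
    obtain ⟨C, -, hC⟩ := hL T hT
    refine (LipschitzOnWith.of_dist_le' (K := C) fun p hp p' hp' => ?_).continuousOn
    rw [dist_eq_norm]
    exact le_of_tendsto ((hP m hm p.1 ⟨hp.1.1, hp.1.2.trans_lt hT.2⟩ p.2).sub
      (hP m hm p'.1 ⟨hp'.1.1, hp'.1.2.trans_lt hT.2⟩ p'.2)).norm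
      ((hφ.tendsto_atTop.eventually hC).mono fun l hl => (hl m hm).2 p hp p' hp')
  have hF : ∀ t ∈ Ico (0 : ℝ) 1, HasFTaylorSeriesUpTo (K : ℕ∞) (fun y => (G 0 (t, y)).curry0)
      fun y m => G m (t, y) := fun t ht => by
    refine ⟨fun y => rfl, fun m hm x => ?_, fun m hm => ?_⟩
    · have hm : m < K := by exact_mod_cast hm
      obtain ⟨C, hC⟩ := h t ht
      refine hasFDerivAt_of_tendstoUniformlyOnFilter (l := atTop)
        (f := fun l => iteratedFDeriv ℝ m (zs (φ l) t))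
        (f' := fun l y => (iteratedFDeriv ℝ (m + 1) (zs (φ l) t) y).curryLeft)
        (g' := fun y => (G (m + 1) (t, y)).curryLeft) ?_ ?_
        (Eventually.of_forall (hP m hm.le t ht))
      · have h1 := ((continuousMultilinearCurryLeftEquiv ℝ (fun _ : Fin (m + 1) => R12)
          ℂ).isometry.uniformContinuous.comp_tendstoUniformlyOn
          (hU (m + 1) hm t ht (‖x‖ + 1))).comp (Prod.mk t)
        refine h1.tendstoUniformlyOnFilter.mono_right (le_principal_iff.2 ?_)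
        filter_upwards [Metric.closedBall_mem_nhds_of_mem (c := 0) (ε := ‖x‖ + 1) (by simp)]
          with y hy using ⟨⟨ht.1, le_rfl⟩, hy⟩
      · filter_upwards [(hφ.tendsto_atTop.eventually hC).prod_inl (𝓝 x)] with n hn
        exact (ContDiff.ftaylorSeries (n := ((K + 1 : ℕ) : ℕ∞))
          (hn.1 t ⟨ht.1, le_rfl⟩)).fderiv m (by exact_mod_cast hm.trans K.lt_succ_self) n.2
    · exact (hC m (by exact_mod_cast hm) t ht).comp_continuous (Continuous.prodMk_right t)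
        fun y => ⟨⟨ht.1, le_rfl⟩, trivial⟩
  have hE : ∀ m ≤ K, ∀ t ∈ Ico (0 : ℝ) 1, ∀ y,
      iteratedFDeriv ℝ m (fun y => (G 0 (t, y)).curry0) y = G m (t, y) := fun m hm t ht y =>
    ((hF t ht).eq_iteratedFDeriv (by exact_mod_cast hm) y).symm
  refine ⟨φ, fun t y => (G 0 (t, y)).curry0, hφ, fun T hT =>
    ⟨fun t ht => (hF t ⟨ht.1, ht.2.trans_lt hT.2⟩).contDiff, fun j hj => (hC j hj T hT).congr
      fun p hp => hE j hj p.1 ⟨hp.1.1, hp.1.2.trans_lt hT.2⟩ p.2⟩,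
    fun j hj t ht y => hE j hj t ht y ▸ hP j hj t ht y, fun T hT ϱ ε hε => ?_⟩
  filter_upwards [Metric.tendstoUniformlyOn_iff.1 (hU 0 K.zero_le T hT ϱ) ε hε] with l hl t ht y hy
  have h1 := hl (t, y) ⟨ht, mem_closedBall_zero_iff.2 hy⟩
  rw [dist_comm, dist_eq_norm, ← ContinuousMultilinearMap.fin0_apply_norm (x := 0)] at h1
  exact h1.le

end

end Crest.Agent.R086.C
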