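import Crest.Agent.R086.C.Basic

/-! # Row 86, part C: uniform bounds for solutions of the linearised equation (task) -/

open MeasureTheory Set Filter Topology
open scoped ContDiff ComplexConjugate ENNReal
open Crest.AnalysisR.PDE.NLS

namespace Crest.Agent.R086.C

noncomputable section

variable {n : ℕ} {b : ℝ} {q : ℝ → ℂ}

open Crest.Agent.R086.E

/-- `K` bounded derivatives -/
def CompB_Bd (K : ℕ) (f : R12 → ℂ) (C : ℝ) : Prop :=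
  ContDiff ℝ K f ∧ ∀ j : ℕ, j ≤ K → ∀ y, ‖iteratedFDeriv ℝ j f y‖ ≤ C

section Bd
variable {K : ℕ} {f g : R12 → ℂ} {C D : ℝ}

theorem CompB_Bd.nonneg (h : CompB_Bd K f C) : 0 ≤ C := (norm_nonneg _).trans (h.2 0 K.zero_le 0)

theorem CompB_Bd.mul (hf : CompB_Bd K f C) (hg : CompB_Bd K g D) :
    CompB_Bd K (fun y => f y * g y) (2 ^ K * (C * D)) := by
  refine ⟨hf.1.mul hg.1, fun j hj y => ?_⟩
  have := nrm_leibniz hj hf.1 hg.1 y zero_le_one (mul_nonneg hf.nonneg hg.nonneg) fun i hi => by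
    rw [one_mul]
    exact mul_le_mul (hf.2 i (hi.trans hj) y) (hg.2 _ ((Nat.sub_le _ _).trans hj) y)
      (norm_nonneg _) hf.nonneg
  rwa [one_mul] at this

theorem CompB_Bd.add (hf : CompB_Bd K f C) (hg : CompB_Bd K g D) :
    CompB_Bd K (fun y => f y + g y) (C + D) := by
  refine ⟨hf.1.add hg.1, fun j hj y => ?_⟩
  have hjk : (j : WithTop ℕ∞) ≤ K := by exact_mod_cast hj
  have := iteratedFDeriv_add_apply (hf.1.of_le hjk).contDiffAt (hg.1.of_le hjk).contDiffAt (x := y)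
  exact (congrArg norm this).trans_le ((norm_add_le _ _).trans (add_le_add (hf.2 j hj y) (hg.2 j hj y)))

theorem CompB_Bd.const_mul (hf : CompB_Bd K f C) (c : ℂ) :
    CompB_Bd K (fun y => c * f y) (‖c‖ * C) := by
  refine ⟨contDiff_const.mul hf.1, fun j hj y => ?_⟩
  rw [norm_iteratedFDeriv_const_mul (hf.1.of_le (by exact_mod_cast hj))]
  exact mul_le_mul_of_nonneg_left (hf.2 j hj y) (norm_nonneg _)

theorem CompB_Bd.sub (hf : CompB_Bd K f C) (hg : CompB_Bd K g D) :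
    CompB_Bd K (fun y => f y - g y) (C + D) := by
  simpa [sub_eq_add_neg] using hf.add (hg.const_mul (-1))

theorem CompB_Bd.conj' (hf : CompB_Bd K f C) : CompB_Bd K (fun y => conj (f y)) C :=
  ⟨Complex.conjCLE.contDiff.comp hf.1, fun j hj y => by
    rw [norm_iteratedFDeriv_conj]; exact hf.2 j hj y⟩

theorem CompB_Bd.mono (hf : CompB_Bd K f C) (h : C ≤ D) : CompB_Bd K f D :=
  ⟨hf.1, fun j hj y => (hf.2 j hj y).trans h⟩

theorem CompB_Bd.pow (hf : CompB_Bd K f C) (N : ℕ) :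
    CompB_Bd K (fun y => f y ^ N) ((2 ^ K * C) ^ N) := by
  induction N with
  | zero =>
    simp only [pow_zero]
    refine ⟨contDiff_const, fun j _ y => ?_⟩
    rcases j with _ | j
    · simp
    · rw [iteratedFDeriv_const_of_ne (Nat.succ_ne_zero j)]; simp
  | succ N ih =>
    simp only [pow_succ]
    exact (ih.mul hf).mono (le_of_eq (by ring))

end Bd

theorem CompB_unscale (n : ℕ) (b : ℝ) {τ τ₀ : ℝ} (h0 : 0 < τ₀) (h1 : τ₀ ≤ τ) (h2 : τ ≤ 1) {j K : ℕ}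
    (hj : j ≤ K) {f : R12 → ℂ} (hf : ContDiff ℝ j f) {M : ℝ}
    (H : ∀ y, ‖iteratedFDeriv ℝ j (Zs n b τ 0 0 f) y‖ ≤ M) (x : R12) :
    ‖iteratedFDeriv ℝ j f x‖ ≤ (τ₀ ^ aa n * Real.sqrt τ₀ ^ K)⁻¹ * M := by
  have hτ : 0 < τ := h0.trans_le h1
  have hs : 0 < Real.sqrt τ := Real.sqrt_pos.2 hτ
  have hs0 : 0 < Real.sqrt τ₀ := Real.sqrt_pos.2 h0
  have h3 := H ((Real.sqrt τ)⁻¹ • x)
  rw [norm_iteratedFDeriv_Zs n b hτ 0 0 hf, smul_inv_smul₀ hs.ne', zero_add] at h3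
  rw [← div_eq_inv_mul, le_div_iff₀' (by positivity)]
  refine le_trans (mul_le_mul_of_nonneg_right ?_ (norm_nonneg _)) h3
  have ha : 0 ≤ aa n := by unfold aa; positivity
  refine mul_le_mul (Real.rpow_le_rpow h0.le h1 ha) ?_ (by positivity) (by positivity)
  exact (pow_le_pow_of_le_one hs0.le (Real.sqrt_le_one.2 (h1.trans h2)) hj).trans
    (pow_le_pow_left₀ hs0.le (Real.sqrt_le_sqrt h1) j)

theorem CompB_mem {h t : ℝ} (hh : h ∈ Icc (0 : ℝ) 1) (ht : 0 ≤ t) :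
    h * Real.sqrt (1 - t) ∈ Icc (0 : ℝ) 1 :=
  ⟨mul_nonneg hh.1 (Real.sqrt_nonneg _),
    mul_le_one₀ hh.2 (Real.sqrt_nonneg _) (Real.sqrt_le_one.2 (by linarith))⟩

theorem CompB_smooth (hU : UUStmt) (hP : Prof n b q) (K : ℕ) (h : ℝ) {t : ℝ} (ht : t < 1) :
    ContDiff ℝ K (UU n b q h t) :=
  (ck_of_contDiffOn (k := K) isOpen_Iio Subset.rfl ((hU n b q hP).1 h)).diff t ht

/-- Sobolev in the physical variables (`SobStmt` for `Zs (1-t) 0 0 f`, `norm_iteratedFDeriv_Zs`, τ ≥ 1-T) -/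
theorem sup_of_nrmT (hS : SobStmt) (n : ℕ) (b : ℝ) {k : ℕ} (hk : 80 ≤ k) {T : ℝ} (hT : T < 1) :
    ∃ C : ℝ, 0 < C ∧ ∀ h ∈ Icc (0 : ℝ) 1, ∀ t ∈ Icc 0 T, ∀ (f : R12 → ℂ) (B : ℝ), 0 ≤ B →
      ContDiff ℝ k f → Per h f → nrmT n b k h t f ≤ ENNReal.ofReal B →
      ∀ j : ℕ, j + 12 ≤ k → ∀ y, ‖iteratedFDeriv ℝ j f y‖ ≤ C * B := by
  obtain ⟨C, hC, H⟩ := hS k hk
  have hτ : 0 < 1 - T := by linarith
  have hs : 0 < Real.sqrt (1 - T) := Real.sqrt_pos.2 hτ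
  refine ⟨((1 - T) ^ aa n * Real.sqrt (1 - T) ^ k)⁻¹ * C, by positivity,
    fun h hh t ht f B hB hf hp hn j hj y => ?_⟩
  have ht1 : 0 < 1 - t := by linarith [ht.2]
  rw [mul_assoc]
  exact CompB_unscale n b hτ (τ := 1 - t) (by linarith [ht.2]) (by linarith [ht.1])
    (by omega : j ≤ k) (hf.of_le (by exact_mod_cast (by omega : j ≤ k)))
    (fun y => (H _ (CompB_mem hh ht.1) _ B hB (contDiff_Zs n b _ _ _ hf)
      (per_Zs n b ht1 0 0 hp) hn j y).1 hj) y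

/-- all derivatives of U_h(t) are bounded uniformly in h ∈ [0,1], t ∈ [0,T] (`Zs_UU` and item 3 of `UUStmt`) -/
theorem sup_UU (hU : UUStmt) (hP : Prof n b q) (K : ℕ) {T : ℝ} (hT : T < 1) :
    ∃ C : ℝ, 0 < C ∧ ∀ h ∈ Icc (0 : ℝ) 1, ∀ t ∈ Icc 0 T, ∀ j : ℕ, j ≤ K → ∀ y,
      ‖iteratedFDeriv ℝ j (UU n b q h t) y‖ ≤ C := by
  choose C hC using (hU n b q hP).2.2.1
  have hτ : 0 < 1 - T := by linarith
  have hs : 0 < Real.sqrt (1 - T) := Real.sqrt_pos.2 hτ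
  have hM : 0 ≤ ∑ j ∈ Finset.range (K + 1), |C j| := Finset.sum_nonneg fun _ _ => abs_nonneg _
  refine ⟨((1 - T) ^ aa n * Real.sqrt (1 - T) ^ K)⁻¹ * (∑ j ∈ Finset.range (K + 1), |C j| + 1),
    by positivity, fun h hh t ht j hj y => ?_⟩
  have ht1 : t < 1 := ht.2.trans_lt hT
  refine CompB_unscale n b hτ (τ := 1 - t) (by linarith [ht.2]) (by linarith [ht.1]) hj
    (CompB_smooth hU hP j h ht1) (fun y => ?_) y
  rw [Zs_UU h ht1]
  refine (hC j _ (CompB_mem hh ht.1) y).trans ?_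
  have ha : 0 ≤ aa n := by unfold aa; positivity
  have hj0 : (0 : ℝ) ≤ j := Nat.cast_nonneg _
  have h1 := Real.rpow_le_one_of_one_le_of_nonpos (nrm_rho_one (h * Real.sqrt (1 - t)) y)
    (z := -(aa n) - (j : ℝ) / 2) (by linarith)
  have h2 := Real.rpow_nonneg (nrm_rho_pos (h * Real.sqrt (1 - t)) y).le (-(aa n) - (j : ℝ) / 2)
  have h3 : |C j| ≤ ∑ j ∈ Finset.range (K + 1), |C j| :=
    Finset.single_le_sum (f := fun j => |C j|) (fun _ _ => abs_nonneg _)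
      (Finset.mem_range.2 (Nat.lt_succ_of_le hj))
  have h4 := mul_le_mul (le_abs_self (C j)) h1 h2 (abs_nonneg _)
  linarith

theorem CompB_V (hU : UUStmt) (hP : Prof n b q) (K : ℕ) {T : ℝ} (hT : T < 1) :
    ∃ C : ℝ, 0 < C ∧ ∀ h ∈ Icc (0 : ℝ) 1, ∀ t ∈ Icc 0 T,
      CompB_Bd K (fun y => V1 n (UU n b q h t y)) C ∧ CompB_Bd K (fun y => V2 n (UU n b q h t y)) C := by
  obtain ⟨C, hC, H⟩ := sup_UU hU hP K hT
  have a1 : 0 ≤ ‖(n : ℂ) + 1‖ * (2 ^ K * ((2 ^ K * C) ^ n * (2 ^ K * C) ^ n)) := by positivity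
  have a2 : 0 ≤ ‖(n : ℂ)‖ * (2 ^ K * ((2 ^ K * C) ^ (n + 1) * (2 ^ K * C) ^ (n - 1))) := by
    positivity
  refine ⟨‖(n : ℂ) + 1‖ * (2 ^ K * ((2 ^ K * C) ^ n * (2 ^ K * C) ^ n)) +
    ‖(n : ℂ)‖ * (2 ^ K * ((2 ^ K * C) ^ (n + 1) * (2 ^ K * C) ^ (n - 1))) + 1, by linarith,
    fun h hh t ht => ?_⟩
  have hB : CompB_Bd K (UU n b q h t) C := ⟨CompB_smooth hU hP K h (ht.2.trans_lt hT), H h hh t ht⟩
  exact ⟨(((hB.pow n).mul (hB.conj'.pow n)).const_mul ((n : ℂ) + 1)).mono (by linarith),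
    (((hB.pow (n + 1)).mul (hB.conj'.pow (n - 1))).const_mul (n : ℂ)).mono (by linarith)⟩

/-- the same for the potentials (functions with K bounded derivatives form an algebra, `norm_iteratedFDeriv_mul_le`) -/
theorem sup_V (hU : UUStmt) (hP : Prof n b q) (K : ℕ) {T : ℝ} (hT : T < 1) :
    ∃ C : ℝ, 0 < C ∧ ∀ h ∈ Icc (0 : ℝ) 1, ∀ t ∈ Icc 0 T, ∀ j : ℕ, j ≤ K → ∀ y,
      ‖iteratedFDeriv ℝ j (fun y => V1 n (UU n b q h t y)) y‖ ≤ C ∧
      ‖iteratedFDeriv ℝ j (fun y => V2 n (UU n b q h t y)) y‖ ≤ C := by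
  obtain ⟨C, hC, H⟩ := CompB_V hU hP K hT
  exact ⟨C, hC, fun h hh t ht j hj y => ⟨(H h hh t ht).1.2 j hj y, (H h hh t ht).2.2 j hj y⟩⟩

/-- bounds for z, for the right-hand side, and the Lipschitz bound in time (`Lin.ck_rhs`, `norm_iteratedFDeriv_sub_le`,
`norm_iteratedFDeriv_lap_le`; S t = (1-t)⁻¹·((1-t) S t)) -/
theorem lin_bounds (hS : SobStmt) (hU : UUStmt) (hP : Prof n b q) {k : ℕ} (hk : 80 ≤ k) {T : ℝ}
    (hT : T ∈ Ico (0 : ℝ) 1) (B : ℝ) :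
    ∃ C : ℝ, ∀ h ∈ Icc (0 : ℝ) 1, ∀ z S : ℝ → R12 → ℂ, Lin n b q k h (Icc 0 T) z S →
      (∀ t ∈ Icc 0 T, nrmT n b k h t (z t) ≤ ENNReal.ofReal B) →
      (∀ t ∈ Icc 0 T, nrmT n b k h t (fun y => ((1 - t : ℝ) : ℂ) * S t y) ≤ ENNReal.ofReal 1) →
      (∀ j : ℕ, j + 12 ≤ k → ∀ t ∈ Icc 0 T, ∀ y, ‖iteratedFDeriv ℝ j (z t) y‖ ≤ C) ∧
      (∀ t ∈ Icc 0 T, ∀ y, ‖Complex.I * (lap (z t) y - (V1 n (UU n b q h t y) * z t y
        + V2 n (UU n b q h t y) * conj (z t y) + S t y))‖ ≤ C) ∧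
      (∀ j : ℕ, j + 14 ≤ k → ∀ s ∈ Icc 0 T, ∀ t ∈ Icc 0 T, ∀ y,
        ‖iteratedFDeriv ℝ j (z t) y - iteratedFDeriv ℝ j (z s) y‖ ≤ C * |t - s|) := by
  obtain ⟨K, rfl⟩ : ∃ K, k = K + 14 := ⟨k - 14, by omega⟩
  obtain ⟨C₁, hC₁, H₁⟩ := sup_of_nrmT hS n b hk hT.2
  obtain ⟨C₂, hC₂, H₂⟩ := CompB_V hU hP K hT.2
  have hτ : 0 < 1 - T := by linarith [hT.2]
  have hB := abs_nonneg B
  have a1 : 0 ≤ C₁ * |B| := by positivity
  have a2 : 0 ≤ ‖Complex.I‖ * (12 * (C₁ * |B|) + (2 ^ K * (C₂ * (C₁ * |B|)) +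
      2 ^ K * (C₂ * (C₁ * |B|)) + (1 - T)⁻¹ * (C₁ * 1))) := by positivity
  refine ⟨C₁ * |B| + ‖Complex.I‖ * (12 * (C₁ * |B|) + (2 ^ K * (C₂ * (C₁ * |B|)) +
      2 ^ K * (C₂ * (C₁ * |B|)) + (1 - T)⁻¹ * (C₁ * 1))), fun h hh z S hL hz hSn => ?_⟩
  have hzk : ∀ t ∈ Icc 0 T, ContDiff ℝ (K + 14 : ℕ) (z t) := fun t ht =>
    (hL.reg.diff t ht).of_le (by exact_mod_cast Nat.le_add_right (K + 14) 2)
  have hz' : ∀ t ∈ Icc 0 T, ∀ j : ℕ, j + 12 ≤ K + 14 → ∀ y,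
      ‖iteratedFDeriv ℝ j (z t) y‖ ≤ C₁ * |B| := fun t ht =>
    H₁ h hh t ht (z t) |B| hB (hzk t ht) (hL.per t ht)
      ((hz t ht).trans (ENNReal.ofReal_le_ofReal (le_abs_self B)))
  have hG : ∀ t ∈ Icc 0 T, CompB_Bd K (fun y => Complex.I * (lap (z t) y -
      (V1 n (UU n b q h t y) * z t y + V2 n (UU n b q h t y) * conj (z t y) + S t y)))
      (‖Complex.I‖ * (12 * (C₁ * |B|) + (2 ^ K * (C₂ * (C₁ * |B|)) +
        2 ^ K * (C₂ * (C₁ * |B|)) + (1 - T)⁻¹ * (C₁ * 1)))) := by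
    intro t ht
    have ht1 : 0 < 1 - t := by linarith [ht.2]
    have b1 : CompB_Bd K (z t) (C₁ * |B|) :=
      ⟨(hzk t ht).of_le (by exact_mod_cast Nat.le_add_right K 14),
        fun j hj y => hz' t ht j (by omega) y⟩
    have b2 : CompB_Bd K (lap (z t)) (12 * (C₁ * |B|)) :=
      ⟨contDiff_lap ((hzk t ht).of_le (by exact_mod_cast (by omega : K + 2 ≤ K + 14))),
        fun j hj y => (norm_iteratedFDeriv_lap_le ((hzk t ht).of_le
          (by exact_mod_cast (by omega : j + 2 ≤ K + 14))) y).trans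
          (mul_le_mul_of_nonneg_left (hz' t ht (j + 2) (by omega) y) (by norm_num))⟩
    have hS' : ContDiff ℝ (K + 14 : ℕ) (fun y => ((1 - t : ℝ) : ℂ) * S t y) :=
      contDiff_const.mul (hL.regS.diff t ht)
    have b3 : CompB_Bd K (fun y => ((1 - t : ℝ) : ℂ) * S t y) (C₁ * 1) :=
      ⟨hS'.of_le (by exact_mod_cast Nat.le_add_right K 14), fun j hj y =>
        H₁ h hh t ht _ 1 zero_le_one hS' (fun h0 y i => congrArg (_ * ·) (hL.perS t ht h0 y i)) (hSn t ht) j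
          (by omega) y⟩
    have b4 : CompB_Bd K (S t) ((1 - T)⁻¹ * (C₁ * 1)) := by
      have b5 := b3.const_mul (((1 - t : ℝ) : ℂ))⁻¹
      have hne : ((1 - t : ℝ) : ℂ) ≠ 0 := by exact_mod_cast ht1.ne'
      simp only [inv_mul_cancel_left₀ hne] at b5
      refine b5.mono (mul_le_mul_of_nonneg_right ?_ b3.nonneg)
      rw [norm_inv, Complex.norm_real, Real.norm_of_nonneg ht1.le]
      exact inv_anti₀ hτ (by linarith [ht.2])
    exact (b2.sub ((((H₂ h hh t ht).1.mul b1).add ((H₂ h hh t ht).2.mul b1.conj')).add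
      b4)).const_mul Complex.I
  refine ⟨fun j hj t ht y => (hz' t ht j hj y).trans (by linarith), fun t ht y => ?_,
    fun j hj s hs t ht y => ?_⟩
  · have := (hG t ht).2 0 K.zero_le y
    rw [norm_iteratedFDeriv_zero] at this
    linarith
  · exact norm_iteratedFDeriv_sub_le hzk
      (Lin.ck_rhs hU hP (fun t ht => ht.2.trans_lt hT.2) hL) hL.eqn (by omega) y
      (fun t ht => ((hG t ht).2 j (by omega) y).trans (by linarith)) hs ht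

end

end Crest.Agent.R086.C
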