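import Crest.Agent.R086.C.CompA
import Crest.Agent.R086.C.CompB

/-! # Row 86, part C: CompactStmt (task) -/

open MeasureTheory Set Filter Topology
open scoped ContDiff ComplexConjugate ENNReal
open Crest.AnalysisR.PDE.NLS

namespace Crest.Agent.R086.C

noncomputable section

private theorem cpt_fatou (hF : FatouStmt) (k : ℕ) (hs : ℕ → ℝ) (fs : ℕ → R12 → ℂ) (f : R12 → ℂ)
    (B : ℝ≥0∞) (h0 : ∀ l, 0 ≤ hs l) (ht : Tendsto hs atTop (𝓝 0))
    (hc : ∀ᶠ l in atTop, ContDiff ℝ k (fs l))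
    (hconv : ∀ j : ℕ, j ≤ k → ∀ y, Tendsto (fun l => iteratedFDeriv ℝ j (fs l) y) atTop
      (𝓝 (iteratedFDeriv ℝ j f y)))
    (hB : ∀ᶠ l in atTop, nrm k (hs l) (fs l) ≤ B) : nrm k 0 f ≤ B := by
  obtain ⟨N, hN⟩ := eventually_atTop.mp hc
  have hsh := tendsto_add_atTop_nat N
  exact hF k (fun l => hs (l + N)) (fun l => fs (l + N)) f B (fun l => h0 _) (ht.comp hsh)
    (fun l => hN _ (by omega)) (fun j hj y => (hconv j hj y).comp hsh) (hsh.eventually hB)

private theorem cpt_iter_Zs (n : ℕ) (b : ℝ) {j : ℕ} {f : R12 → ℂ} (hf : ContDiff ℝ j f) (τ : ℝ)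
    (x : R12) (ϑ : ℝ) (y : R12) :
    iteratedFDeriv ℝ j (Zs n b τ x ϑ f) y =
      (Complex.exp (-Complex.I * ϑ) * cp τ ((R086.aa n : ℂ) - Complex.I * b)) •
        (Real.sqrt τ ^ j • iteratedFDeriv ℝ j f (x + Real.sqrt τ • y)) := by
  unfold Zs
  rw [E.scale_iteratedFDeriv_const_mul (E.scale_contDiff_affine hf _ _),
    E.scale_iteratedFDeriv_affine hf]

private theorem cpt_lim_deriv {T : ℝ} (hT : 0 ≤ T) {f g : ℕ → ℝ → ℂ} {F G : ℝ → ℂ} {C : ℝ}
    (hd : ∀ᶠ l in atTop, (∀ t ∈ Icc 0 T, HasDerivWithinAt (f l) (g l t) (Icc 0 T) t) ∧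
      ContinuousOn (g l) (Icc 0 T) ∧ ∀ t ∈ Icc 0 T, ‖g l t‖ ≤ C)
    (hf : ∀ t ∈ Icc 0 T, Tendsto (fun l => f l t) atTop (𝓝 (F t)))
    (hg : ∀ t ∈ Icc 0 T, Tendsto (fun l => g l t) atTop (𝓝 (G t)))
    (hG : ContinuousOn G (Icc 0 T)) : ∀ t ∈ Icc 0 T, HasDerivWithinAt F (G t) (Icc 0 T) t := by
  have key : ∀ t ∈ Icc 0 T, F t = F 0 + ∫ s in (0 : ℝ)..t, G s := by
    intro t ht
    have hsub : Icc 0 t ⊆ Icc 0 T := Icc_subset_Icc_right ht.2
    have hsub' : Set.uIoc 0 t ⊆ Icc 0 T := by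
      rw [Set.uIoc_of_le ht.1]
      exact Ioc_subset_Icc_self.trans hsub
    have h1 : Tendsto (fun l => ∫ s in (0 : ℝ)..t, g l s) atTop (𝓝 (∫ s in (0 : ℝ)..t, G s)) := by
      refine intervalIntegral.tendsto_integral_filter_of_dominated_convergence (fun _ => C) ?_ ?_
        intervalIntegrable_const ?_
      · filter_upwards [hd] with l hl
        exact (hl.2.1.mono hsub').aestronglyMeasurable measurableSet_uIoc
      · filter_upwards [hd] with l hl
        exact Eventually.of_forall (fun s hs => hl.2.2 s (hsub' hs))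
      · exact Eventually.of_forall (fun s hs => hg s (hsub' hs))
    have h2 : Tendsto (fun l => ∫ s in (0 : ℝ)..t, g l s) atTop (𝓝 (F t - F 0)) := by
      refine ((hf t ht).sub (hf 0 ⟨le_rfl, hT⟩)).congr' ?_
      filter_upwards [hd] with l hl
      symm
      refine intervalIntegral.integral_eq_sub_of_hasDerivAt_of_le ht.1
        (fun s hs => ((hl.1 s (hsub hs)).continuousWithinAt).mono hsub) (fun s hs => ?_) ?_
      · exact (hl.1 s (hsub (Ioo_subset_Icc_self hs))).hasDerivAt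
          (Icc_mem_nhds hs.1 (hs.2.trans_le ht.2))
      · exact (hl.2.1.mono hsub).intervalIntegrable_of_Icc ht.1
    rw [← tendsto_nhds_unique h2 h1]
    ring
  have hG' : Continuous (fun s => G (projIcc 0 T hT s)) :=
    hG.comp_continuous (continuous_subtype_val.comp continuous_projIcc) (fun s => (projIcc 0 T hT s).2)
  intro t ht
  have h3 := ((hG'.integral_hasStrictDerivAt 0 t).hasDerivAt.const_add (F 0)).hasDerivWithinAt
    (s := Icc 0 T)
  rw [projIcc_of_mem hT ht] at h3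
  have h4 : ∀ u ∈ Icc 0 T, F u = F 0 + ∫ s in (0 : ℝ)..u, G (projIcc 0 T hT s) := by
    intro u hu
    rw [key u hu]
    congr 1
    refine intervalIntegral.integral_congr (fun s hs => ?_)
    rw [uIcc_of_le hu.1] at hs
    rw [projIcc_of_mem hT (Icc_subset_Icc_right hu.2 hs)]
  exact h3.congr h4 (h4 t ht)

private theorem cpt_cont_V1 (n : ℕ) : Continuous (V1 n) := by
  unfold V1
  fun_prop

private theorem cpt_cont_V2 (n : ℕ) : Continuous (V2 n) := by
  unfold V2
  fun_prop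

/-- `lin_bounds` (eventually T ≤ ts l, `Lin.mono`) gives the hypotheses of `lim_smooth` with K = k - 14.  Let z be the limit.
* reg: `ck_mono` (k-20+2 ≤ k-14); per/perS vacuous for h = 0; regS trivial.
* Fatou: for t<1 and j ≤ k-19, D^j(Zs(1-t)(zs l t)) y → D^j(Zs(1-t)(z t)) y (`norm_iteratedFDeriv_Zs` applied to the difference, `Zs_sub`),
  hs l √(1-t) → 0; `FatouStmt` at levels k-19 (`fin`, with the bound B T) and k-20 (`nrmT_mono`).
* equation: for fixed y and t ∈ [0,T], zs l t y - zs l 0 y = ∫_0^t G_l(σ,y)dσ (`intervalIntegral.integral_eq_sub_of_hasDeriv_right` or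
  `integral_eq_sub_of_hasDerivAt_of_le`, G_l continuous by `Lin.ck_rhs`), G_l(σ,y) → G(σ,y) pointwise (`tendsto_PP`, continuity of q, lap through D²,
  S_l → 0 by `sup_of_nrmT`), bounded; dominated convergence; G(·,y) is continuous on [0,T], so the fundamental theorem of calculus gives the derivative within Icc 0 T. -/
theorem compact (hS : SobStmt) (hU : UUStmt) (hF : FatouStmt) : CompactStmt := by
  intro n b q hP k hk hs ts zs Ss B hhs hs0 hts hts1 hL hB hSm
  have hLT : ∀ T ∈ Ico (0 : ℝ) 1, ∀ᶠ l in atTop, Lin n b q k (hs l) (Icc 0 T) (zs l) (Ss l) := by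
    intro T hT
    filter_upwards [hts1.eventually (lt_mem_nhds hT.2)] with l hl
    exact (hL l).mono (Icc_subset_Icc_right hl.le)
  have hbd : ∀ T ∈ Ico (0 : ℝ) 1, ∃ C : ℝ, ∀ᶠ l in atTop,
      (∀ j : ℕ, j + 12 ≤ k → ∀ t ∈ Icc 0 T, ∀ y, ‖iteratedFDeriv ℝ j (zs l t) y‖ ≤ C) ∧
      (∀ t ∈ Icc 0 T, ∀ y, ‖Complex.I * (lap (zs l t) y - (V1 n (UU n b q (hs l) t y) * zs l t y
        + V2 n (UU n b q (hs l) t y) * conj (zs l t y) + Ss l t y))‖ ≤ C) ∧
      (∀ j : ℕ, j + 14 ≤ k → ∀ s ∈ Icc 0 T, ∀ t ∈ Icc 0 T, ∀ y,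
        ‖iteratedFDeriv ℝ j (zs l t) y - iteratedFDeriv ℝ j (zs l s) y‖ ≤ C * |t - s|) := by
    intro T hT
    obtain ⟨C, hC⟩ := lin_bounds hS hU hP (k := k) (by omega) hT (B T)
    refine ⟨C, ?_⟩
    filter_upwards [hLT T hT, hB T hT, hSm T hT 1 one_pos] with l h1 h2 h3
    exact hC (hs l) (hhs l) (zs l) (Ss l) h1 h2 h3
  obtain ⟨φ, z, hφ, hz, hconv, hunif⟩ := lim_smooth (k - 14) zs (by
    intro T hT
    obtain ⟨C, hC⟩ := hbd T hT
    refine ⟨C, ?_⟩
    filter_upwards [hLT T hT, hC] with l h1 h2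
    refine ⟨fun t ht => (h1.reg.diff t ht).of_le ?_, fun j hj => h2.1 j (by omega),
      fun j hj => h2.2.2 j (by omega)⟩
    exact_mod_cast (by omega : k - 14 + 1 ≤ k + 2))
  have hφt : Tendsto φ atTop atTop := hφ.tendsto_atTop
  have hs0' : Tendsto (fun l => hs (φ l)) atTop (𝓝 0) := hs0.comp hφt
  have hfat : ∀ m : ℕ, m ≤ k - 14 → ∀ T ∈ Ico (0 : ℝ) 1, ∀ t ∈ Icc 0 T,
      nrmT n b m 0 t (z t) ≤ ENNReal.ofReal (B T) := by
    intro m hm T hT t ht
    have ht' : t ∈ Ico (0 : ℝ) 1 := ⟨ht.1, ht.2.trans_lt hT.2⟩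
    have hcd : ∀ᶠ l in atTop, ContDiff ℝ m (zs (φ l) t) := by
      filter_upwards [hφt.eventually (hLT T hT)] with l h1
      exact (h1.reg.diff t ht).of_le (by exact_mod_cast (by omega : m ≤ k + 2))
    have hzd : ContDiff ℝ m (z t) := ((hz T hT).diff t ht).of_le (by exact_mod_cast hm)
    unfold nrmT
    rw [zero_mul]
    refine cpt_fatou hF m (fun l => hs (φ l) * Real.sqrt (1 - t))
      (fun l => Zs n b (1 - t) 0 0 (zs (φ l) t)) _ _
      (fun l => mul_nonneg (hhs _).1 (Real.sqrt_nonneg _)) ?_ ?_ ?_ ?_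
    · simpa using hs0'.mul_const (Real.sqrt (1 - t))
    · filter_upwards [hcd] with l hl
      exact E.contDiff_Zs n b _ _ _ hl
    · intro j hj y
      have hj' : (j : WithTop ℕ∞) ≤ m := by exact_mod_cast hj
      rw [cpt_iter_Zs n b (hzd.of_le hj')]
      refine (((hconv j (hj.trans hm) t ht' _).const_smul _).const_smul _).congr' ?_
      filter_upwards [hcd] with l hl
      rw [cpt_iter_Zs n b (hl.of_le hj')]
    · filter_upwards [hφt.eventually (hB T hT)] with l hl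
      exact (nrmT_mono (by omega : m ≤ k) _ _ _).trans (hl t ht)
  refine ⟨φ, z, hφ, fun T hT => ?_, fun T hT => hfat _ (by omega) T hT T ⟨hT.1, le_rfl⟩, hunif⟩
  have hJ : Icc 0 T ⊆ Iio 1 := fun t ht => ht.2.trans_lt hT.2
  refine ⟨E.ck_mono (hz T hT) (by omega), (Lin.zero n b q _ 0 _).regS, fun t _ h => absurd rfl h,
    fun t _ h => absurd rfl h, fun _ => ⟨B T, fun t ht => hfat _ (by omega) T hT t ht⟩, ?_⟩
  intro t ht y
  obtain ⟨C, hC⟩ := hbd T hT
  have hz0 : ∀ t ∈ Icc 0 T, Tendsto (fun l => zs (φ l) t y) atTop (𝓝 (z t y)) := by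
    intro t ht
    have := hconv 0 (by omega) t ⟨ht.1, hJ ht⟩ y
    have h2 := ((ContinuousMultilinearMap.apply ℝ (fun _ : Fin 0 => R12) ℂ
      (fun i => Fin.elim0 i)).continuous.tendsto _).comp this
    simpa [Function.comp_def] using h2
  refine cpt_lim_deriv hT.1 (C := C) (f := fun l s => zs (φ l) s y)
    (g := fun l s => Complex.I * (lap (zs (φ l) s) y - (V1 n (UU n b q (hs (φ l)) s y) * zs (φ l) s y
        + V2 n (UU n b q (hs (φ l)) s y) * conj (zs (φ l) s y) + Ss (φ l) s y)))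
    (G := fun s => Complex.I * (lap (z s) y - (V1 n (UU n b q 0 s y) * z s y
        + V2 n (UU n b q 0 s y) * conj (z s y) + (0 : ℝ → R12 → ℂ) s y))) ?_ hz0 ?_ ?_ t ht
  · filter_upwards [hφt.eventually (hLT T hT), hφt.eventually hC] with l h1 h2
    refine ⟨fun s hs => h1.eqn s hs y, ?_, fun s hs => h2.2.1 s hs y⟩
    have := E.ck_continuousOn (h1.ck_rhs hU hP hJ)
    exact this.comp (f := fun s : ℝ => (s, y)) (by fun_prop) (fun s hs => ⟨hs, mem_univ _⟩)
  · intro s hs'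
    have hs1 : s < 1 := hJ hs'
    have hlap : Tendsto (fun l => lap (zs (φ l) s) y) atTop (𝓝 (lap (z s) y)) := by
      unfold lap
      refine tendsto_finset_sum _ (fun i _ => ?_)
      exact ((ContinuousMultilinearMap.apply ℝ (fun _ : Fin 2 => R12) ℂ
        ![ee i, ee i]).continuous.tendsto _).comp (hconv 2 (by omega) s ⟨hs'.1, hs1⟩ y)
    have hUU : Tendsto (fun l => UU n b q (hs (φ l)) s y) atTop (𝓝 (UU n b q 0 s y)) := by
      unfold UU
      exact ((hP.smooth.continuous.tendsto _).comp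
        ((E.tendsto_PP hs0' y).div_const _)).const_mul _
    have hSS : Tendsto (fun l => Ss (φ l) s y) atTop (𝓝 0) := by
      obtain ⟨C', hC'0, hC'⟩ := sup_of_nrmT hS n b (k := k) (by omega) hT.2
      have hτ : 0 < 1 - s := by linarith
      rw [NormedAddGroup.tendsto_nhds_zero]
      intro ε hε
      have hε' : 0 < ε * (1 - s) / (2 * C') := by positivity
      filter_upwards [hφt.eventually (hLT T hT), hφt.eventually (hSm T hT _ hε')] with l h1 h2
      have h3 := hC' (hs (φ l)) (hhs _) s hs' _ _ hε'.le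
        (contDiff_const.mul (h1.regS.diff s hs'))
        (fun hh y i => by simp only [h1.perS s hs' hh y i]) (h2 s hs') 0 (by omega) y
      rw [norm_iteratedFDeriv_zero, norm_mul, Complex.norm_real, Real.norm_eq_abs,
        abs_of_pos hτ] at h3
      have h4 : C' * (ε * (1 - s) / (2 * C')) = (1 - s) * (ε / 2) := by
        field_simp
      rw [h4] at h3
      have := le_of_mul_le_mul_left h3 hτ
      linarith
    have hz1 := hz0 s hs'
    have hcz : Tendsto (fun l => conj (zs (φ l) s y)) atTop (𝓝 (conj (z s y))) :=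
      (Complex.continuous_conj.tendsto _).comp hz1
    exact (hlap.sub ((((((cpt_cont_V1 n).tendsto _).comp hUU).mul hz1).add
      ((((cpt_cont_V2 n).tendsto _).comp hUU).mul hcz)).add hSS)).const_mul _
  · have hzc : Ck (0 + 2) (Icc 0 T) z := E.ck_mono (hz T hT) (by omega)
    have hz0c : Ck 0 (Icc 0 T) z := E.ck_mono hzc (by omega)
    have hUc : Ck 0 (Icc 0 T) (UU n b q 0) :=
      E.ck_of_contDiffOn isOpen_Iio hJ ((hU n b q hP).1 0)
    have := E.ck_continuousOn (E.ck_const_mul Complex.I (E.ck_sub (E.ck_lap hzc)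
      (E.ck_add (E.ck_add (E.ck_mul (E.ck_V1 n hUc) hz0c) (E.ck_mul (E.ck_V2 n hUc) (E.ck_conj hz0c)))
        (Lin.zero n b q 0 0 (Icc 0 T)).regS)))
    exact this.comp (f := fun s : ℝ => (s, y)) (by fun_prop) (fun s hs => ⟨hs, mem_univ _⟩)

end

end Crest.Agent.R086.C
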