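import Crest.Agent.R086.C.Pair2
import Crest.Agent.R086.C.AS2

/-! # Row 86, part C: decay modulo the modes from the contraction of the quotient norm (task) -/

open MeasureTheory Set Filter Topology
open scoped ContDiff ComplexConjugate ENNReal
open Crest.AnalysisR.PDE.NLS

namespace Crest.Agent.R086.C

noncomputable section

variable {n : ℕ} {b : ℝ} {q : ℝ → ℂ} {k₀ k : ℕ}

/-- `as3` with X = XX k, N = NS k subtype, T = TL t₁, Φ = Phi.codRestrict, d i = (1-t₁)^{-ev i} ≥ 1.  For z put f = mk2 (z 0) 0 ∈ XX k, Nf f ≤ 4.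
Get c with ‖c‖ ≤ C, Nf(TT t_j (f - Phi c)) ≤ C 2^{-j}, t_j = 1-(1-t₁)^j (`TL_pow`).  Every t ∈ [0,1) is t_j + (1-t_j)s with s ∈ [0,t₁] and j the largest
index with t_j ≤ t; `TT_semi`, `TT_bound` ⇒ Nf(TT t (f - Phi c)) ≤ C' 2^{-j}.  pA of it is T1 t (z 0 - mode(0)) = Zs (1-t)(z t - mode t) with the real parts of c
(`pA_Phi`, `mode_eq`, `mode_lin`, `T1_spec`), x j = Re c_(some (some j)), ‖x‖ ≤ 12‖c‖; `nrm_pA_le`. -/
theorem decay_of_contr (H : Ctx n b q k₀) (hk : k₀ ≤ k) {t₁ : ℝ} (ht₁ : t₁ ∈ Ioo (0 : ℝ) 1)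
    (h : ∀ f ∈ XX n b q k, ∀ e ∈ EE n b q, ∀ ε : ℝ, 0 < ε → ∃ e' ∈ EE n b q,
        Nf k (TT n b q k₀ t₁ f - e') ≤ Nf k (f - e) / 2 + ε) :
    ∃ C : ℝ, 0 < C ∧ ∀ ε : ℝ, 0 < ε → ∃ t₀ ∈ Ico (0 : ℝ) 1, ∀ z : ℝ → R12 → ℂ,
      (∀ T ∈ Ico (0 : ℝ) 1, Lin n b q k 0 (Icc 0 T) z 0) → nrm k 0 (z 0) ≤ 1 →
      ∃ (c₀ c₁ : ℝ) (x : R12), |c₀| ≤ C ∧ |c₁| ≤ C ∧ ‖x‖ ≤ C ∧ ∀ t ∈ Ico (0 : ℝ) 1,
        nrmT n b k 0 t (fun y => z t y - mode n b q c₀ c₁ x t y) ≤ ENNReal.ofReal C ∧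
        (t₀ ≤ t → nrmT n b k 0 t (fun y => z t y - mode n b q c₀ c₁ x t y) ≤ ENNReal.ofReal ε) := by
  have ht : t₁ ∈ Ico (0 : ℝ) 1 := ⟨ht₁.1.le, ht₁.2⟩
  have hp0 : 0 < 1 - t₁ := by linarith [ht₁.2]
  have hp1 : 1 - t₁ < 1 := by linarith [ht₁.1]
  obtain ⟨C0, hC0, hb⟩ := TT_bound H hk
  set M : ℝ := C0 * (1 / (1 - t₁)) ^ C0 with hM
  have hM0 : 0 < M := mul_pos hC0 (Real.rpow_pos_of_pos (by positivity) _)
  let N : Seminorm ℂ (XX n b q k) := NS k (XX n b q k).subtype (fun y => y.2)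
  have hNa : ∀ x : XX n b q k, N x = Nf k (x : VV) := fun _ => rfl
  let Φ : (Ix → ℂ) →ₗ[ℂ] XX n b q k :=
    (Phi n b q).codRestrict (XX n b q k) (fun c => EE_le H k ⟨c, rfl⟩)
  have hΦa : ∀ c, (Φ c : VV) = Phi n b q c := fun _ => rfl
  obtain ⟨C', hC', hmain⟩ := as3 N (TL H hk ht) M hM0.le (fun x => hb x x.2 t₁ ht) Φ
    (fun c hc => Subtype.ext (Nf_eq_zero H hk (Φ c).2 hc)) (fun i => (1 - t₁) ^ (-(ev i)))
    (fun i => Real.one_le_rpow_of_pos_of_le_one_of_nonpos hp0 hp1.le (by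
      rcases i with _ | _ | _ <;> simp [ev]))
    (fun c => Subtype.ext (TT_Phi H ht c)) (fun x => by
      refine le_of_forall_pos_le_add fun ε hε => ?_
      obtain ⟨e, he, hlt⟩ := exists_lt_qN N (LinearMap.range Φ) x (ε := ε) hε
      obtain ⟨c, rfl⟩ := he
      obtain ⟨e', ⟨c', rfl⟩, hle⟩ := h x x.2 (Phi n b q c) ⟨c, rfl⟩ (ε / 2) (by positivity)
      have h1 := qN_le N (LinearMap.range Φ) (TL H hk ht x) (e := Φ c') ⟨c', rfl⟩
      have h2 : N (TL H hk ht x - Φ c') = Nf k (TT n b q k₀ t₁ x - Phi n b q c') := rfl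
      have h3 : N (x - Φ c) = Nf k (x - Phi n b q c) := rfl
      linarith)
  refine ⟨48 * C' + 4 * M * C', by positivity, fun ε hε => ?_⟩
  obtain ⟨J, hJ⟩ := exists_pow_lt_of_lt_one (x := ε / (4 * M * C')) (y := (1 / 2 : ℝ))
    (by positivity) (by norm_num)
  have hJ' : 4 * M * C' * (1 / 2) ^ J ≤ ε := by
    rw [lt_div_iff₀ (by positivity)] at hJ
    linarith
  have hmem : ∀ j : ℕ, 1 - (1 - t₁) ^ j ∈ Ico (0 : ℝ) 1 := fun j =>
    ⟨by linarith [pow_le_one₀ (n := j) hp0.le hp1.le], by linarith [pow_pos hp0 j]⟩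
  refine ⟨1 - (1 - t₁) ^ J, hmem J, fun z hz hz0 => ?_⟩
  have hzc : Cls n b q k z := hz
  have hf : mk2 (z 0) (fun _ => 0) ∈ XX n b q k := by
    refine ⟨?_, ?_⟩
    · rw [pA_mk2]; exact ⟨z, hzc, rfl⟩
    · rw [pB_mk2]; exact X1.zero
  have hf4 : Nf k (mk2 (z 0) (fun _ => 0)) ≤ 4 * 1 := by
    refine Nf_le hf zero_le_one ?_ ?_
    · rw [pA_mk2]; simpa using hz0
    · rw [pB_mk2, E.nrm_zero]; exact zero_le
  obtain ⟨c, hc, hdec⟩ := hmain ⟨_, hf⟩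
  rw [hNa] at hc
  simp only [hNa] at hdec
  have hc4 : ‖c‖ ≤ 4 * C' := by nlinarith
  have hre : ∀ i, |(c i).re| ≤ 4 * C' := fun i =>
    (Complex.abs_re_le_norm _).trans ((norm_le_pi_norm c i).trans hc4)
  have hMC : 0 < 4 * M * C' := by positivity
  let x : R12 := WithLp.toLp 2 fun j => (c (some (some j))).re
  refine ⟨(c none).re, (c (some none)).re, x, by linarith [hre none], by linarith [hre (some none)],
    ?_, ?_⟩
  · have h1 : ‖x‖ ≤ 48 * C' := by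
      rw [EuclideanSpace.norm_eq]
      refine Real.sqrt_le_iff.2 ⟨by positivity, ?_⟩
      calc ∑ j, ‖x j‖ ^ 2 ≤ ∑ _j : Fin 12, (4 * C') ^ 2 :=
            Finset.sum_le_sum fun j _ => pow_le_pow_left₀ (norm_nonneg _) (hre _) 2
        _ = 12 * (4 * C') ^ 2 := by simp
        _ ≤ (48 * C') ^ 2 := by nlinarith
    linarith
  -- the difference is a solution
  set w : ℝ → R12 → ℂ := fun t y => z t y - mode n b q (c none).re (c (some none)).re x t y with hw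
  have hwc : Cls n b q k w := fun T hT =>
    ((hz T hT).sub (mode_lin H.sym H.prof _ _ x k hT.2)).congr (fun _ _ _ => rfl)
      (fun _ _ _ => by simp)
  set g : VV := mk2 (z 0) (fun _ => 0) - Phi n b q c with hg
  have hgm : g ∈ XX n b q k := (XX n b q k).sub_mem hf (EE_le H k ⟨c, rfl⟩)
  have hpA : pA g = w 0 := by
    have h1 : pA g = fun y => pA (mk2 (z 0) (fun _ => 0)) y - pA (Phi n b q c) y := by
      funext y
      simp only [hg, pA, Pi.sub_apply, Prod.fst_sub, Prod.snd_sub, map_sub]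
      ring
    rw [h1, pA_mk2, pA_Phi]
    funext y
    simp only [hw]
    rw [mode_eq H.prof _ _ x one_pos y]
    simp only [bm_zero, Fintype.sum_option, x, add_assoc]
  have key : ∀ t ∈ Ico (0 : ℝ) 1, ∀ j : ℕ, (1 - t₁) ^ (j + 1) < 1 - t → 1 - t ≤ (1 - t₁) ^ j →
      nrmT n b k 0 t (w t) ≤ ENNReal.ofReal (4 * M * C' * (1 / 2) ^ j) := by
    intro t htt j h1 h2
    have hpj : 0 < (1 - t₁) ^ j := pow_pos hp0 j
    set s : ℝ := 1 - (1 - t) / (1 - t₁) ^ j with hs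
    have hs0 : 0 ≤ s := by
      rw [hs, sub_nonneg, div_le_one hpj]; exact h2
    have hs1 : s ≤ t₁ := by
      have : 1 - t₁ ≤ (1 - t) / (1 - t₁) ^ j := by
        rw [le_div_iff₀ hpj, ← pow_succ']; exact h1.le
      linarith
    have hsm : s ∈ Ico (0 : ℝ) 1 := ⟨hs0, lt_of_le_of_lt hs1 ht₁.2⟩
    have hts : (1 - (1 - t₁) ^ j) + (1 - (1 - (1 - t₁) ^ j)) * s = t := by
      rw [hs]; field_simp; ring
    have hsemi := TT_semi H (XX_level hk hgm) hsm (hmem j)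
    rw [hts] at hsemi
    have hd := hdec j
    rw [TL_pow H hk ht j] at hd
    have hd' : Nf k (TT n b q k₀ (1 - (1 - t₁) ^ j) g) ≤ C' * (1 / 2) ^ j * 4 :=
      le_trans hd (mul_le_mul_of_nonneg_left (by simpa using hf4) (by positivity))
    have hb' := hb _ (TT_mem H hk (hmem j) hgm) s hsm
    rw [hsemi] at hb'
    have hM' : C0 * (1 / (1 - s)) ^ C0 ≤ M :=
      mul_le_mul_of_nonneg_left (sp2_mono hC0 hs1 ht₁.2) hC0.le
    have hfin : Nf k (TT n b q k₀ t g) ≤ 4 * M * C' * (1 / 2) ^ j :=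
      calc Nf k (TT n b q k₀ t g) ≤ M * (C' * (1 / 2) ^ j * 4) :=
            hb'.trans (mul_le_mul hM' hd' (Nf_nonneg _) hM0.le)
        _ = _ := by ring
    have h3 := (nrm_pA_le (TT_mem H hk htt hgm)).1
    rw [TT, pA_mk2, hpA, T1_spec H hk hwc htt] at h3
    rw [nrmT, zero_mul]
    refine h3.trans (ENNReal.ofReal_le_ofReal ?_)
    rw [TT, hpA, T1_spec H hk hwc htt] at hfin
    exact hfin
  intro t htt
  obtain ⟨j, h1, h2⟩ := exists_nat_pow_near_of_lt_one (x := 1 - t) (y := 1 - t₁)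
    (by linarith [htt.2]) (by linarith [htt.1]) hp0 hp1
  have hk' := key t htt j h1 h2
  refine ⟨hk'.trans (ENNReal.ofReal_le_ofReal ?_), fun ht0 =>
    hk'.trans (ENNReal.ofReal_le_ofReal ?_)⟩
  · have : (1 / 2 : ℝ) ^ j ≤ 1 := pow_le_one₀ (by norm_num) (by norm_num)
    nlinarith
  · have hlt : (1 - t₁) ^ (j + 1) < (1 - t₁) ^ J := by linarith
    have hJj : J ≤ j := by
      have := (pow_lt_pow_iff_right_of_lt_one₀ hp0 hp1).1 hlt
      omega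
    have : (1 / 2 : ℝ) ^ j ≤ (1 / 2) ^ J := pow_le_pow_of_le_one (by norm_num) (by norm_num) hJj
    nlinarith

end

end Crest.Agent.R086.C
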