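import Crest.Agent.R086.C.Pair2
import Crest.Agent.R086.C.AS1

/-! # Row 86, part C: the dichotomy (task) -/

open MeasureTheory Set Filter Topology
open scoped ContDiff ComplexConjugate ENNReal
open Crest.AnalysisR.PDE.NLS

namespace Crest.Agent.R086.C

noncomputable section

variable {n : ℕ} {b : ℝ} {q : ℝ → ℂ} {k₀ k : ℕ}

private theorem dich_pA_sub (f g : VV) : pA (f - g) = fun y => pA f y - pA g y := by
  funext y; simp only [pA, Pi.sub_apply, Prod.fst_sub, Prod.snd_sub, map_sub]; ring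

private theorem dich_pB_sub (f g : VV) : pB (f - g) = fun y => pB f y - pB g y := by
  funext y; simp only [pB, Pi.sub_apply, Prod.fst_sub, Prod.snd_sub, map_sub]; ring

private theorem dich_one {f : VV} (hf : f ∈ XX n b q k) (h : Nf k f ≤ 1) :
    nrm k 0 (pA f) ≤ 1 ∧ nrm k 0 (pB f) ≤ 1 :=
  ⟨(nrm_pA_le hf).1.trans (ENNReal.ofReal_le_one.2 h),
    (nrm_pA_le hf).2.trans (ENNReal.ofReal_le_one.2 h)⟩

theorem Wk2.add (H : Ctx n b q k₀) {f g : ℕ → VV} (hf : ∀ l, f l ∈ XX n b q k₀)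
    (hg : ∀ l, g l ∈ XX n b q k₀) (h1 : Wk2 n b q k₀ f) (h2 : Wk2 n b q k₀ g) :
    Wk2 n b q k₀ (fun l => f l + g l) := by
  unfold Wk2
  simp only [pA_add, pB_add]
  exact ⟨h1.1.add H (fun l => (hf l).1) (fun l => (hg l).1) h2.1,
    h1.2.add H (fun l => (hf l).2) (fun l => (hg l).2) h2.2⟩

theorem Wk2.smul (H : Ctx n b q k₀) {f : ℕ → VV} (hf : ∀ l, f l ∈ XX n b q k₀)
    (h1 : Wk2 n b q k₀ f) (c : ℂ) : Wk2 n b q k₀ (fun l => c • f l) := by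
  unfold Wk2
  simp only [pA_smul, pB_smul]
  exact ⟨(h1.1.smul H (fun l => (hf l).1) _).add H (fun l => (hf l).1.smul _)
      (fun l => (hf l).2.smul _) (h1.2.smul H (fun l => (hf l).2) _),
    (h1.1.smul H (fun l => (hf l).1) _).add H (fun l => (hf l).1.smul _)
      (fun l => (hf l).2.smul _) (h1.2.smul H (fun l => (hf l).2) _)⟩

theorem Wk2.TT (H : Ctx n b q k₀) {f : ℕ → VV} (hf : ∀ l, f l ∈ XX n b q k₀)
    (h1 : Wk2 n b q k₀ f) {t : ℝ} (ht : t ∈ Ico (0 : ℝ) 1) : Wk2 n b q k₀ (fun l => TT n b q k₀ t (f l)) := by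
  unfold Wk2
  simp only [C.TT, pA_mk2, pB_mk2]
  exact ⟨h1.1.T1 H (fun l => (hf l).1) ht, h1.2.T1 H (fun l => (hf l).2) ht⟩

theorem Wk2.sub {f : ℕ → VV} (h1 : Wk2 n b q k₀ f) {φ : ℕ → ℕ} (hφ : StrictMono φ) :
    Wk2 n b q k₀ (fun l => f (φ l)) := by
  exact ⟨h1.1.sub hφ, h1.2.sub hφ⟩

theorem Wk2.const (H : Ctx n b q k₀) {f : VV} (hf : f ∈ XX n b q k₀) (h1 : Wk2 n b q k₀ (fun _ => f)) :
    f = 0 := by
  rw [← mk2_pA_pB f, h1.1.const H hf.1, h1.2.const H hf.2]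
  funext y
  simp [mk2]

theorem wk2_of_Nf (H : Ctx n b q k₀) (hk : k₀ ≤ k) {f : ℕ → VV} (hf : ∀ l, f l ∈ XX n b q k)
    (h : Tendsto (fun l => Nf k (f l)) atTop (𝓝 0)) : Wk2 n b q k₀ f := by
  exact ⟨wk1_of_nrm H hk (fun l => (hf l).1) (squeeze_zero (fun l => ENNReal.toReal_nonneg)
      (fun l => ENNReal.toReal_le_of_le_ofReal (Nf_nonneg _) (nrm_pA_le (hf l)).1) h),
    wk1_of_nrm H hk (fun l => (hf l).2) (squeeze_zero (fun l => ENNReal.toReal_nonneg)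
      (fun l => ENNReal.toReal_le_of_le_ofReal (Nf_nonneg _) (nrm_pA_le (hf l)).2) h)⟩

/-- `T1_LY` for both components, J with 1 - (1/2)^J ≥ t₀ -/
theorem TT_LY (H : Ctx n b q k₀) (hk : k₀ ≤ k) {ε : ℝ} (hε : 0 < ε) : ∃ J : ℕ, ∀ f : ℕ → VV,
    (∀ l, f l ∈ XX n b q k) → (∀ l, Nf k (f l) ≤ 1) → Wk2 n b q k₀ f →
    ∀ᶠ l in atTop, Nf k (TT n b q k₀ (1 - (1 - 1 / 2) ^ J) (f l)) ≤ ε := by
  obtain ⟨t₀, ht₀, h⟩ := T1_LY H hk (ε := ε / 4) (by positivity)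
  obtain ⟨J, hJ⟩ := exists_pow_lt_of_lt_one (sub_pos.2 ht₀.2) (by norm_num : (1 - 1 / 2 : ℝ) < 1)
  have hp : (0 : ℝ) < (1 - 1 / 2) ^ J := by positivity
  have ht : 1 - (1 - 1 / 2 : ℝ) ^ J ∈ Ico t₀ 1 := ⟨by linarith, by linarith⟩
  refine ⟨J, fun f hf hb hw => ?_⟩
  filter_upwards [h _ ht _ (fun l => (hf l).1) (fun l => (dich_one (hf l) (hb l)).1) hw.1,
    h _ ht _ (fun l => (hf l).2) (fun l => (dich_one (hf l) (hb l)).2) hw.2] with l h1 h2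
  have := Nf_le (TT_mem H hk ⟨ht₀.1.trans ht.1, ht.2⟩ (hf l)) (B := ε / 4) (by positivity)
    (by rwa [TT, pA_mk2]) (by rwa [TT, pB_mk2])
  linarith

/-- `T1_compact` twice -/
theorem TT_compact (H : Ctx n b q k₀) (hk : k₀ + 20 ≤ k) (f : ℕ → VV) (hf : ∀ l, f l ∈ XX n b q k)
    (hb : ∀ l, Nf k (f l) ≤ 1) : ∃ (φ : ℕ → ℕ) (g : VV), StrictMono φ ∧ g ∈ XX n b q (k - 20) ∧
      Wk2 n b q k₀ (fun l => f (φ l) - g) := by
  obtain ⟨φ, A, hφ, hA, h1⟩ := T1_compact H hk (fun l => pA (f l)) (fun l => (hf l).1)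
    fun l => (dich_one (hf l) (hb l)).1
  obtain ⟨ψ, B, hψ, hB, h2⟩ := T1_compact H hk (fun l => pB (f (φ l))) (fun l => (hf _).2)
    fun l => (dich_one (hf _) (hb _)).2
  refine ⟨φ ∘ ψ, mk2 A B, hφ.comp hψ, ⟨by rwa [pA_mk2], by rwa [pB_mk2]⟩, ?_⟩
  unfold Wk2
  simp only [dich_pA_sub, dich_pB_sub, pA_mk2, pB_mk2]
  exact ⟨h1.sub hψ, h2⟩

/-- `as1` with Y = XX (k-20), X = (XX k).comap Y.subtype, E = EE.comap Y.subtype, N = NS k (Y.subtype ∘ X.subtype), T = TL at t = 1/2,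
Wk x = Wk2 (coe ∘ x); `TL_pow` (for the restricted map prove the analogous formula by induction), t₁ = 1 - (1/2)^J.  The first alternative is
unfolded with `qN_le`, `exists_lt_qN`. -/
theorem dich (H : Ctx n b q k₀) (hk : k₀ + 20 ≤ k) :
    (∃ t₁ ∈ Ioo (0 : ℝ) 1, ∀ f ∈ XX n b q k, ∀ e ∈ EE n b q, ∀ ε : ℝ, 0 < ε → ∃ e' ∈ EE n b q,
        Nf k (TT n b q k₀ t₁ f - e') ≤ Nf k (f - e) / 2 + ε) ∨
      ∃ ζ : ℂ, 1 ≤ ‖ζ‖ ∧ ∃ f ∈ XX n b q (k - 20), f ∉ EE n b q ∧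
        TT n b q k₀ (1 / 2) f - ζ • f ∈ EE n b q := by
  have hk1 : k₀ ≤ k - 20 := by omega
  have hk2 : k₀ ≤ k := by omega
  have ht : (1 / 2 : ℝ) ∈ Ico (0 : ℝ) 1 := ⟨by norm_num, by norm_num⟩
  let Y := XX n b q (k - 20)
  let X : Submodule ℂ Y := (XX n b q k).comap Y.subtype
  let E : Submodule ℂ Y := (EE n b q).comap Y.subtype
  haveI : FiniteDimensional ℂ E :=
    (Submodule.comapSubtypeEquivOfLe (EE_le H (k - 20))).symm.finiteDimensional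
  have hTX : ∀ x ∈ X, TL H hk1 ht x ∈ X := fun x hx => TT_mem H hk2 ht hx
  have hp : ∀ (J : ℕ) (x : X), (((((TL H hk1 ht).restrict hTX) ^ J) x : Y) : VV) =
      TT n b q k₀ (1 - (1 - 1 / 2) ^ J) x := fun J x => by
    rw [Module.End.pow_restrict]
    exact TL_pow H hk1 ht J x
  have hY : ∀ x : Y, (x : VV) ∈ XX n b q k₀ := fun x => XX_level hk1 x.2
  obtain ⟨C, hC, hb⟩ := TT_bound H hk2
  rcases as1 X E (fun e he => EE_le H k he) (NS k (Y.subtype ∘ₗ X.subtype) fun x => x.2)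
    (fun x _ h => Subtype.ext (Subtype.ext (Nf_eq_zero H hk2 x.2 h))) (TL H hk1 ht) hTX
    (fun e ⟨c, hc⟩ => ⟨_, (TT_Phi H ht c).symm.trans (congrArg (TT n b q k₀ (1 / 2)) hc)⟩)
    (C * (1 / (1 - 1 / 2)) ^ C) (by positivity) (fun x => hb _ x.2 _ ht)
    (fun x => Wk2 n b q k₀ fun l => x l)
    (fun x y h1 h2 => h1.add H (fun l => hY _) (fun l => hY _) h2)
    (fun c x h1 => h1.smul H (fun l => hY _) c) (fun x h1 => h1.TT H (fun l => hY _) ht)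
    (fun x h => wk2_of_Nf H hk2 (fun l => (x l).2) h)
    (fun x h => Subtype.ext (h.const H (hY x))) (fun x φ hφ h => h.sub hφ)
    (fun ε hε => (TT_LY H hk2 hε).imp fun J hJ x h1 h2 =>
      (hJ _ (fun l => (x l).2) h1 h2).mono fun l hl => (congrArg (Nf k) (hp J (x l))).trans_le hl)
    (fun x h1 => by
      obtain ⟨φ, g, hφ, hg, h⟩ := TT_compact H hk _ (fun l => (x l).2) h1
      exact ⟨φ, ⟨g, hg⟩, hφ, h⟩) with ⟨J, hJ, h⟩ | ⟨ζ, hζ, y, hy, h⟩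
  · have h0 : (0 : ℝ) < (1 - 1 / 2) ^ J := by positivity
    have h1 : (1 - 1 / 2 : ℝ) ^ J < 1 := pow_lt_one₀ (by norm_num) (by norm_num) (by omega)
    refine Or.inl ⟨1 - (1 - 1 / 2) ^ J, ⟨by linarith, by linarith⟩, fun f hf e he ε hε => ?_⟩
    let x : X := ⟨⟨f, XX_level (Nat.sub_le _ _) hf⟩, hf⟩
    obtain ⟨e', he', h2⟩ := exists_lt_qN (NS k (Y.subtype ∘ₗ X.subtype) fun x => x.2)
      (E.comap X.subtype) ((((TL H hk1 ht).restrict hTX) ^ J) x) hε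
    let ex : X := ⟨⟨e, EE_le H _ he⟩, EE_le H k he⟩
    have hex : ex ∈ E.comap X.subtype := he
    have h3 := qN_le (NS k (Y.subtype ∘ₗ X.subtype) fun x => x.2) (E.comap X.subtype) x hex
    rw [NS_apply, map_sub] at h2 h3
    simp only [LinearMap.comp_apply, Submodule.subtype_apply, hp, x, ex] at h2 h3
    exact ⟨(e' : Y), he', by linarith [h x]⟩
  · exact Or.inr ⟨ζ, hζ, y, y.2, hy, h⟩

end

end Crest.Agent.R086.C
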