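import Crest.Agent.R086.C.Dich
import Crest.Agent.R086.C.AS2
import Crest.Agent.R086.C.AS4

/-! # Row 86, part C: a finite-dimensional invariant eigenspace of the generator modulo E (task) -/

open MeasureTheory Set Filter Topology
open scoped ContDiff ComplexConjugate ENNReal
open Crest.AnalysisR.PDE.NLS

namespace Crest.Agent.R086.C

noncomputable section

variable {n : ℕ} {b : ℝ} {q : ℝ → ℂ} {k₀ k : ℕ}

theorem Eig_half : (1 / 2 : ℝ) ∈ Ico (0 : ℝ) 1 := ⟨by norm_num, by norm_num⟩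

theorem Eig_TT_EE (H : Ctx n b q k₀) {t : ℝ} (ht : t ∈ Ico (0 : ℝ) 1) {e : VV}
    (he : e ∈ EE n b q) : TT n b q k₀ t e ∈ EE n b q := by
  obtain ⟨c, rfl⟩ := he
  exact ⟨_, (TT_Phi H ht c).symm⟩

/-- G = {f ∈ XX k | TT (1/2) f - ζ f ∈ EE} is a submodule of VV containing EE (`TT_Phi`); finite-dimensional by `as2` (Y = XX k, `TT_LY`,
`TT_compact`: differences of consecutive terms of a Wk-convergent subsequence are Wk); invariant under TT t (commutation by `TT_semi`) and rotations. -/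
theorem eig_space (H : Ctx n b q k₀) (hk : k₀ + 20 ≤ k) (ζ : ℂ) (hζ : 1 ≤ ‖ζ‖) :
    ∃ G : Submodule ℂ VV, FiniteDimensional ℂ G ∧ EE n b q ≤ G ∧ RotInv G ∧
      (∀ f, f ∈ G ↔ f ∈ XX n b q k ∧ TT n b q k₀ (1 / 2) f - ζ • f ∈ EE n b q) ∧
      ∀ t ∈ Ico (0 : ℝ) 1, ∀ f ∈ G, TT n b q k₀ t f ∈ G := by
  have hk' : k₀ ≤ k := by omega
  let T := TL H hk' Eig_half
  let G₀ : Submodule ℂ (XX n b q k) :=
    (EE n b q).comap ((XX n b q k).subtype ∘ₗ (T - ζ • LinearMap.id))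
  let E₀ : Submodule ℂ (XX n b q k) := (EE n b q).comap (XX n b q k).subtype
  have hE₀ : FiniteDimensional ℂ E₀ :=
    (Submodule.comapSubtypeEquivOfLe (EE_le H k)).symm.finiteDimensional
  have hTE : ∀ e ∈ E₀, T e ∈ E₀ := fun e he => Eig_TT_EE H Eig_half he
  have hEG : E₀ ≤ G₀ := fun e he => E₀.sub_mem (hTE e he) (E₀.smul_mem ζ he)
  have hG₀ : FiniteDimensional ℂ G₀ := by
    refine as2 E₀ G₀ hEG (NS k (XX n b q k).subtype fun y => y.2)
      (fun x hx => Subtype.ext (Nf_eq_zero H hk' x.2 hx)) T hTE ζ hζ (fun x hx => hx)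
      (fun x => Wk2 n b q k₀ fun l => x l)
      (fun c x hx => Wk2.smul H (fun l => XX_level hk' (x l).2) hx c) (fun ε hε => ?_) fun x hx => ?_
    · obtain ⟨J, hJ⟩ := TT_LY H hk' hε
      refine ⟨J, fun x hx hw => (hJ _ (fun l => (x l).2) hx hw).mono fun l hl => ?_⟩
      rw [← TL_pow H hk' Eig_half] at hl
      exact hl
    · obtain ⟨φ, g, hφ, hg, hw⟩ := TT_compact H hk _ (fun l => (x l).2) hx
      have hm : ∀ l, (x l : VV) - g ∈ XX n b q k₀ := fun l =>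
        sub_mem (XX_level hk' (x l).2) (XX_level (by omega) hg)
      have h1 := Wk2.add H (fun l => hm (φ (l + 1))) (fun l => Submodule.smul_mem _ (-1) (hm (φ l)))
        (hw.sub (φ := fun l => l + 1) fun _ _ h => Nat.succ_lt_succ h)
        (Wk2.smul H (fun l => hm (φ l)) hw (-1))
      refine ⟨φ, hφ, ?_⟩
      have e : (fun l => ((x (φ (l + 1)) - x (φ l) : XX n b q k) : VV)) =
          fun l => (x (φ (l + 1)) : VV) - g + (-1 : ℂ) • ((x (φ l) : VV) - g) := by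
        funext l
        rw [Submodule.coe_sub, neg_one_smul]
        abel
      rw [e]
      exact h1
  have hmem : ∀ f, f ∈ G₀.map (XX n b q k).subtype ↔
      f ∈ XX n b q k ∧ TT n b q k₀ (1 / 2) f - ζ • f ∈ EE n b q := fun f =>
    ⟨by rintro ⟨x, hx, rfl⟩; exact ⟨x.2, hx⟩, fun h => ⟨⟨f, h.1⟩, h.2, rfl⟩⟩
  refine ⟨G₀.map (XX n b q k).subtype, inferInstance, fun e he => (hmem e).2 ⟨EE_le H k he,
    sub_mem (Eig_TT_EE H Eig_half he) (Submodule.smul_mem _ ζ he)⟩, fun O f hf => ?_, hmem,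
    fun t ht f hf => ?_⟩
  · obtain ⟨h1, h2⟩ := (hmem f).1 hf
    refine (hmem _).2 ⟨XX_rot O f h1, ?_⟩
    rw [TT_rot H (XX_level hk' h1) O Eig_half]
    exact EE_rot O _ h2
  · obtain ⟨h1, h2⟩ := (hmem f).1 hf
    refine (hmem _).2 ⟨TT_mem H hk' ht h1, ?_⟩
    have h0 := XX_level hk' h1
    have h3 := Eig_TT_EE H ht h2
    rw [sub_eq_add_neg, ← neg_smul, TT_add H ht (TT_mem H le_rfl Eig_half h0)
      (Submodule.smul_mem _ _ h0), TT_smul H ht _ h0, TT_semi H h0 ht Eig_half] at h3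
    rw [TT_semi H h0 Eig_half ht, sub_eq_add_neg, ← neg_smul,
      show t + (1 - t) * (1 / 2) = 1 / 2 + (1 - 1 / 2) * t by ring]
    exact h3

/-- similarity time -/
def Eig_tau (s : ℝ) : ℝ := 1 - Real.exp (-max s 0)

theorem Eig_tau_mem (s : ℝ) : Eig_tau s ∈ Ico (0 : ℝ) 1 :=
  ⟨sub_nonneg.2 (Real.exp_le_one_iff.2 (neg_nonpos.2 (le_max_right _ _))),
    sub_lt_self _ (Real.exp_pos _)⟩

theorem Eig_tau_zero : Eig_tau 0 = 0 := by simp [Eig_tau]

theorem Eig_tau_add {s σ : ℝ} (hs : 0 ≤ s) (hσ : 0 ≤ σ) :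
    Eig_tau (s + σ) = Eig_tau σ + (1 - Eig_tau σ) * Eig_tau s := by
  simp only [Eig_tau, max_eq_left hs, max_eq_left hσ, max_eq_left (add_nonneg hs hσ), neg_add,
    Real.exp_add]
  ring

theorem Eig_tau_log : Eig_tau (Real.log 2) = 1 / 2 := by
  rw [Eig_tau, max_eq_left (Real.log_nonneg one_le_two), Real.exp_neg, Real.exp_log two_pos]
  norm_num

theorem Eig_cont (H : Ctx n b q k₀) {f : VV} (hf : f ∈ XX n b q k₀) :
    Continuous fun s => TT n b q k₀ (Eig_tau s) f := by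
  have hτ : Continuous Eig_tau := by unfold Eig_tau; fun_prop
  refine continuous_pi fun y => ?_
  have h1 := (T1_continuousOn H hf.1 y).comp_continuous hτ Eig_tau_mem
  have h2 := (T1_continuousOn H hf.2 y).comp_continuous hτ Eig_tau_mem
  exact (h1.add (continuous_const.mul h2)).prodMk
    ((Complex.continuous_conj.comp h1).add (continuous_const.mul (Complex.continuous_conj.comp h2)))

theorem Eig_tendsto (H : Ctx n b q k₀) {f : VV} (hf : f ∈ XX n b q k₀) :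
    Tendsto (fun σ : ℝ => ((σ : ℂ)⁻¹) • (TT n b q k₀ (Eig_tau σ) f - f)) (𝓝[>] 0)
      (𝓝 (LL2 n b q f)) := by
  refine tendsto_pi_nhds.2 fun y => ?_
  have h1 := T1_deriv H hf.1 y
  have h2 := T1_deriv H hf.2 y
  have h3 : HasDerivWithinAt (fun t => TT n b q k₀ t f y) (LL2 n b q f y) (Ici 0) 0 :=
    (h1.add (h2.const_mul Complex.I)).prodMk (h1.star.add (h2.star.const_mul Complex.I))
  have h4 : HasDerivWithinAt Eig_tau 1 (Ici 0) 0 := by
    have h5 := ((hasDerivAt_neg' (0 : ℝ)).exp.const_sub 1).hasDerivWithinAt (s := Ici 0)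
    refine (h5.congr_of_mem (fun s hs => ?_) (mem_Ici.2 le_rfl)).congr_deriv (by simp)
    rw [Eig_tau, max_eq_left hs]
  have h6 := (h3.scomp_of_eq 0 h4 (fun s _ => (Eig_tau_mem s).1) Eig_tau_zero.symm).Ioi_of_Ici
  rw [hasDerivWithinAt_iff_tendsto_slope' (by simp), one_smul] at h6
  refine h6.congr fun σ => ?_
  rw [slope_def_module, sub_zero, Function.comp_apply, Function.comp_apply, Eig_tau_zero,
    TT_zero_time H hf, ← Complex.ofReal_inv, Pi.smul_apply, Pi.sub_apply, Complex.coe_smul]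

/-- `as4` in V = VV (product topology) with T s = TT (1 - exp(-max s 0)) on G, S = log 2, L = LL2 (`T1_deriv` composed with
s ↦ 1 - e^{-s}, `hasDerivWithinAt_iff_tendsto_slope`/`HasDerivWithinAt.tendsto_slope…`, `tendsto_pi_nhds`; `T1_continuousOn`);
then G' = {f ∈ G | LL2 f - λ f ∈ EE} (`LL2_add`, `LL2_smul`, `LL2_rot`, `EE_rot`); EE ≤ G' because LL2 (Phi c) = Phi (ev * c) (`bm0_eq`). -/
theorem eig (H : Ctx n b q k₀) (hk : k₀ + 20 ≤ k) (ζ : ℂ) (hζ : 1 ≤ ‖ζ‖) {f : VV} (hf : f ∈ XX n b q k)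
    (hfE : f ∉ EE n b q) (h : TT n b q k₀ (1 / 2) f - ζ • f ∈ EE n b q) :
    ∃ lam : ℂ, 0 ≤ lam.re ∧ ∃ G : Submodule ℂ VV, FiniteDimensional ℂ G ∧ EE n b q ≤ G ∧
      ¬ G ≤ EE n b q ∧ G ≤ XX n b q k ∧ RotInv G ∧ ∀ g ∈ G, LL2 n b q g - lam • g ∈ EE n b q := by
  have hk' : k₀ ≤ k := by omega
  obtain ⟨G, hfin, hEG, -, hmem, hinv⟩ := eig_space H hk ζ hζ
  have hX : ∀ x : G, (x : VV) ∈ XX n b q k₀ := fun x => XX_level hk' ((hmem _).1 x.2).1
  let T : ℝ → G →ₗ[ℂ] G := fun s =>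
    { toFun := fun x => ⟨TT n b q k₀ (Eig_tau s) x, hinv _ (Eig_tau_mem s) _ x.2⟩
      map_add' := fun x y => Subtype.ext (TT_add H (Eig_tau_mem s) (hX x) (hX y))
      map_smul' := fun c x => Subtype.ext (TT_smul H (Eig_tau_mem s) c (hX x)) }
  have hT : ∀ s (x : G), (T s x : VV) = TT n b q k₀ (Eig_tau s) x := fun _ _ => rfl
  obtain ⟨lam, hlam, x, hxG, hxE, hx⟩ := as4 (EE n b q) G hEG
    (fun hle => hfE (hle ((hmem f).2 ⟨hf, h⟩))) T
    (fun x => Subtype.ext (by rw [hT, Eig_tau_zero, TT_zero_time H (hX x)]))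
    (fun s σ hs hσ x => Subtype.ext (by
      rw [hT, hT, hT, TT_semi H (hX x) (Eig_tau_mem s) (Eig_tau_mem σ), Eig_tau_add hs hσ]))
    (fun s _ x hx => Eig_TT_EE H (Eig_tau_mem s) hx)
    (fun x => (Eig_cont H (hX x)).continuousOn) (LL2 n b q) (fun x => Eig_tendsto H (hX x))
    (Real.log 2) (Real.log_pos one_lt_two) ζ hζ
    (fun x => by rw [hT, Eig_tau_log]; exact ((hmem _).1 x.2).2)
  obtain ⟨G, hfin, hEG, hrot, hmem, hinv⟩ : ∃ G : Submodule ℂ VV, FiniteDimensional ℂ G ∧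
      EE n b q ≤ G ∧ RotInv G ∧ (∀ f ∈ G, f ∈ XX n b q k) ∧ x ∈ G := by
    obtain ⟨G', h1, h2, h3, h4, -⟩ := eig_space H hk ζ hζ
    exact ⟨G', h1, h2, h3, fun f hf => ((h4 f).1 hf).1, (h4 x).2 ((hmem x).1 hxG)⟩
  let G' : Submodule ℂ VV :=
    { carrier := {g | g ∈ G ∧ LL2 n b q g - lam • g ∈ EE n b q}
      add_mem' := fun {u v} hu hv => ⟨G.add_mem hu.1 hv.1, by
        have := add_mem hu.2 hv.2
        rw [LL2_add (hmem u hu.1) (hmem v hv.1), smul_add]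
        rwa [← add_sub_add_comm] at this⟩
      zero_mem' := ⟨G.zero_mem, by
        have := LL2_smul (n := n) (b := b) (q := q) (k := k) 0 (zero_mem _)
        rw [zero_smul, zero_smul] at this
        rw [this, smul_zero, sub_zero]
        exact zero_mem _⟩
      smul_mem' := fun c u hu => ⟨G.smul_mem c hu.1, by
        rw [LL2_smul c (hmem u hu.1), smul_comm, ← smul_sub]
        exact Submodule.smul_mem _ c hu.2⟩ }
  have hle : G' ≤ G := fun g hg => hg.1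
  refine ⟨lam, hlam, G', Submodule.finiteDimensional_of_le hle, fun e he => ⟨hEG he, ?_⟩,
    fun hc => hxE (hc ⟨hinv, hx⟩), fun g hg => hmem g hg.1, fun O g hg => ⟨hrot O g hg.1, ?_⟩,
    fun g hg => hg.2⟩
  · refine sub_mem ?_ (Submodule.smul_mem _ _ he)
    exact (EE n b q).closed_of_finiteDimensional.mem_of_tendsto (Eig_tendsto H (EE_le H k₀ he))
      (Eventually.of_forall fun σ => Submodule.smul_mem _ _
        (sub_mem (Eig_TT_EE H (Eig_tau_mem σ) he) he))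
  · rw [LL2_rot (hmem g hg.1) O]
    exact EE_rot O _ hg.2

end

end Crest.Agent.R086.C
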