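import Crest.Agent.R086.C.HWAux

/-! # Row 86, part C: a highest weight vector outside E (task) -/

open MeasureTheory Set Filter Topology
open scoped ContDiff ComplexConjugate
open Crest.AnalysisR.PDE.NLS

namespace Crest.Agent.R086.C

noncomputable section

/-- An invariant complement: B(f,g) = ∫ (1+|y|²)^{-14} (f₁ḡ₁ + f₂ḡ₂) is an inner product on bounded continuous pairs, invariant
under linear isometries (`LinearIsometryEquiv.measurePreserving`; integrability: `integrable_one_add_norm`/`finite_integral_rpow_neg_one_add_norm_sq`-type lemmas).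
H = {f ∈ G | ∀ e ∈ E, B(f,e) = 0} is the kernel of f ↦ (B(f,e_i))_i for a basis e_i of E, so dim H ≥ dim G - dim E > 0; H ∩ E = 0. -/
theorem exists_compl (G E : Submodule ℂ (R12 → ℂ × ℂ)) [FiniteDimensional ℂ G] (hEG : E ≤ G)
    (hne : ¬ G ≤ E) (hG : RotInv G) (hE : RotInv E) (hc : ∀ f ∈ G, Continuous f)
    (hb : ∀ f ∈ G, ∃ B : ℝ, ∀ y, ‖f y‖ ≤ B) :
    ∃ H : Submodule ℂ (R12 → ℂ × ℂ), H ≤ G ∧ H ≠ ⊥ ∧ RotInv H ∧ ∀ f ∈ H, f ∈ E → f = 0 :=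
  HWAux.exists_compl G E hEG hne hG hE hc hb

/-- In a nonzero finite-dimensional invariant space H take an eigenvalue c of Ω₀₁|H (`Om_mem`, linear on H) with the largest imaginary part
(finitely many eigenvalues, `Module.End.finite_hasEigenvalue`/`finite_spectrum`), f an eigenvector.  `rot_of_eig` at θ = 2π gives e^{2πc} = 1, c = i m, m ∈ ℤ;
the reflection y₁ ↦ -y₁ turns c into -c, so m ≥ 0.  With R_j = Ω₀ⱼ + iΩ₁ⱼ, `Om_comm` gives Ω₀₁R_j f = (c + i) R_j f (check the sign: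
[Ω₀₁,Ω₀ⱼ] = -Ω₁ⱼ, [Ω₀₁,Ω₁ⱼ] = Ω₀ⱼ), so R_j f = 0; conclude with `hw_form`. -/
theorem exists_hw (H : Submodule ℂ (R12 → ℂ × ℂ)) [FiniteDimensional ℂ H] (h0 : H ≠ ⊥) (hH : RotInv H)
    (hs : ∀ f ∈ H, ContDiff ℝ 2 f) :
    ∃ f ∈ H, f ≠ 0 ∧ ∃ m : ℕ, (∀ y, Om (AA 0 1) f y = (Complex.I * m) • f y) ∧
      HWForm m (c1 f) ∧ HWForm m (c2 f) :=
  HWAux.exists_hw H h0 hH hs

theorem hw (G E : Submodule ℂ (R12 → ℂ × ℂ)) [FiniteDimensional ℂ G] (hEG : E ≤ G)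
    (hne : ¬ G ≤ E) (hG : RotInv G) (hE : RotInv E) (hs : ∀ f ∈ G, ContDiff ℝ 2 f)
    (hb : ∀ f ∈ G, ∃ B : ℝ, ∀ y, ‖f y‖ ≤ B) :
    ∃ f ∈ G, f ∉ E ∧ ∃ m : ℕ, (∀ y, Om (AA 0 1) f y = (Complex.I * m) • f y) ∧
      HWForm m (c1 f) ∧ HWForm m (c2 f) := by
  obtain ⟨H, hHG, h0, hH, hHE⟩ := exists_compl G E hEG hne hG hE (fun f hf => (hs f hf).continuous) hb
  haveI : FiniteDimensional ℂ H := Submodule.finiteDimensional_of_le hHG
  obtain ⟨f, hf, hf0, m, h⟩ := exists_hw H h0 hH (fun f hf => hs f (hHG hf))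
  exact ⟨f, hHG hf, fun hfE => hf0 (hHE f hf hfE), m, h⟩

end

end Crest.Agent.R086.C
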