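import Crest.Agent.R086.C.Rot

/-! # Row 86, part C: auxiliary lemmas for `HW.lean` -/

open MeasureTheory Set Filter Topology
open scoped ContDiff ComplexConjugate
open Crest.AnalysisR.PDE.NLS

namespace Crest.Agent.R086.C.HWAux

noncomputable section

/-- the weight -/
def wt (y : R12) : ℝ := (1 + ‖y‖) ^ (-(13 : ℝ))

theorem wt_pos (y : R12) : 0 < wt y := Real.rpow_pos_of_pos (by positivity) _

theorem wt_cont : Continuous wt :=
  Continuous.rpow_const (by fun_prop) (fun x => Or.inl (by positivity))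

theorem wt_int : Integrable wt (volume : Measure R12) :=
  integrable_one_add_norm (by simp; norm_num)

/-- integrand of the invariant inner product -/
def bi (f g : R12 → ℂ × ℂ) (y : R12) : ℂ :=
  ((f y).1 * conj (g y).1 + (f y).2 * conj (g y).2) * (wt y : ℂ)

/-- the invariant inner product -/
def Bf (f g : R12 → ℂ × ℂ) : ℂ := ∫ y, bi f g y

theorem bi_cont {f g : R12 → ℂ × ℂ} (hf : Continuous f) (hg : Continuous g) :
    Continuous (bi f g) := by
  have := wt_cont
  unfold bi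
  fun_prop

theorem bi_int {f g : R12 → ℂ × ℂ} (hf : Continuous f) (hg : Continuous g)
    (hbf : ∃ B : ℝ, ∀ y, ‖f y‖ ≤ B) (hbg : ∃ B : ℝ, ∀ y, ‖g y‖ ≤ B) :
    Integrable (bi f g) := by
  obtain ⟨A, hA⟩ := hbf
  obtain ⟨B, hB⟩ := hbg
  have hA0 : 0 ≤ A := (norm_nonneg _).trans (hA 0)
  have hB0 : 0 ≤ B := (norm_nonneg _).trans (hB 0)
  refine (wt_int.const_mul (A * B + A * B)).mono' (bi_cont hf hg).aestronglyMeasurable
    (Eventually.of_forall fun y => ?_)
  unfold bi
  rw [norm_mul, Complex.norm_real, Real.norm_of_nonneg (wt_pos y).le]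
  refine mul_le_mul_of_nonneg_right ((norm_add_le _ _).trans (add_le_add ?_ ?_)) (wt_pos y).le
  · rw [norm_mul, Complex.norm_conj]
    exact mul_le_mul ((norm_fst_le _).trans (hA y)) ((norm_fst_le _).trans (hB y))
      (norm_nonneg _) hA0
  · rw [norm_mul, Complex.norm_conj]
    exact mul_le_mul ((norm_snd_le _).trans (hA y)) ((norm_snd_le _).trans (hB y))
      (norm_nonneg _) hA0

theorem Bf_add {f f' g : R12 → ℂ × ℂ} (h : Integrable (bi f g)) (h' : Integrable (bi f' g)) :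
    Bf (f + f') g = Bf f g + Bf f' g := by
  unfold Bf
  rw [← integral_add h h']
  congr 1
  ext y
  simp only [bi, Pi.add_apply, Prod.fst_add, Prod.snd_add]
  ring

theorem Bf_smul (c : ℂ) (f g : R12 → ℂ × ℂ) : Bf (c • f) g = c * Bf f g := by
  unfold Bf
  rw [← integral_const_mul]
  congr 1
  ext y
  simp only [bi, Pi.smul_apply, Prod.smul_fst, Prod.smul_snd, smul_eq_mul]
  ring

theorem Bf_conj (f g : R12 → ℂ × ℂ) : conj (Bf f g) = Bf g f := by
  unfold Bf
  rw [← integral_conj]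
  congr 1
  ext y
  simp only [bi, map_mul, map_add, Complex.conj_conj, Complex.conj_ofReal]
  ring

theorem Bf_rot (O : R12 ≃ₗᵢ[ℝ] R12) (f g : R12 → ℂ × ℂ) :
    Bf (fun y => f (O y)) (fun y => g (O y)) = Bf f g := by
  unfold Bf
  rw [← O.measurePreserving.integral_comp O.toHomeomorph.measurableEmbedding (bi f g)]
  congr 1
  ext y
  simp only [bi, wt, LinearIsometryEquiv.norm_map]

theorem eq_zero_of_Bf {f : R12 → ℂ × ℂ} (hf : Continuous f) (hb : ∃ B : ℝ, ∀ y, ‖f y‖ ≤ B)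
    (h : Bf f f = 0) : f = 0 := by
  by_contra hne
  obtain ⟨y, hy⟩ : ∃ y, f y ≠ 0 := by
    by_contra hh
    push Not at hh
    exact hne (funext hh)
  set φ : R12 → ℝ := fun y => (‖(f y).1‖ ^ 2 + ‖(f y).2‖ ^ 2) * wt y with hφ
  have hbi : ∀ y, bi f f y = (φ y : ℂ) := by
    intro y
    simp only [bi, hφ, Complex.mul_conj, Complex.normSq_eq_norm_sq]
    push_cast
    ring
  have hφc : Continuous φ := by
    have := wt_cont
    rw [hφ]
    fun_prop
  have hφi : Integrable φ := by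
    have := (bi_int hf hf hb hb).re
    refine this.congr (Eventually.of_forall fun y => ?_)
    simp [hbi]
  have hpos : 0 < ∫ y, φ y := by
    refine integral_pos_of_integrable_nonneg_nonzero (x := y) hφc hφi
      (fun y => mul_nonneg (by positivity) (wt_pos y).le) ?_
    refine mul_ne_zero ?_ (wt_pos y).ne'
    intro h0
    have h1 : ‖(f y).1‖ = 0 := by nlinarith [sq_nonneg ‖(f y).1‖, sq_nonneg ‖(f y).2‖]
    have h2 : ‖(f y).2‖ = 0 := by nlinarith [sq_nonneg ‖(f y).1‖, sq_nonneg ‖(f y).2‖]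
    exact hy (Prod.ext (norm_eq_zero.1 h1) (norm_eq_zero.1 h2))
  have : Bf f f = ((∫ y, φ y : ℝ) : ℂ) := by
    unfold Bf
    rw [← integral_complex_ofReal]
    congr 1
    ext y
    exact hbi y
  rw [this] at h
  exact hpos.ne' (by exact_mod_cast h)

theorem exists_compl (G E : Submodule ℂ (R12 → ℂ × ℂ)) [FiniteDimensional ℂ G] (hEG : E ≤ G)
    (hne : ¬ G ≤ E) (hG : RotInv G) (hE : RotInv E) (hc : ∀ f ∈ G, Continuous f)
    (hb : ∀ f ∈ G, ∃ B : ℝ, ∀ y, ‖f y‖ ≤ B) :
    ∃ H : Submodule ℂ (R12 → ℂ × ℂ), H ≤ G ∧ H ≠ ⊥ ∧ RotInv H ∧ ∀ f ∈ H, f ∈ E → f = 0 := by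
  have hint : ∀ f ∈ G, ∀ g ∈ G, Integrable (bi f g) := fun f hf g hg =>
    bi_int (hc f hf) (hc g hg) (hb f hf) (hb g hg)
  let H : Submodule ℂ (R12 → ℂ × ℂ) :=
    { carrier := {f | f ∈ G ∧ ∀ e ∈ E, Bf f e = 0}
      add_mem' := by
        rintro f f' ⟨hf, h1⟩ ⟨hf', h2⟩
        refine ⟨G.add_mem hf hf', fun e he => ?_⟩
        rw [Bf_add (hint _ hf _ (hEG he)) (hint _ hf' _ (hEG he)), h1 e he, h2 e he, add_zero]
      zero_mem' := by
        refine ⟨G.zero_mem, fun e he => ?_⟩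
        have := Bf_smul 0 0 e
        simpa using this
      smul_mem' := by
        rintro c f ⟨hf, h1⟩
        refine ⟨G.smul_mem c hf, fun e he => ?_⟩
        rw [Bf_smul, h1 e he, mul_zero] }
  have hH : ∀ f, f ∈ H ↔ f ∈ G ∧ ∀ e ∈ E, Bf f e = 0 := fun f => Iff.rfl
  refine ⟨H, fun f hf => ((hH f).1 hf).1, ?_, ?_, ?_⟩
  · have : FiniteDimensional ℂ E := Submodule.finiteDimensional_of_le hEG
    let L : ∀ g ∈ G, G →ₗ[ℂ] ℂ := fun g hg =>
      { toFun := fun f => Bf f g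
        map_add' := fun f f' => Bf_add (hint _ f.2 _ hg) (hint _ f'.2 _ hg)
        map_smul' := fun c f => Bf_smul c _ _ }
    let b := Module.finBasis ℂ E
    let T : G →ₗ[ℂ] (Fin (Module.finrank ℂ E) → ℂ) :=
      LinearMap.pi fun i => L (b i) (hEG (b i).2)
    have hlt : Module.finrank ℂ E < Module.finrank ℂ G :=
      Submodule.finrank_lt_finrank_of_lt (lt_of_le_of_ne hEG (fun h => hne (h ▸ le_rfl)))
    have hker : LinearMap.ker T ≠ ⊥ := T.ker_ne_bot_of_finrank_lt (by simpa using hlt)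
    obtain ⟨f, hf, hf0⟩ := (Submodule.ne_bot_iff _).1 hker
    refine (Submodule.ne_bot_iff _).2 ⟨f, (hH _).2 ⟨f.2, fun e he => ?_⟩, fun h => hf0 (Subtype.ext h)⟩
    have hz : (L f f.2).comp (Submodule.inclusion hEG) = 0 := by
      refine b.ext fun i => ?_
      have h1 : Bf f (b i) = 0 := congrFun (LinearMap.mem_ker.1 hf) i
      have h2 : Bf (b i) f = 0 := by rw [← Bf_conj, h1, map_zero]
      exact h2
    have h3 : Bf e f = 0 := LinearMap.congr_fun hz ⟨e, he⟩
    rw [← Bf_conj, h3, map_zero]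
  · intro O f hf
    obtain ⟨hfG, hf⟩ := (hH f).1 hf
    refine (hH _).2 ⟨hG O f hfG, fun e he => ?_⟩
    have h1 := Bf_rot O f (fun y => e (O.symm y))
    simp only [LinearIsometryEquiv.symm_apply_apply] at h1
    rw [h1]
    exact hf _ (hE O.symm e he)
  · intro f hf hfE
    obtain ⟨hfG, hf⟩ := (hH f).1 hf
    exact eq_zero_of_Bf (hc f hfG) (hb f hfG) (hf f hfE)

theorem Om_add (A : R12 →L[ℝ] R12) {f g : R12 → ℂ × ℂ} (hf : Differentiable ℝ f)
    (hg : Differentiable ℝ g) : Om A (f + g) = Om A f + Om A g := by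
  ext1 y
  simp only [Om, Pi.add_apply]
  rw [fderiv_add (hf y) (hg y)]
  rfl

theorem Om_smul (A : R12 →L[ℝ] R12) (c : ℂ) {f : R12 → ℂ × ℂ} (hf : Differentiable ℝ f) :
    Om A (c • f) = c • Om A f := by
  ext1 y
  simp only [Om, Pi.smul_apply]
  rw [fderiv_const_smul (hf y)]
  rfl

theorem ee_apply (i j : Fin 12) : ee i j = if j = i then 1 else 0 := by
  simp [ee]

theorem comm0 (j : Fin 12) (h0 : j ≠ 0) (h1 : j ≠ 1) (y : R12) :
    ((AA 0 j).comp (AA 0 1) - (AA 0 1).comp (AA 0 j)) y = - AA 1 j y := by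
  simp only [sub_apply, ContinuousLinearMap.comp_apply, AA_apply,
    PiLp.sub_apply, PiLp.smul_apply, ee_apply, smul_eq_mul]
  simp [h0, h1, h0.symm, h1.symm]
  abel

theorem comm1 (j : Fin 12) (h0 : j ≠ 0) (h1 : j ≠ 1) (y : R12) :
    ((AA 1 j).comp (AA 0 1) - (AA 0 1).comp (AA 1 j)) y = AA 0 j y := by
  simp only [sub_apply, ContinuousLinearMap.comp_apply, AA_apply,
    PiLp.sub_apply, PiLp.smul_apply, ee_apply, smul_eq_mul]
  simp [h0, h1, h0.symm, h1.symm]

theorem exists_hw (H : Submodule ℂ (R12 → ℂ × ℂ)) [FiniteDimensional ℂ H] (h0 : H ≠ ⊥)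
    (hH : RotInv H) (hs : ∀ f ∈ H, ContDiff ℝ 2 f) :
    ∃ f ∈ H, f ≠ 0 ∧ ∃ m : ℕ, (∀ y, Om (AA 0 1) f y = (Complex.I * m) • f y) ∧
      HWForm m (c1 f) ∧ HWForm m (c2 f) := by
  have hs1 : ∀ f ∈ H, ContDiff ℝ 1 f := fun f hf => (hs f hf).of_le (by norm_num)
  have hd : ∀ f ∈ H, Differentiable ℝ f := fun f hf => (hs1 f hf).differentiable (by norm_num)
  let T : Module.End ℂ H :=
    { toFun := fun f => ⟨Om (AA 0 1) f, Om_mem H hH hs1 0 1 (by decide) f f.2⟩
      map_add' := fun f g => Subtype.ext (Om_add _ (hd _ f.2) (hd _ g.2))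
      map_smul' := fun c f => Subtype.ext (Om_smul _ c (hd _ f.2)) }
  have hS : ∀ c, T.HasEigenvalue c ↔ ∃ f ∈ H, f ≠ 0 ∧ Om (AA 0 1) f = c • f := by
    intro c
    constructor
    · intro h
      obtain ⟨f, hf⟩ := h.exists_hasEigenvector
      exact ⟨f, f.2, fun h => hf.2 (Subtype.ext h), congrArg Subtype.val hf.apply_eq_smul⟩
    · rintro ⟨f, hf, hf0, h⟩
      refine Module.End.hasEigenvalue_of_hasEigenvector (x := ⟨f, hf⟩) ⟨?_, ?_⟩
      · exact Module.End.mem_eigenspace_iff.2 (Subtype.ext h)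
      · exact fun h => hf0 (congrArg Subtype.val h)
  have : Nontrivial H := Submodule.nontrivial_iff_ne_bot.2 h0
  obtain ⟨c, hc, hmax⟩ := Set.exists_max_image {c | T.HasEigenvalue c} Complex.im
    T.finite_hasEigenvalue T.exists_eigenvalue
  obtain ⟨f, hf, hf0, hfc⟩ := (hS c).1 hc
  obtain ⟨y0, hy0⟩ : ∃ y, f y ≠ 0 := by
    by_contra hh
    push Not at hh
    exact hf0 (funext hh)
  -- c = n i
  obtain ⟨n, hn⟩ : ∃ n : ℤ, c = n * Complex.I := by
    have h1 := rot_of_eig f (hs1 f hf) c (fun y => congrFun hfc y) (2 * Real.pi) y0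
    rw [Real.cos_two_pi, Real.sin_two_pi, sub_self, zero_smul, zero_smul, add_zero, add_zero] at h1
    have h2 : Complex.exp (c * (2 * Real.pi : ℝ)) = 1 := by
      have h3 : (Complex.exp (c * (2 * Real.pi : ℝ)) - 1) • f y0 = 0 := by
        rw [sub_smul, one_smul, ← h1, sub_self]
      exact sub_eq_zero.1 ((smul_eq_zero.1 h3).resolve_right hy0)
    obtain ⟨n, hn⟩ := Complex.exp_eq_one_iff.1 h2
    refine ⟨n, ?_⟩
    have hpi : (2 * (Real.pi : ℂ)) ≠ 0 :=
      mul_ne_zero two_ne_zero (by exact_mod_cast Real.pi_ne_zero)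
    apply mul_right_cancel₀ hpi
    push_cast at hn
    rw [hn]
    ring
  -- the reflection
  have hneg : T.HasEigenvalue (-c) := by
    obtain ⟨O, hO⟩ := exists_refl
    refine (hS _).2 ⟨fun y => f (O y), hH O f hf, ?_, ?_⟩
    · intro h
      have := congrFun h (O.symm y0)
      simp only [LinearIsometryEquiv.apply_symm_apply, Pi.zero_apply] at this
      exact hy0 this
    · ext1 y
      have h1 : HasFDerivAt (fun y => f (O y))
          ((fderiv ℝ f (O y)).comp (O.toContinuousLinearEquiv : R12 →L[ℝ] R12)) y :=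
        (hd f hf (O y)).hasFDerivAt.comp y O.toContinuousLinearEquiv.hasFDerivAt
      have h2 : O (AA 0 1 y) = - AA 0 1 (O y) := by
        rw [hO, hO]
        simp only [AA_apply, PiLp.sub_apply, PiLp.smul_apply, ee_apply, smul_eq_mul]
        simp
        module
      have h3 := congrFun hfc (O y)
      simp only [Om, Pi.smul_apply] at h3 ⊢
      rw [h1.fderiv, ContinuousLinearMap.comp_apply]
      change fderiv ℝ f (O y) (O (AA 0 1 y)) = _
      rw [h2, map_neg, h3, neg_smul]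
  have hn0 : 0 ≤ n := by
    have := hmax _ hneg
    rw [hn] at this
    simpa using this
  obtain ⟨m, rfl⟩ := Int.eq_ofNat_of_zero_le hn0
  have hcm : c = Complex.I * m := by rw [hn]; push_cast; ring
  have hfm : ∀ y, Om (AA 0 1) f y = (Complex.I * m) • f y := fun y => by
    rw [← hcm]; exact congrFun hfc y
  refine ⟨f, hf, hf0, m, hfm, hw_form f (hs1 f hf) m hfm fun j hj0 hj1 => ?_⟩
  have hA := Om_mem H hH hs1 0 j hj0.symm f hf
  have hB := Om_mem H hH hs1 1 j hj1.symm f hf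
  by_contra hne
  have hev : T.HasEigenvalue (c + Complex.I) := by
    refine (hS _).2 ⟨Om (AA 0 j) f + Complex.I • Om (AA 1 j) f, H.add_mem hA (H.smul_mem _ hB),
      fun h => hne fun y => congrFun h y, ?_⟩
    rw [Om_add _ (hd _ hA) (hd _ (H.smul_mem _ hB)), Om_smul _ _ (hd _ hB)]
    ext1 y
    have e1 := Om_comm (AA 0 1) (AA 0 j) f (hs f hf) y
    have e2 := Om_comm (AA 0 1) (AA 1 j) f (hs f hf) y
    rw [hfc, Om_smul _ _ (hd f hf)] at e1 e2
    have e3 : Om ((AA 0 j).comp (AA 0 1) - (AA 0 1).comp (AA 0 j)) f y = - Om (AA 1 j) f y := by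
      simp only [Om]
      rw [comm0 j hj0 hj1, map_neg]
    have e4 : Om ((AA 1 j).comp (AA 0 1) - (AA 0 1).comp (AA 1 j)) f y = Om (AA 0 j) f y := by
      simp only [Om]
      rw [comm1 j hj0 hj1]
    rw [e3, sub_eq_iff_eq_add] at e1
    rw [e4, sub_eq_iff_eq_add] at e2
    simp only [Pi.add_apply, Pi.smul_apply] at e1 e2 ⊢
    rw [e1, e2]
    have hI : Complex.I * Complex.I = -1 := Complex.I_mul_I
    simp only [smul_add, add_smul, smul_smul, add_mul, hI, mul_comm c Complex.I, neg_smul, one_smul]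
    abel
  have := hmax _ hev
  simp at this
  linarith

end

end Crest.Agent.R086.C.HWAux
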