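import Crest.Agent.R086.C.RotDef

/-! # Row 86, part C: restriction to a ray (task) -/

open Set Filter Topology
open scoped ContDiff ComplexConjugate
open Crest.AnalysisR.PDE.NLS

namespace Crest.Agent.R086.C

noncomputable section

theorem Rad_hasDerivAt {f : R12 → ℂ} (hf : Differentiable ℝ f) (r : ℝ) :
    HasDerivAt (ray f) (fderiv ℝ f (r • ee 0) (ee 0)) r := by
  have h1 : HasDerivAt (fun s : ℝ => s • ee 0) (ee 0) r := by
    simpa using (hasDerivAt_id r).smul_const (ee 0)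
  exact (hf (r • ee 0)).hasFDerivAt.comp_hasDerivAt r h1

theorem deriv_ray (f : R12 → ℂ) (hf : ContDiff ℝ 1 f) (r : ℝ) :
    fderiv ℝ f (r • ee 0) (r • ee 0) = (r : ℂ) * deriv (ray f) r := by
  rw [(Rad_hasDerivAt (hf.differentiable (by simp)) r).deriv, map_smul, Complex.real_smul]

/-- second derivative along a curve -/
theorem Rad_curve {f : R12 → ℂ} (hf : ContDiff ℝ 2 f) {γ γ' : ℝ → R12} {w : R12} {t : ℝ}
    (h1 : ∀ s, HasDerivAt γ (γ' s) s) (h2 : HasDerivAt γ' w t) :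
    deriv (deriv fun s => f (γ s)) t =
      fderiv ℝ (fderiv ℝ f) (γ t) (γ' t) (γ' t) + fderiv ℝ f (γ t) w := by
  have hd : Differentiable ℝ f := hf.differentiable (by simp)
  have hd2 : Differentiable ℝ (fderiv ℝ f) :=
    (hf.fderiv_right (m := 1) (by norm_num)).differentiable (by simp)
  have e : deriv (fun s => f (γ s)) = fun s => fderiv ℝ f (γ s) (γ' s) :=
    funext fun s => ((hd (γ s)).hasFDerivAt.comp_hasDerivAt s (h1 s)).deriv
  rw [e]
  exact (((hd2 (γ t)).hasFDerivAt.comp_hasDerivAt t (h1 t)).clm_apply h2).deriv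

theorem Rad_norm {j : Fin 12} (hj : j ≠ 0) (a b : ℝ) :
    ‖a • ee 0 + b • ee j‖ ^ 2 = a ^ 2 + b ^ 2 := by
  rw [norm_add_sq_real, norm_smul, norm_smul, inner_smul_left, inner_smul_right]
  simp [ee, EuclideanSpace.inner_single_left, hj.symm]

theorem Rad_pow (m : ℕ) (δ c : ℂ) :
    deriv (deriv fun θ : ℝ => ((Real.cos θ : ℂ) + δ * (Real.sin θ : ℂ)) ^ m * c) 0 =
      (m * (m - 1) * δ ^ 2 - m) * c := by
  have hc : ∀ θ : ℝ, HasDerivAt (fun θ : ℝ => (Real.cos θ : ℂ)) (-(Real.sin θ : ℂ)) θ := fun θ => by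
    simpa using (Real.hasDerivAt_cos θ).ofReal_comp
  have hs : ∀ θ : ℝ, HasDerivAt (fun θ : ℝ => (Real.sin θ : ℂ)) (Real.cos θ : ℂ) θ := fun θ =>
    (Real.hasDerivAt_sin θ).ofReal_comp
  have hu : ∀ θ : ℝ, HasDerivAt (fun θ : ℝ => (Real.cos θ : ℂ) + δ * (Real.sin θ : ℂ))
      (-(Real.sin θ : ℂ) + δ * (Real.cos θ : ℂ)) θ := fun θ => (hc θ).add ((hs θ).const_mul δ)
  have hu' : HasDerivAt (fun θ : ℝ => -(Real.sin θ : ℂ) + δ * (Real.cos θ : ℂ))
      (-(Real.cos 0 : ℂ) + δ * (-(Real.sin 0 : ℂ))) 0 := (hs 0).neg.add ((hc 0).const_mul δ)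
  have e : deriv (fun θ : ℝ => ((Real.cos θ : ℂ) + δ * (Real.sin θ : ℂ)) ^ m * c) =
      fun θ : ℝ => (m * ((Real.cos θ : ℂ) + δ * (Real.sin θ : ℂ)) ^ (m - 1) *
        (-(Real.sin θ : ℂ) + δ * (Real.cos θ : ℂ))) * c :=
    funext fun θ => (((hu θ).pow m).mul_const c).deriv
  rw [e]
  have h := (((((hu 0).pow (m - 1)).const_mul (m : ℂ)).mul hu').mul_const c).deriv
  refine Eq.trans h ?_
  have e2 : (m : ℂ) * ((m - 1 : ℕ) : ℂ) = m * (m - 1) := by
    cases m with
    | zero => simp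
    | succ k => simp
  simp only [Real.cos_zero, Real.sin_zero, Complex.ofReal_one, Complex.ofReal_zero, mul_zero,
    add_zero, one_pow, mul_one, neg_zero, zero_add, Pi.pow_apply]
  rw [← e2]
  ring

theorem Rad_side (m : ℕ) (f : R12 → ℂ) (hf : ContDiff ℝ 2 f) (hw : HWForm m f) (r : ℝ) (hr : 0 < r)
    {j : Fin 12} (hj : j ≠ 0) :
    (r : ℂ) ^ 2 * iteratedFDeriv ℝ 2 f (r • ee 0) ![ee j, ee j] =
      r * deriv (ray f) r +
        (m * (m - 1) * (if j = 1 then Complex.I else 0) ^ 2 - m) * ray f r := by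
  set γ : ℝ → R12 := fun θ => (r * Real.cos θ) • ee 0 + (r * Real.sin θ) • ee j with hγ
  set γ' : ℝ → R12 := fun θ => (r * -Real.sin θ) • ee 0 + (r * Real.cos θ) • ee j with hγ'
  have h1 : ∀ θ, HasDerivAt γ (γ' θ) θ := fun θ =>
    (((Real.hasDerivAt_cos θ).const_mul r).smul_const (ee 0)).add
      (((Real.hasDerivAt_sin θ).const_mul r).smul_const (ee j))
  have h2 : HasDerivAt γ' ((r * -Real.cos 0) • ee 0 + (r * -Real.sin 0) • ee j) 0 :=
    (((Real.hasDerivAt_sin 0).neg.const_mul r).smul_const (ee 0)).add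
      (((Real.hasDerivAt_cos 0).const_mul r).smul_const (ee j))
  have h3 := Rad_curve hf h1 h2
  have h4 : (fun θ => f (γ θ)) =ᶠ[𝓝 0] fun θ : ℝ => ((Real.cos θ : ℂ) +
      (if j = 1 then Complex.I else 0) * (Real.sin θ : ℂ)) ^ m * ray f r := by
    have : ∀ᶠ θ in 𝓝 (0 : ℝ), 0 < Real.cos θ :=
      Real.continuous_cos.continuousAt.eventually (lt_mem_nhds (by simp))
    filter_upwards [this] with θ hθ
    have hn : ‖γ θ‖ = r := by
      have := Rad_norm hj (r * Real.cos θ) (r * Real.sin θ)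
      rw [mul_pow, mul_pow, ← mul_add, Real.cos_sq_add_sin_sq, mul_one] at this
      exact (pow_left_inj₀ (norm_nonneg _) hr.le two_ne_zero).1 this
    have hz : zeta (γ θ) = r * ((Real.cos θ : ℂ) +
        (if j = 1 then Complex.I else 0) * (Real.sin θ : ℂ)) := by
      by_cases h : j = 1
      · subst h
        simp [zeta, hγ, ee]
        ring
      · simp [zeta, hγ, ee, h, hj, hj.symm, Ne.symm h]
    have hz0 : zeta (γ θ) ≠ 0 := by
      intro h0
      have := congrArg Complex.re h0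
      simp [zeta, hγ, ee, hj.symm, hr.ne', -Complex.ofReal_cos, -Complex.ofReal_sin,
        hθ.ne'] at this
    rw [hw _ hz0, hn, hz, mul_div_cancel_left₀ _ (by exact_mod_cast hr.ne')]
    rfl
  rw [h4.deriv.deriv_eq, Rad_pow] at h3
  have h5 := deriv_ray f (hf.of_le (by norm_num)) r
  have e1 : γ 0 = r • ee 0 := by simp [hγ]
  have e2 : γ' 0 = r • ee j := by simp [hγ']
  have e3 : ((r * -Real.cos 0) • ee 0 + (r * -Real.sin 0) • ee j : R12) = -(r • ee 0) := by simp
  rw [e1, e2, e3, map_neg, h5] at h3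
  rw [h3, iteratedFDeriv_two_apply]
  simp only [map_smul, ContinuousLinearMap.smul_apply, Complex.real_smul, Matrix.cons_val_zero,
    Matrix.cons_val_one]
  ring

/-- For j ≠ 0 and |θ| < π/2, g(θ) = f(r cos θ e₀ + r sin θ e_j) = c_j(θ) f(r e₀), c₁ = e^{imθ}, c_j = cos^m θ (j ≥ 2), and
g''(0) = r² D²f(e_j,e_j) - r Df(e₀) at r e₀; so ∂_j²f = f̃'/r - m²f̃/r² (j = 1), f̃'/r - m f̃/r² (ten values j ≥ 2), ∂₀²f = f̃''. -/
theorem lap_ray (m : ℕ) (f : R12 → ℂ) (hf : ContDiff ℝ 2 f) (hw : HWForm m f) (r : ℝ) (hr : 0 < r) :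
    lap f (r • ee 0) = DD m (ray f) r := by
  have hr' : (r : ℂ) ≠ 0 := by exact_mod_cast hr.ne'
  have h0 : iteratedFDeriv ℝ 2 f (r • ee 0) ![ee 0, ee 0] = deriv (deriv (ray f)) r := by
    have h1 : ∀ s : ℝ, HasDerivAt (fun s : ℝ => s • ee 0) (ee 0) s := fun s => by
      simpa using (hasDerivAt_id s).smul_const (ee 0)
    have := Rad_curve (t := r) hf h1 (hasDerivAt_const r (ee 0))
    rw [map_zero, add_zero] at this
    rw [iteratedFDeriv_two_apply]
    exact this.symm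
  have h1 := Rad_side m f hf hw r hr (j := 1) (by decide)
  have h2 : ∀ j : Fin 10, iteratedFDeriv ℝ 2 f (r • ee 0) ![ee j.succ.succ, ee j.succ.succ] =
      (r * deriv (ray f) r - m * ray f r) / (r : ℂ) ^ 2 := by
    intro j
    have h := Rad_side m f hf hw r hr (j := j.succ.succ) (Fin.succ_ne_zero _)
    rw [if_neg (Fin.succ_succ_ne_one j)] at h
    rw [eq_div_iff (pow_ne_zero 2 hr')]
    linear_combination h
  rw [if_pos rfl, Complex.I_sq] at h1
  have h3 : iteratedFDeriv ℝ 2 f (r • ee 0) ![ee 1, ee 1] =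
      (r * deriv (ray f) r - m ^ 2 * ray f r) / (r : ℂ) ^ 2 := by
    rw [eq_div_iff (pow_ne_zero 2 hr')]
    linear_combination h1
  rw [lap, Fin.sum_univ_succ, Fin.sum_univ_succ, Finset.sum_congr rfl fun j _ => h2 j, h0]
  change _ + (iteratedFDeriv ℝ 2 f (r • ee 0) ![ee 1, ee 1] + _) = _
  rw [h3, DD]
  simp only [Finset.sum_const, Finset.card_univ, Fintype.card_fin, nsmul_eq_mul]
  field_simp
  ring

/-- iteratedDeriv i (ray f) r = D^i f (r e₀)(e₀,…,e₀), and (1+r²)^{-i/2} ≤ 2^{i}(1+r)^{-i} -/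
theorem radAdm_ray (f : R12 → ℂ) (hf : ContDiff ℝ 24 f) (C : ℝ)
    (hb : ∀ j : ℕ, j ≤ 24 → ∀ y, ‖iteratedFDeriv ℝ j f y‖ ≤ C * (1 + PP 0 y) ^ (-(j : ℝ) / 2)) :
    RadAdm (ray f) := by
  set L : ℝ →L[ℝ] R12 := ContinuousLinearMap.toSpanSingleton ℝ (ee 0) with hL
  have e : ray f = f ∘ L := rfl
  have he : ‖ee 0‖ = 1 := by simp [ee]
  refine ⟨e ▸ hf.comp L.contDiff, max C 0 * 2 ^ 12, fun i hi r hr => ?_⟩
  have h1 : iteratedDeriv i (ray f) r = iteratedFDeriv ℝ i f (r • ee 0) fun _ => ee 0 := by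
    rw [iteratedDeriv_eq_iteratedFDeriv, e, L.iteratedFDeriv_comp_right hf r (by exact_mod_cast hi)]
    simp [hL]
  have h2 : ‖iteratedDeriv i (ray f) r‖ ≤ ‖iteratedFDeriv ℝ i f (r • ee 0)‖ := by
    rw [h1]
    refine (ContinuousMultilinearMap.le_opNorm _ _).trans ?_
    simp [he]
  have h3 : PP 0 (r • ee 0) = r ^ 2 := by
    simp [PP, psi, ee, Pi.single_apply]
  have h4 := hb i hi (r • ee 0)
  rw [h3] at h4
  have h5 : (1 + r ^ 2) ^ (-(i : ℝ) / 2) ≤ 2 ^ 12 * (1 + r) ^ (-(i : ℝ)) := by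
    have h6 : (1 + r) ^ 2 / 2 ≤ 1 + r ^ 2 := by nlinarith [sq_nonneg (r - 1)]
    have h7 : (1 + r ^ 2) ^ (-(i : ℝ) / 2) ≤ ((1 + r) ^ 2 / 2) ^ (-(i : ℝ) / 2) :=
      Real.rpow_le_rpow_of_nonpos (by positivity) h6 (by
        have : (0 : ℝ) ≤ i := Nat.cast_nonneg i
        linarith)
    refine h7.trans ?_
    rw [Real.div_rpow (by positivity) (by positivity), ← Real.rpow_natCast (1 + r) 2,
      ← Real.rpow_mul (by positivity), div_eq_mul_inv, ← Real.rpow_neg (by positivity), mul_comm]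
    have e1 : ((2 : ℕ) : ℝ) * (-(i : ℝ) / 2) = -(i : ℝ) := by push_cast; ring
    rw [e1]
    refine mul_le_mul_of_nonneg_right ?_ (by positivity)
    rw [← Real.rpow_natCast 2 12]
    refine Real.rpow_le_rpow_of_exponent_le (by norm_num) ?_
    have : (i : ℝ) ≤ 24 := by exact_mod_cast hi
    push_cast
    linarith
  refine h2.trans (h4.trans ?_)
  rw [mul_assoc]
  exact (mul_le_mul_of_nonneg_right (le_max_left _ _) (by positivity)).trans
    (mul_le_mul_of_nonneg_left h5 (le_max_right _ _))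

/-- two continuous functions of the same highest weight form that agree on the open ray agree ({ζ ≠ 0} is dense) -/
theorem eq_of_ray (m : ℕ) (f g : R12 → ℂ) (hf : Continuous f) (hg : Continuous g) (h1 : HWForm m f)
    (h2 : HWForm m g) (h : ∀ r : ℝ, 0 < r → ray f r = ray g r) : f = g := by
  have key : ∀ y, zeta y ≠ 0 → f y = g y := by
    intro y hy
    have hy0 : y ≠ 0 := by
      rintro rfl
      simp [zeta] at hy
    rw [h1 y hy, h2 y hy]
    exact congrArg _ (h _ (norm_pos_iff.2 hy0))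
  funext y
  by_cases hy : zeta y = 0
  · have hc : Continuous fun t : ℝ => y + t • ee 0 := by fun_prop
    have ht : Tendsto (fun t : ℝ => y + t • ee 0) (𝓝[≠] 0) (𝓝 y) := by
      have := hc.tendsto 0
      simp only [zero_smul, add_zero] at this
      exact this.mono_left nhdsWithin_le_nhds
    refine tendsto_nhds_unique_of_eventuallyEq ((hf.tendsto y).comp ht) ((hg.tendsto y).comp ht) ?_
    filter_upwards [self_mem_nhdsWithin] with t ht0
    refine key _ ?_
    have : zeta (y + t • ee 0) = zeta y + t := by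
      simp [zeta, ee]
      ring
    rw [this, hy, zero_add]
    exact_mod_cast ht0
  · exact key y hy

/-- Fourier modes on a circle: A + B(d₀cos θ + d₁ sin θ) = e^{imθ}(A + B d₀) for all θ.
(differentiate twice at every θ: (1-m²)E(θ) = A; or evaluate at a few angles) -/
theorem circle_modes (m : ℕ) (A B d₀ d₁ : ℂ)
    (h : ∀ θ : ℝ, A + B * (d₀ * Real.cos θ + d₁ * Real.sin θ)
      = Complex.exp (Complex.I * m * θ) * (A + B * d₀)) :
    (m ≠ 0 → A = 0) ∧ (m ≠ 1 → B * d₀ = 0) := by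
  rcases Nat.eq_zero_or_pos m with rfl | hm
  · refine ⟨fun h0 => absurd rfl h0, fun _ => ?_⟩
    have := h Real.pi
    simp only [Real.cos_pi, Real.sin_pi, Nat.cast_zero, mul_zero, zero_mul, Complex.exp_zero] at this
    push_cast at this
    linear_combination (-1 / 2 : ℂ) * this
  have hm' : (m : ℂ) ≠ 0 := by exact_mod_cast hm.ne'
  have e1 : Complex.exp (Complex.I * m * ((Real.pi / m : ℝ) : ℂ)) = -1 := by
    rw [← Complex.exp_pi_mul_I]
    congr 1
    push_cast
    field_simp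
  have e2 : Complex.exp (Complex.I * m * ((-(Real.pi / m) : ℝ) : ℂ)) = -1 := by
    rw [← Complex.exp_neg_pi_mul_I]
    congr 1
    push_cast
    field_simp
  have a1 := h (Real.pi / m)
  have a2 := h (-(Real.pi / m))
  rw [e1] at a1
  rw [e2, Real.cos_neg, Real.sin_neg, Complex.ofReal_neg] at a2
  by_cases h1 : m = 1
  · subst h1
    refine ⟨fun _ => ?_, fun h0 => absurd rfl h0⟩
    simp only [Nat.cast_one, div_one, Real.cos_pi, Real.sin_pi] at a1
    push_cast at a1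
    linear_combination (1 / 2 : ℂ) * a1
  have e3 : Complex.exp (Complex.I * m * ((2 * Real.pi / m : ℝ) : ℂ)) = 1 := by
    rw [← Complex.exp_two_pi_mul_I]
    congr 1
    push_cast
    field_simp
  have e4 : Complex.exp (Complex.I * m * ((-(2 * Real.pi / m) : ℝ) : ℂ)) = 1 := by
    have : Complex.I * m * ((-(2 * Real.pi / m) : ℝ) : ℂ) =
        -(Complex.I * m * ((2 * Real.pi / m : ℝ) : ℂ)) := by
      push_cast
      ring
    rw [this, Complex.exp_neg, e3, inv_one]
  have a3 := h (2 * Real.pi / m)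
  have a4 := h (-(2 * Real.pi / m))
  rw [e3] at a3
  rw [e4, Real.cos_neg, Real.sin_neg, Complex.ofReal_neg] at a4
  have hc : Real.cos (2 * Real.pi / m) ≠ 1 := by
    have hm2 : (2 : ℝ) ≤ m := by
      have : 2 ≤ m := by omega
      exact_mod_cast this
    have p1 : 0 < 2 * Real.pi / m := by positivity
    have p2 : 2 * Real.pi / m < 2 * Real.pi := by
      rw [div_lt_iff₀ (by positivity)]
      nlinarith [Real.pi_pos]
    intro h0
    have := (Real.cos_eq_one_iff_of_lt_of_lt (by linarith) p2).1 h0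
    exact p1.ne' this
  have hX : B * d₀ = 0 := by
    have h5 : B * d₀ * ((Real.cos (2 * Real.pi / m) : ℂ) - 1) = 0 := by
      linear_combination (1 / 2 : ℂ) * a3 + (1 / 2 : ℂ) * a4
    refine (mul_eq_zero.1 h5).resolve_right (sub_ne_zero.2 ?_)
    exact_mod_cast hc
  refine ⟨fun _ => ?_, fun _ => hX⟩
  linear_combination (1 / 4 : ℂ) * a1 + (1 / 4 : ℂ) * a2 -
    (1 / 2 : ℂ) * ((Real.cos (Real.pi / m) : ℂ) + 1) * hX

end

end Crest.Agent.R086.C
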