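import Crest.Agent.R086.C.Pair2
import Crest.Agent.R086.C.HW
import Crest.Agent.R086.C.Rad

/-! # Row 86, part C: reduction to the radial mode stability `MS` (task) -/

open MeasureTheory Set Filter Topology
open scoped ContDiff ComplexConjugate ENNReal
open Crest.AnalysisR.PDE.NLS

namespace Crest.Agent.R086.C

noncomputable section

variable {n : ℕ} {b : ℝ} {q : ℝ → ℂ} {k₀ k : ℕ}

theorem Red_deriv (hP : Prof n b q) (r : ℝ) :
    deriv (Qr q) r = (r : ℂ) / 2 * deriv q (r ^ 2 / 4) := by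
  have h1 : HasDerivAt (fun s : ℝ => s ^ 2 / 4) (r / 2) r := by
    refine ((hasDerivAt_pow 2 r).div_const 4).congr_deriv ?_
    norm_num
    ring
  have h2 := ((hP.smooth.differentiable (by simp)) (r ^ 2 / 4)).hasDerivAt.scomp r h1
  have h3 : deriv (Qr q) r = _ := h2.deriv
  rw [h3, Complex.real_smul]
  push_cast
  ring

theorem Red_Phi (hP : Prof n b q) (c : Ix → ℂ) (y : R12) :
    Phi n b q c y =
      (c none * ph0 (Qr q) ‖y‖ + c (some none) * ph1 (aa n) b (Qr q) ‖y‖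
        + deriv q (‖y‖ ^ 2 / 4) / 2 * ∑ j, c (some (some j)) * (y j : ℂ),
       c none * conj (ph0 (Qr q) ‖y‖) + c (some none) * conj (ph1 (aa n) b (Qr q) ‖y‖)
        + conj (deriv q (‖y‖ ^ 2 / 4)) / 2 * ∑ j, c (some (some j)) * (y j : ℂ)) := by
  have e0 : bm0 n b q none y = ph0 (Qr q) ‖y‖ := rfl
  have e1 : bm0 n b q (some none) y = ph1 (aa n) b (Qr q) ‖y‖ := by
    simp only [bm0, ph1, Red_deriv hP, Qr]
    push_cast
    ring
  have e2 : ∀ j, bm0 n b q (some (some j)) y = (y j : ℂ) / 2 * deriv q (‖y‖ ^ 2 / 4) := fun _ => rfl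
  show (∑ i, c i * bm0 n b q i y, ∑ i, c i * conj (bm0 n b q i y)) = _
  simp only [Fintype.sum_option, e0, e1, e2, Finset.mul_sum, add_assoc, map_mul, map_div₀,
    Complex.conj_ofReal, map_ofNat]
  congr 3
  · exact Finset.sum_congr rfl fun j _ => by ring
  · exact Finset.sum_congr rfl fun j _ => by ring

theorem Red_norm_ray {r : ℝ} (hr : 0 ≤ r) : ‖r • ee 0‖ = r := by
  rw [norm_smul, Rot_norm_ee, mul_one, Real.norm_of_nonneg hr]

theorem Red_conj_phc (a b : ℝ) (Q : ℝ → ℂ) (c₀ c₁ c₂ : ℂ) (r : ℝ) :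
    conj (phc a b Q (conj c₀) (conj c₁) (conj c₂) r) =
      c₀ * conj (ph0 Q r) + c₁ * conj (ph1 a b Q r) + c₂ * conj (ph2 Q r) := by
  simp only [phc, map_add, map_mul, Complex.conj_conj]

/-- on the circle y = r(cos θ e₀ + sin θ e₁): Phi c y = (A + B(d₀cos θ + d₁ sin θ), same with conj φ), A = c_none φ₀ + c_(some none) φ₁, B = φ₂ = Q'(r) = (r/2)q'(r²/4) -/
theorem Phi_circle (hP : Prof n b q) (c : Ix → ℂ) (r θ : ℝ) (hr : 0 < r) :
    Phi n b q c ((r * Real.cos θ) • ee 0 + (r * Real.sin θ) • ee 1) =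
      (c none * ph0 (Qr q) r + c (some none) * ph1 (aa n) b (Qr q) r
        + ph2 (Qr q) r * (c (some (some 0)) * Real.cos θ + c (some (some 1)) * Real.sin θ),
       c none * conj (ph0 (Qr q) r) + c (some none) * conj (ph1 (aa n) b (Qr q) r)
        + conj (ph2 (Qr q) r) * (c (some (some 0)) * Real.cos θ + c (some (some 1)) * Real.sin θ)) := by
  have h1 : ‖(r * Real.cos θ) • ee 0 + (r * Real.sin θ) • ee 1‖ = r := by
    have h := Rad_norm (j := 1) (by decide) (r * Real.cos θ) (r * Real.sin θ)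
    refine (sq_eq_sq₀ (norm_nonneg _) hr.le).1 (h.trans ?_)
    linear_combination r ^ 2 * Real.cos_sq_add_sin_sq θ
  have h2 : ∑ j, c (some (some j)) *
      ((((r * Real.cos θ) • ee 0 + (r * Real.sin θ) • ee 1 : R12) j : ℝ) : ℂ)
      = r * (c (some (some 0)) * Real.cos θ + c (some (some 1)) * Real.sin θ) := by
    rw [Fintype.sum_eq_add (0 : Fin 12) 1 (by decide) fun j hj => by
      simp [Rot_ee_ne hj.1.symm, Rot_ee_ne hj.2.symm]]
    have e1 : ee 0 1 = 0 := Rot_ee_ne (by decide)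
    have e2 : ee 1 0 = 0 := Rot_ee_ne (by decide)
    simp only [PiLp.add_apply, PiLp.smul_apply, smul_eq_mul, Rot_ee_self, e1, e2]
    push_cast
    ring
  rw [Red_Phi hP, h1, h2]
  simp only [ph2, Red_deriv hP, map_mul, map_div₀, Complex.conj_ofReal, map_ofNat]
  congr 2 <;> ring

theorem Red_ray (hP : Prof n b q) (c : Ix → ℂ) (r : ℝ) (hr : 0 < r) :
    Phi n b q c (r • ee 0) =
      (c none * ph0 (Qr q) r + c (some none) * ph1 (aa n) b (Qr q) r
        + ph2 (Qr q) r * c (some (some 0)),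
       c none * conj (ph0 (Qr q) r) + c (some none) * conj (ph1 (aa n) b (Qr q) r)
        + conj (ph2 (Qr q) r) * c (some (some 0))) := by
  simpa using Phi_circle hP c r 0 hr

/-- an element of EE with angular number m restricts to E_m on the ray (`circle_modes` for both components; take the coefficients
(c_none, c_(some none), 0) if m = 0, (0,0,c_(some (some 0))) if m = 1, 0 otherwise) -/
theorem inE_of_mem (hP : Prof n b q) (m : ℕ) {e : VV} (he : e ∈ EE n b q)
    (hrot : ∀ r θ : ℝ, 0 < r → e ((r * Real.cos θ) • ee 0 + (r * Real.sin θ) • ee 1)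
      = Complex.exp (Complex.I * m * θ) • e (r • ee 0)) :
    InE (aa n) b (Qr q) 0 m (ray (c1 e)) (ray (c2 e)) := by
  obtain ⟨c, rfl⟩ := he
  refine ⟨if m = 0 then c none else 0, if m = 0 then c (some none) else 0,
    if m = 1 then c (some (some 0)) else 0, ⟨fun h => by simp [h], fun h => by simp [h]⟩,
    fun r hr => ?_⟩
  have key := fun θ => hrot r θ hr
  simp only [Phi_circle hP c r _ hr, Red_ray hP c r hr, Prod.smul_mk, smul_eq_mul,
    Prod.mk.injEq] at key
  obtain ⟨h1, h2⟩ := circle_modes m _ _ _ _ fun θ => (key θ).1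
  obtain ⟨h3, h4⟩ := circle_modes m _ _ _ _ fun θ => (key θ).2
  rw [Red_conj_phc]
  simp only [ray, c1, c2, Red_ray hP c r hr, phc]
  by_cases hm0 : m = 0
  · have hm1 : m ≠ 1 := by omega
    rw [if_pos hm0, if_pos hm0, if_neg hm1, h2 hm1, h4 hm1]
    simp
  · rw [if_neg hm0, if_neg hm0, h1 hm0, h3 hm0]
    by_cases hm1 : m = 1
    · rw [if_pos hm1]
      constructor <;> ring
    · rw [if_neg hm1, h2 hm1, h4 hm1]
      simp

/-- conversely: compare f with Phi c', c' = (d₀,d₁,0) if m = 0, c'_(some (some 0)) = d₂, c'_(some (some 1)) = i d₂ if m = 1, 0 otherwise;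
both have the highest weight form; `eq_of_ray` -/
theorem mem_of_inE (hP : Prof n b q) (m : ℕ) {f : VV} (hc : Continuous f) (h1 : HWForm m (c1 f))
    (h2 : HWForm m (c2 f)) (h : InE (aa n) b (Qr q) 0 m (ray (c1 f)) (ray (c2 f))) : f ∈ EE n b q := by
  obtain ⟨c₀, c₁, c₂, hA, h⟩ := h
  let c : Ix → ℂ := fun i => match i with
    | none => c₀
    | some none => c₁
    | some (some j) => if j = 0 then c₂ else if j = 1 then Complex.I * c₂ else 0
  have hs : ∀ y : R12, ∑ j, c (some (some j)) * (y j : ℂ) = c₂ * zeta y := by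
    intro y
    rw [Fintype.sum_eq_add (0 : Fin 12) 1 (by decide) fun j hj => by simp [c, hj.1, hj.2]]
    simp only [c, zeta, if_true, if_neg (show (1 : Fin 12) ≠ 0 by decide)]
    ring
  have hz : ∀ r : ℝ, zeta (r • ee 0) = r := by
    intro r
    have e1 : ee 0 1 = 0 := Rot_ee_ne (by decide)
    simp [zeta, Rot_ee_self, e1]
  have hw : ∀ (A₀ A₁ D : ℂ) (y : R12), zeta y ≠ 0 → c₀ * A₀ + c₁ * A₁ + D * (c₂ * zeta y) =
      (zeta y / (‖y‖ : ℂ)) ^ m * (c₀ * A₀ + c₁ * A₁ + D * (c₂ * (‖y‖ : ℂ))) := by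
    intro A₀ A₁ D y hy
    have hy0 : y ≠ 0 := by
      rintro rfl
      simp [zeta] at hy
    have hy1 : (‖y‖ : ℂ) ≠ 0 := by exact_mod_cast norm_ne_zero_iff.2 hy0
    by_cases hm0 : m = 0
    · rw [hA.2 (by omega), hm0]
      simp
    · rw [(hA.1 hm0).1, (hA.1 hm0).2]
      by_cases hm1 : m = 1
      · rw [hm1]
        field_simp
        ring
      · rw [hA.2 hm1]
        simp
  have hb : ∀ i, Continuous (bm0 n b q i) := fun i => (bm0_symb hP i).1.continuous
  have e1 : c1 f = c1 (Phi n b q c) := by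
    refine eq_of_ray m _ _ (continuous_fst.comp hc)
      (continuous_finsetSum (f := fun i y => c i * bm0 n b q i y) Finset.univ
        fun i _ => continuous_const.mul (hb i)) h1 (fun y hy => ?_)
      fun r hr => ?_
    · simp only [c1, Red_Phi hP, hs, hz, Red_norm_ray (norm_nonneg y)]
      exact hw _ _ _ y hy
    · rw [(h r hr).1]
      simp only [ray, c1, Red_ray hP c r hr, phc, c, if_true]
      ring
  have e2 : c2 f = c2 (Phi n b q c) := by
    refine eq_of_ray m _ _ (continuous_snd.comp hc)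
      (continuous_finsetSum (f := fun i y => c i * conj (bm0 n b q i y)) Finset.univ
        fun i _ => continuous_const.mul (Complex.continuous_conj.comp (hb i))) h2 (fun y hy => ?_) fun r hr => ?_
    · simp only [c2, Red_Phi hP, hs, hz, Red_norm_ray (norm_nonneg y)]
      exact hw _ _ _ y hy
    · rw [(h r hr).2, Red_conj_phc]
      simp only [ray, c2, Red_ray hP c r hr, c, if_true]
      ring
  exact ⟨c, funext fun y => Prod.ext (congrFun e1 y).symm (congrFun e2 y).symm⟩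

/-- `hw` gives f ∈ G \ EE of highest weight m (bounded by `SobStmt`, `nrm_c_le`); e = LL2 f - λ f ∈ EE has angular number m (`exists_rot`, `rot_of_eig`,
`LL2_rot`, `LL2_smul`); on the ray e = (L1 - λ f₁, L2 - λ f₂) (`LL2_apply`, `lap_ray`, `deriv_ray`, ‖r e₀‖ = r); `radAdm_ray` (second part of `SobStmt`);
MS and `mem_of_inE` give f ∈ EE. -/
theorem no_eig (H : Ctx n b q k₀) (hk : k₀ ≤ k) (hMS : MS n b q) (lam : ℂ) (hlam : 0 ≤ lam.re)
    (G : Submodule ℂ VV) [FiniteDimensional ℂ G] (hEG : EE n b q ≤ G) (hne : ¬ G ≤ EE n b q)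
    (hGX : G ≤ XX n b q k) (hG : RotInv G) (hL : ∀ g ∈ G, LL2 n b q g - lam • g ∈ EE n b q) : False := by
  have hk' : 100 ≤ k := H.big.trans hk
  obtain ⟨C, -, hC⟩ := H.sob k (by omega)
  have hS : ∀ g : R12 → ℂ, ContDiff ℝ (k + 2 : ℕ) g → ∀ B : ℝ, 0 ≤ B → nrm k 0 g ≤ ENNReal.ofReal B →
      (∀ y, ‖g y‖ ≤ C * B) ∧ RadAdm (ray g) := by
    intro g hg B hB hn
    have h1 := hC 0 ⟨le_rfl, zero_le_one⟩ g B hB (hg.of_le (by exact_mod_cast Nat.le_add_right k 2))
      (fun h0 => absurd rfl h0) hn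
    refine ⟨fun y => ?_, radAdm_ray g (hg.of_le (by exact_mod_cast (by omega : 24 ≤ k + 2))) (C * B)
      fun j hj y => (h1 j y).2 (by omega)⟩
    have := (h1 0 y).1 (by omega)
    rwa [norm_iteratedFDeriv_zero] at this
  have h2 : ∀ {F : Type} [NormedAddCommGroup F] [NormedSpace ℝ F] {g : R12 → F},
      ContDiff ℝ (k + 2 : ℕ) g → ContDiff ℝ 2 g := fun hg =>
    hg.of_le (by exact_mod_cast Nat.le_add_left 2 k)
  obtain ⟨f, hfG, hfE, m, hOm, hw1, hw2⟩ := hw G (EE n b q) hEG hne hG EE_rot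
    (fun f hf => h2 (XX_contDiff (hGX hf)).2.2) fun f hf => ⟨C * Nf k f, fun y => by
      have hX := hGX hf
      exact max_le ((hS _ (XX_contDiff hX).1 _ (Nf_nonneg f) (nrm_c_le hX).1).1 y)
        ((hS _ (XX_contDiff hX).2.1 _ (Nf_nonneg f) (nrm_c_le hX).2).1 y)⟩
  have hX := hGX hfG
  obtain ⟨hd1, hd2, hd⟩ := XX_contDiff hX
  have hE := inE_of_mem H.prof m (hL f hfG) fun r θ hr => by
    obtain ⟨O, hO⟩ := exists_rot (ee 0) (ee 1) (Rot_norm_ee 0) (Rot_norm_ee 1)
      (by rw [Rot_inner_ee]; exact Rot_ee_ne (by decide)) θ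
    have e1 : (fun y => f (O y)) = Complex.exp (Complex.I * m * θ) • f := by
      funext y
      rw [hO, Rot_inner_ee, Rot_inner_ee]
      exact rot_of_eig f ((h2 hd).of_le (by norm_num)) _ hOm θ y
    have e2 := LL2_rot hX O
    rw [e1, LL2_smul _ hX] at e2
    have e3 : O (r • ee 0) = (r * Real.cos θ) • ee 0 + (r * Real.sin θ) • ee 1 := by
      have e4 : ee 0 1 = 0 := Rot_ee_ne (by decide)
      rw [hO, Rot_inner_ee, Rot_inner_ee]
      simp only [PiLp.smul_apply, smul_eq_mul, Rot_ee_self, e4]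
      module
    rw [← e3, Pi.sub_apply, Pi.sub_apply, Pi.smul_apply, Pi.smul_apply, smul_sub,
      ← congrFun e2 (r • ee 0), congrFun e1 (r • ee 0), Pi.smul_apply, Pi.smul_apply, smul_comm lam]
  refine hfE (mem_of_inE H.prof m hd.continuous hw1 hw2 (hMS m lam _ _ hlam
    (hS _ hd1 _ (Nf_nonneg f) (nrm_c_le hX).1).2 (hS _ hd2 _ (Nf_nonneg f) (nrm_c_le hX).2).2 ?_))
  obtain ⟨c₀, c₁, c₂, hA, hE⟩ := hE
  refine ⟨c₀, c₁, c₂, hA, fun r hr => ?_⟩
  rw [← (hE r hr).1, ← (hE r hr).2]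
  obtain ⟨a1, a2⟩ := LL2_apply hX (r • ee 0)
  rw [lap_ray m _ (h2 hd1) hw1 r hr, deriv_ray _ ((h2 hd1).of_le (by norm_num)),
    Red_norm_ray hr.le] at a1
  rw [lap_ray m _ (h2 hd2) hw2 r hr, deriv_ray _ ((h2 hd2).of_le (by norm_num)),
    Red_norm_ray hr.le] at a2
  constructor
  · show _ = (LL2 n b q f (r • ee 0)).1 - lam * ray (c1 f) r
    rw [a1]
    simp only [L1, Qr, ray]
    ring
  · show _ = (LL2 n b q f (r • ee 0)).2 - lam * ray (c2 f) r
    rw [a2]
    simp only [L2, Qr, ray]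
    ring

end

end Crest.Agent.R086.C
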