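import Crest.Agent.R086.C.Compact
import Crest.Agent.R086.C.Eig
import Crest.Agent.R086.C.Red
import Crest.Agent.R086.C.Decay

/-! # Row 86, part C: final statements -/

open Set

namespace Crest.Agent.R086.C

theorem decay (hS : SobStmt) (hN : SymNrmStmt) (hU : UUStmt) (hL : LowStmt) (hE : EnergyStmt)
    (hC : CompactStmt) : DecayStmt := by
  intro n b q hP hMS
  obtain ⟨k₀, H⟩ := exists_ctx hS hN hU hL hE hC hP
  refine ⟨k₀ + 40, fun k hk => ?_⟩
  rcases dich (k := k) H (by omega) with ⟨t₁, ht₁, h⟩ | ⟨ζ, hζ, f, hf, hfE, h⟩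
  · exact decay_of_contr H (by omega) ht₁ h
  · obtain ⟨lam, hlam, G, hfin, hEG, hne, hGX, hG, hL⟩ := eig (k := k - 20) H (by omega) ζ hζ hf hfE h
    exact (no_eig (k := k - 20) H (by omega) hMS lam hlam G hEG hne hGX hG hL).elim

end Crest.Agent.R086.C
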