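import Crest.Agent.R086.C.Basic
import Crest.Agent.R086.E.UUb

/-! # Row 86, part C: calculus of radial functions (helper16) -/

open MeasureTheory Set Filter Topology
open scoped ContDiff ComplexConjugate ENNReal
open Crest.AnalysisR.PDE.NLS

namespace Crest.Agent.R086.C

noncomputable section

open Crest.Agent.R086.E

variable {n : ℕ} {b : ℝ} {q : ℝ → ℂ}

theorem mx_contDiff_sig : ContDiff ℝ ∞ (fun y : R12 => ‖y‖ ^ 2 / 4) :=
  (contDiff_norm_sq ℝ).div_const 4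

theorem mx_fderiv_rad {g : ℝ → ℂ} (hg : Differentiable ℝ g) (y v : R12) :
    fderiv ℝ (fun y : R12 => g (‖y‖ ^ 2 / 4)) y v =
      ((inner ℝ y v : ℝ) : ℂ) / 2 * deriv g (‖y‖ ^ 2 / 4) := by
  have h1 : HasFDerivAt (fun y : R12 => ‖y‖ ^ 2 / 4) ((1 / 4 : ℝ) • (2 • innerSL ℝ y)) y := by
    have := ((hasStrictFDerivAt_norm_sq y).hasFDerivAt).const_smul (1 / 4 : ℝ)
    refine this.congr_of_eventuallyEq (Eventually.of_forall fun z => ?_)
    simp only [Pi.smul_apply, smul_eq_mul]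
    ring
  have h2 := (hg (‖y‖ ^ 2 / 4)).hasDerivAt.hasFDerivAt.comp y h1
  have h3 : fderiv ℝ (fun y : R12 => g (‖y‖ ^ 2 / 4)) y = _ := h2.fderiv
  rw [h3]
  simp
  ring

theorem mx_lap_rad {g : ℝ → ℂ} (hg : ContDiff ℝ 2 g) (y : R12) :
    lap (fun y : R12 => g (‖y‖ ^ 2 / 4)) y =
      ((‖y‖ ^ 2 / 4 : ℝ) : ℂ) * deriv (deriv g) (‖y‖ ^ 2 / 4) + 6 * deriv g (‖y‖ ^ 2 / 4) := by
  have h := lap_comp_PP hg 0 (4⁻¹) y
  simp only [PP_zero, ← div_eq_mul_inv] at h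
  rw [h]
  push_cast
  ring

theorem mx_hasFDerivAt_coord (j : Fin 12) (y : R12) :
    HasFDerivAt (fun y : R12 => ((y j : ℝ) : ℂ))
      (Complex.ofRealCLM.comp (EuclideanSpace.proj j : R12 →L[ℝ] ℝ)) y :=
  (Complex.ofRealCLM.comp (EuclideanSpace.proj j : R12 →L[ℝ] ℝ)).hasFDerivAt

theorem mx_contDiff_coord (j : Fin 12) {k : WithTop ℕ∞} :
    ContDiff ℝ k (fun y : R12 => ((y j : ℝ) : ℂ)) :=
  (Complex.ofRealCLM.comp (EuclideanSpace.proj j : R12 →L[ℝ] ℝ)).contDiff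

theorem mx_pd_coord (j l : Fin 12) :
    pd l (fun y : R12 => ((y j : ℝ) : ℂ)) = fun _ => if j = l then 1 else 0 := by
  funext y
  unfold pd
  rw [(mx_hasFDerivAt_coord j y).fderiv]
  simp only [ee, ContinuousLinearMap.comp_apply, Complex.ofRealCLM_apply]
  split_ifs with h <;> simp [h]

theorem mx_lap_coord {g : ℝ → ℂ} (hg : ContDiff ℝ 2 g) (j : Fin 12) (y : R12) :
    lap (fun y : R12 => ((y j : ℝ) : ℂ) * g (‖y‖ ^ 2 / 4)) y =
      (y j : ℂ) * (((‖y‖ ^ 2 / 4 : ℝ) : ℂ) * deriv (deriv g) (‖y‖ ^ 2 / 4)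
        + 7 * deriv g (‖y‖ ^ 2 / 4)) := by
  have hG : ContDiff ℝ 2 (fun y : R12 => g (‖y‖ ^ 2 / 4)) :=
    hg.comp (mx_contDiff_sig.of_le (by norm_cast))
  rw [lap_mul (mx_contDiff_coord j) hG, mx_lap_rad hg, E.comm, lap_eq (mx_contDiff_coord j)]
  simp only [mx_pd_coord]
  have h1 : ∀ c : ℂ, ∀ l, pd l (fun _ => c) y = 0 := fun c l => by simp [pd]
  have h2 : pd j (fun y : R12 => g (‖y‖ ^ 2 / 4)) y = (y j : ℂ) / 2 * deriv g (‖y‖ ^ 2 / 4) := by
    unfold pd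
    rw [mx_fderiv_rad (hg.differentiable (by norm_num))]
    simp [ee, EuclideanSpace.inner_single_right]
  simp only [h1, Finset.sum_const_zero, zero_mul, add_zero, ite_mul, one_mul, Finset.sum_ite_eq,
    Finset.mem_univ, if_true, h2]
  ring

theorem mx_fderiv_coord {g : ℝ → ℂ} (hg : Differentiable ℝ g) (j : Fin 12) (y : R12) :
    fderiv ℝ (fun y : R12 => ((y j : ℝ) : ℂ) * g (‖y‖ ^ 2 / 4)) y y =
      (y j : ℂ) * (g (‖y‖ ^ 2 / 4) + 2 * ((‖y‖ ^ 2 / 4 : ℝ) : ℂ) * deriv g (‖y‖ ^ 2 / 4)) := by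
  have hG : DifferentiableAt ℝ (fun y : R12 => g (‖y‖ ^ 2 / 4)) y :=
    (hg _).comp y (mx_contDiff_sig.differentiable (by simp) y)
  have h := ((mx_hasFDerivAt_coord j y).mul hG.hasFDerivAt).fderiv
  have h' : fderiv ℝ (fun y : R12 => ((y j : ℝ) : ℂ) * g (‖y‖ ^ 2 / 4)) y = _ := h
  rw [h', add_apply, smul_apply,
    smul_apply, mx_fderiv_rad hg, real_inner_self_eq_norm_sq]
  simp
  ring

theorem mx_V1 (n : ℕ) (u : ℂ) : V1 n u * u = (n + 1) * NL n u := by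
  unfold V1 NL
  ring

theorem mx_V2 (n : ℕ) (u : ℂ) : V2 n u * conj u = n * NL n u := by
  unfold V2 NL
  cases n with
  | zero => simp
  | succ m =>
    rw [Nat.add_sub_cancel]
    ring

theorem mx_aa (hn : 1 ≤ n) : 2 * (n : ℂ) * (aa n : ℂ) = 1 := by
  have : (n : ℂ) ≠ 0 := by exact_mod_cast (by omega : n ≠ 0)
  unfold aa
  push_cast
  field_simp

/-- the differentiated profile equation -/
theorem mx_ode' (hP : Prof n b q) {ρ : ℝ} (hρ : 0 ≤ ρ) :
    (ρ : ℂ) * deriv (deriv (deriv q)) ρ + (7 + Complex.I * ρ) * deriv (deriv q) ρ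
      + (Complex.I + b + Complex.I * (aa n : ℂ)) * deriv q ρ
      = V1 n (q ρ) * deriv q ρ + V2 n (q ρ) * conj (deriv q ρ) := by
  have s1 := hP.smooth.iterate_deriv 1
  have s2 := hP.smooth.iterate_deriv 2
  have d0 := (hP.smooth.differentiable (by simp) ρ).hasDerivAt
  have d1 : HasDerivAt (deriv q) (deriv (deriv q) ρ) ρ := (s1.differentiable (by simp) ρ).hasDerivAt
  have d2 : HasDerivAt (deriv (deriv q)) (deriv (deriv (deriv q)) ρ) ρ :=
    (s2.differentiable (by simp) ρ).hasDerivAt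
  have di : HasDerivAt (fun x : ℝ => (x : ℂ)) 1 ρ := Complex.ofRealCLM.hasDerivAt
  have dc : HasDerivAt (fun x => conj (q x)) (conj (deriv q ρ)) ρ := d0.star
  have hL := ((di.mul d2).add (((di.const_mul Complex.I).const_add 6).mul d1)).add
    (d0.const_mul ((b : ℂ) + Complex.I * (aa n : ℂ)))
  have hR := (d0.pow (n + 1)).mul (dc.pow n)
  have hR' := hR.hasDerivWithinAt (s := Ici 0) |>.congr (f₁ := fun x : ℝ =>
    (x : ℂ) * deriv (deriv q) x + (6 + Complex.I * x) * deriv q x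
      + ((b : ℂ) + Complex.I * (aa n : ℂ)) * q x) (fun x hx => hP.ode x hx) (hP.ode ρ hρ)
  have h := (uniqueDiffOn_Ici 0 ρ hρ).eq_deriv _ hL.hasDerivWithinAt hR'
  simp only [Pi.pow_apply, Nat.add_sub_cancel] at h
  unfold V1 V2
  push_cast at h
  linear_combination h

theorem mx_cp_real {τ : ℝ} (hτ : 0 < τ) (x : ℝ) : cp τ (x : ℂ) = ((τ ^ x : ℝ) : ℂ) := by
  unfold cp
  rw [Real.rpow_def_of_pos hτ, Complex.ofReal_exp]
  push_cast
  rw [mul_comm]

theorem mx_norm_sq_scale {τ : ℝ} (hτ : 0 < τ) (y : R12) :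
    ‖(Real.sqrt τ)⁻¹ • y‖ ^ 2 / 4 = PP 0 y / (4 * τ) := by
  rw [norm_smul, mul_pow, PP_zero, Real.norm_eq_abs, sq_abs, inv_pow, Real.sq_sqrt hτ.le]
  field_simp

/-- time derivative of a self-similar function -/
theorem mx_hasDerivAt {φ : R12 → ℂ} (hφ : Differentiable ℝ φ) (s : ℂ) {t : ℝ} (ht : t < 1) (y : R12) :
    HasDerivAt (fun t => cp (1 - t) s * φ ((Real.sqrt (1 - t))⁻¹ • y))
      (cp (1 - t) (s - 1) * (-s * φ ((Real.sqrt (1 - t))⁻¹ • y) +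
        fderiv ℝ φ ((Real.sqrt (1 - t))⁻¹ • y) ((Real.sqrt (1 - t))⁻¹ • y) / 2)) t := by
  have hτ : 0 < 1 - t := by linarith
  have hτ' : ((1 - t : ℝ) : ℂ) ≠ 0 := by exact_mod_cast hτ.ne'
  have hsq : 0 < Real.sqrt (1 - t) := Real.sqrt_pos.mpr hτ
  have hcp : cp (1 - t) s = cp (1 - t) (s - 1) * ((1 - t : ℝ) : ℂ) := by
    rw [← cp_one hτ, ← cp_add]
    congr 1
    ring
  have hl : HasDerivAt (fun s : ℝ => 1 - s) (-1) t := by
    simpa using (hasDerivAt_id t).const_sub 1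
  have d1 : HasDerivAt (fun x : ℝ => cp (1 - x) s) ((-1 : ℝ) • (s * cp (1 - t) (s - 1))) t :=
    HasDerivAt.scomp (h := fun s : ℝ => 1 - s) (g₁ := fun x => cp x s) t (hasDerivAt_cp hτ s) hl
  have d2 : HasDerivAt (fun x : ℝ => (Real.sqrt (1 - x))⁻¹)
      ((2 * (1 - t))⁻¹ * (Real.sqrt (1 - t))⁻¹) t := by
    refine ((hl.sqrt hτ.ne').inv hsq.ne').congr_deriv ?_
    rw [Real.sq_sqrt hτ.le]
    field_simp
  have d3 := (hφ _).hasFDerivAt.comp_hasDerivAt t (d2.smul_const y)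
  refine (d1.mul d3).congr_deriv ?_
  rw [mul_smul, map_smul, hcp]
  simp only [Complex.real_smul, Function.comp_def]
  push_cast at hτ' ⊢
  field_simp

theorem mx_lin_sum {α : Type} (s : Finset α) {k : ℕ} {h : ℝ} {J : Set ℝ} {z : α → ℝ → R12 → ℂ}
    (hz : ∀ a ∈ s, Lin n b q k h J (z a) 0) : Lin n b q k h J (fun t y => ∑ a ∈ s, z a t y) 0 := by
  classical
  induction s using Finset.induction_on with
  | empty => exact (Lin.zero n b q k h J).congr (fun _ _ _ => by simp) fun _ _ _ => rfl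
  | insert a s ha ih =>
    exact ((hz a (Finset.mem_insert_self _ _)).add
      (ih fun c hc => hz c (Finset.mem_insert_of_mem hc))).congr
      (fun _ _ _ => by rw [Finset.sum_insert ha]) fun _ _ _ => by simp

end

end Crest.Agent.R086.C
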