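import Crest.Agent.R086.Defs

/-! # Row 86, part C: rotations of ℝ¹² and the highest weight form -/

open Set Filter Topology
open scoped ContDiff ComplexConjugate
open Crest.AnalysisR.PDE.NLS

namespace Crest.Agent.R086.C

noncomputable section

/-- ζ = y₀ + i y₁ -/
def zeta (y : R12) : ℂ := (y 0 : ℂ) + Complex.I * (y 1 : ℂ)

/-- f = (ζ/r)^m × (radial function) on {ζ ≠ 0} -/
def HWForm (m : ℕ) (f : R12 → ℂ) : Prop :=
  ∀ y : R12, zeta y ≠ 0 → f y = (zeta y / (‖y‖ : ℂ)) ^ m * f (‖y‖ • ee 0)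

/-- restriction to the ray -/
def ray (f : R12 → ℂ) (r : ℝ) : ℂ := f (r • ee 0)

/-- first and second component of a pair of functions -/
def c1 (f : R12 → ℂ × ℂ) : R12 → ℂ := fun y => (f y).1
def c2 (f : R12 → ℂ × ℂ) : R12 → ℂ := fun y => (f y).2

/-- a subspace of functions invariant under all linear isometries -/
def RotInv (G : Submodule ℂ (R12 → ℂ × ℂ)) : Prop :=
  ∀ (O : R12 ≃ₗᵢ[ℝ] R12) (f : R12 → ℂ × ℂ), f ∈ G → (fun y => f (O y)) ∈ G

end

end Crest.Agent.R086.C
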