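import Crest.Agent.R086.C.Basic
import Crest.Agent.R086.C.RotDef
import Crest.Agent.R086.C.ModesAux
import Crest.Agent.R086.E.SymA
import Crest.Agent.R086.E.SymB

/-! # Row 86, part C: the symmetry modes (task) -/

open MeasureTheory Set Filter Topology
open scoped ContDiff ComplexConjugate ENNReal
open Crest.AnalysisR.PDE.NLS

namespace Crest.Agent.R086.C

noncomputable section

variable {n : ℕ} {b : ℝ} {q : ℝ → ℂ}

/-- index set of the modes: phase, blow-up time, translations -/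
abbrev Ix : Type := Option (Option (Fin 12))

/-- the modes at time 0, s = -a+ib, σ = |y|²/4: i q(σ); s q(σ) - σ q'(σ); y_j q'(σ)/2 -/
def bm0 (n : ℕ) (b : ℝ) (q : ℝ → ℂ) : Ix → R12 → ℂ
  | none, y => Complex.I * q (‖y‖ ^ 2 / 4)
  | some none, y => (-(aa n : ℂ) + Complex.I * b) * q (‖y‖ ^ 2 / 4)
      - ((‖y‖ ^ 2 / 4 : ℝ) : ℂ) * deriv q (‖y‖ ^ 2 / 4)
  | some (some j), y => (y j : ℂ) / 2 * deriv q (‖y‖ ^ 2 / 4)

/-- eigenvalues 0, 1, 1/2 -/
def ev : Ix → ℝ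
  | none => 0
  | some none => 1
  | some (some _) => 1 / 2

/-- the modes at time t: τ^{s-λ} φ(y/√τ) -/
def bm (n : ℕ) (b : ℝ) (q : ℝ → ℂ) (i : Ix) (t : ℝ) (y : R12) : ℂ :=
  cp (1 - t) (-(aa n : ℂ) + Complex.I * b - ev i) * bm0 n b q i ((Real.sqrt (1 - t))⁻¹ • y)

theorem bm_zero (i : Ix) : bm n b q i 0 = bm0 n b q i := by
  funext y
  simp [bm, E.cp_one_left]

theorem Zs_bm (i : Ix) {t : ℝ} (ht : t < 1) :
    Zs n b (1 - t) 0 0 (bm n b q i t) = fun y => (((1 - t) ^ (-(ev i)) : ℝ) : ℂ) * bm0 n b q i y := by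
  have hτ : 0 < 1 - t := by linarith
  funext y
  rw [Zs_apply0, bm, smul_smul, inv_mul_cancel₀ (Real.sqrt_pos.2 hτ).ne', one_smul, ← mul_assoc,
    ← E.cp_add, ← mx_cp_real hτ]
  congr 2
  push_cast
  ring

theorem mx_sy (hP : Prof n b q) (i : Ix) :
    E.Sy (fun _ : Unit => (0 : ℝ)) (fun _ => 1) (-(aa n)) (fun _ => bm0 n b q i) := by
  have hmem : ∀ _ : Unit, (0 : ℝ) ∈ Icc (0 : ℝ) 1 := fun _ => ⟨le_rfl, zero_le_one⟩
  have s0 := E.sy_q_PP hP 0 hmem
  have s1 := E.sy_q_PP hP 1 hmem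
  have sP := (E.sy_PP hmem).ofReal
  simp only [iteratedDeriv_zero, iteratedDeriv_one, Nat.cast_zero, sub_zero, Nat.cast_one] at s0 s1
  rcases i with _ | _ | j
  · exact (s0.cmul_bdd (c := fun _ => Complex.I) fun _ => le_rfl).congr fun _ y => by
      simp only [bm0, E.PP_zero]
  · have h1 := ((s1.mul_one sP).cmul_bdd (c := fun _ => (1 / 4 : ℂ)) fun _ => le_rfl).mono_order
      (show -aa n - 1 + 1 ≤ -aa n by linarith)
    exact ((s0.cmul_bdd (c := fun _ => -(aa n : ℂ) + Complex.I * b) fun _ => le_rfl).sub h1).congr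
      fun _ y => by
        simp only [bm0, E.PP_zero]
        push_cast
        ring
  · have h1 := ((s1.mul_one (sP.pd j)).cmul_bdd (c := fun _ => (1 / 4 : ℂ)) fun _ => le_rfl).mono_order
      (show -aa n - 1 + (1 - 1 / 2) ≤ -aa n by linarith)
    refine h1.congr fun _ y => ?_
    have h2 : E.pd j (fun y => ((PP 0 y : ℝ) : ℂ)) y = 2 * (y j : ℂ) := by
      have h3 := (Complex.ofRealCLM.hasFDerivAt.comp y
        ((E.contDiff_PP 0).differentiable (by simp) y).hasFDerivAt).fderiv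
      have h4 : fderiv ℝ (fun y => ((PP 0 y : ℝ) : ℂ)) y = _ := h3
      unfold E.pd
      rw [h4, ContinuousLinearMap.comp_apply, E.fderiv_PP]
      simp [E.dpsi]
    simp only [bm0, h2]
    rw [E.PP_zero]
    ring

/-- symbols of order -a (`Sy.comp` with g = q, deriv q and Φ = PP 0/4; y_j is a symbol of order 1/2) -/
theorem bm0_symb (hP : Prof n b q) (i : Ix) : ContDiff ℝ ∞ (bm0 n b q i) ∧ ∀ j : ℕ, ∃ C : ℝ, ∀ y,
    ‖iteratedFDeriv ℝ j (bm0 n b q i) y‖ ≤ C * (1 + PP 0 y) ^ (-(aa n) - (j : ℝ) / 2) := by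
  refine ⟨(mx_sy hP i).smooth (), fun j => ?_⟩
  obtain ⟨C, -, hC⟩ := (mx_sy hP i).bound j
  exact ⟨C, fun y => by simpa using hC () y⟩

/-- the stationary equation: i(Δφ - V₁φ - V₂φ̄) - (a-ib)φ - ½ y·∇φ = λφ.
Δ g(|y|²/4) = σg''+6g', Δ(y_j g(|y|²/4)) = y_j(σg''+7g'); differentiating `Prof.ode` (valid on ρ ≥ 0, so the derivative identity holds on ρ>0 and by
continuity at 0): ρq'''+(7+iρ)q''+(i+b+ia)q' = V₁(q)q'+V₂(q)q̄';  V₁(q)q = (n+1)NL q, V₂(q)q̄ = n NL q, (n+1)s+n s̄ … gives V₁ s q+V₂ s̄ q̄ = (s-1)NL q (2na = 1). -/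
theorem bm0_eq (hP : Prof n b q) (i : Ix) (y : R12) :
    Complex.I * (lap (bm0 n b q i) y - (V1 n (q (‖y‖ ^ 2 / 4)) * bm0 n b q i y
      + V2 n (q (‖y‖ ^ 2 / 4)) * conj (bm0 n b q i y)))
      - ((aa n : ℂ) - Complex.I * b) * bm0 n b q i y - fderiv ℝ (bm0 n b q i) y y / 2
      = (ev i : ℂ) * bm0 n b q i y := by
  have s1 : ContDiff ℝ ∞ (deriv q) := hP.smooth.iterate_deriv 1
  have s2 : ContDiff ℝ ∞ (deriv (deriv q)) := hP.smooth.iterate_deriv 2
  have d0 := fun ρ => (hP.smooth.differentiable (by simp) ρ).hasDerivAt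
  have d1 := fun ρ => (s1.differentiable (by simp) ρ).hasDerivAt
  have d2 := fun ρ => (s2.differentiable (by simp) ρ).hasDerivAt
  have di : ∀ ρ : ℝ, HasDerivAt (fun x : ℝ => (x : ℂ)) 1 ρ := fun ρ => Complex.ofRealCLM.hasDerivAt
  have hσ : 0 ≤ ‖y‖ ^ 2 / 4 := by positivity
  have o0 := hP.ode _ hσ
  have o1 := mx_ode' hP hσ
  have v1 := mx_V1 n (q (‖y‖ ^ 2 / 4))
  have v2 := mx_V2 n (q (‖y‖ ^ 2 / 4))
  have ha := mx_aa hP.npos
  have hI := Complex.I_mul_I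
  have hin : ((inner ℝ y y : ℝ) : ℂ) = 4 * ((‖y‖ ^ 2 / 4 : ℝ) : ℂ) := by
    rw [real_inner_self_eq_norm_sq]
    push_cast
    ring
  rcases i with _ | _ | j
  · have hg : ContDiff ℝ 2 fun ρ => Complex.I * q ρ :=
      contDiff_const.mul (hP.smooth.of_le (by norm_cast))
    have e : bm0 n b q none = fun y : R12 => (fun ρ => Complex.I * q ρ) (‖y‖ ^ 2 / 4) := rfl
    have e1 : deriv (fun ρ => Complex.I * q ρ) = fun ρ => Complex.I * deriv q ρ :=
      funext fun ρ => ((d0 ρ).const_mul _).deriv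
    have e2 : deriv (fun ρ => Complex.I * deriv q ρ) = fun ρ => Complex.I * deriv (deriv q) ρ :=
      funext fun ρ => ((d1 ρ).const_mul _).deriv
    rw [e, mx_lap_rad hg, mx_fderiv_rad (hg.differentiable (by norm_num)), e1, e2, hin]
    simp only [ev, map_mul, Complex.conj_I, Complex.ofReal_zero]
    generalize ((‖y‖ ^ 2 / 4 : ℝ) : ℂ) = σ at *
    linear_combination (-1) * o0 + v1 - v2 +
      (σ * deriv (deriv q) (‖y‖ ^ 2 / 4) + 6 * deriv q (‖y‖ ^ 2 / 4)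
        - V1 n (q (‖y‖ ^ 2 / 4)) * q (‖y‖ ^ 2 / 4) + V2 n (q (‖y‖ ^ 2 / 4)) * conj (q (‖y‖ ^ 2 / 4))
        + b * q (‖y‖ ^ 2 / 4)) * hI
  · set s : ℂ := -(aa n : ℂ) + Complex.I * b with hs
    have hg : ContDiff ℝ 2 fun ρ : ℝ => s * q ρ - (ρ : ℂ) * deriv q ρ :=
      (contDiff_const.mul (hP.smooth.of_le (by norm_cast))).sub
        (Complex.ofRealCLM.contDiff.mul (s1.of_le (by norm_cast)))
    have e : bm0 n b q (some none) =
        fun y : R12 => (fun ρ : ℝ => s * q ρ - (ρ : ℂ) * deriv q ρ) (‖y‖ ^ 2 / 4) := rfl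
    have e1 : deriv (fun ρ : ℝ => s * q ρ - (ρ : ℂ) * deriv q ρ) =
        fun ρ : ℝ => (s - 1) * deriv q ρ - (ρ : ℂ) * deriv (deriv q) ρ := funext fun ρ =>
      (((d0 ρ).const_mul s).sub ((di ρ).mul (d1 ρ))).deriv.trans (by ring)
    have e2 : deriv (fun ρ : ℝ => (s - 1) * deriv q ρ - (ρ : ℂ) * deriv (deriv q) ρ) =
        fun ρ : ℝ => (s - 2) * deriv (deriv q) ρ - (ρ : ℂ) * deriv (deriv (deriv q)) ρ :=
      funext fun ρ => (((d1 ρ).const_mul (s - 1)).sub ((di ρ).mul (d2 ρ))).deriv.trans (by ring)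
    rw [e, mx_lap_rad hg, mx_fderiv_rad (hg.differentiable (by norm_num)), e1, e2, hin]
    simp only [ev, hs, map_mul, map_sub, map_add, map_neg, Complex.conj_I, Complex.conj_ofReal,
      Complex.ofReal_one]
    generalize ((‖y‖ ^ 2 / 4 : ℝ) : ℂ) = σ at *
    generalize deriv (deriv (deriv q)) (‖y‖ ^ 2 / 4) = q3 at *
    generalize deriv (deriv q) (‖y‖ ^ 2 / 4) = q2 at *
    generalize deriv q (‖y‖ ^ 2 / 4) = q1 at *
    generalize q (‖y‖ ^ 2 / 4) = q0 at *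
    linear_combination (Complex.I * (-(aa n : ℂ) + Complex.I * b - 1)) * o0 - (Complex.I * σ) * o1
      - Complex.I * (-(aa n : ℂ) + Complex.I * b) * v1
      - Complex.I * (-(aa n : ℂ) - Complex.I * b) * v2 + Complex.I * NL n q0 * ha
      + (σ ^ 2 * q2 + 2 * σ * q1 * (1 + aa n) - Complex.I * b * σ * q1
        - (aa n : ℂ) * (-(aa n : ℂ) + Complex.I * b - 1) * q0) * hI
  · have hg : ContDiff ℝ 2 fun ρ => deriv q ρ / 2 := (s1.of_le (by norm_cast)).div_const 2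
    have e : bm0 n b q (some (some j)) =
        fun y : R12 => ((y j : ℝ) : ℂ) * (fun ρ => deriv q ρ / 2) (‖y‖ ^ 2 / 4) := by
      funext y
      simp only [bm0]
      ring
    have e1 : deriv (fun ρ => deriv q ρ / 2) = fun ρ => deriv (deriv q) ρ / 2 :=
      funext fun ρ => ((d1 ρ).div_const _).deriv
    have e2 : deriv (fun ρ => deriv (deriv q) ρ / 2) = fun ρ => deriv (deriv (deriv q)) ρ / 2 :=
      funext fun ρ => ((d2 ρ).div_const _).deriv
    rw [e, mx_lap_coord hg, mx_fderiv_coord (hg.differentiable (by norm_num)), e1, e2]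
    simp only [ev, map_mul, map_div₀, map_ofNat, Complex.conj_ofReal]
    generalize ((‖y‖ ^ 2 / 4 : ℝ) : ℂ) = σ at *
    push_cast
    linear_combination (Complex.I * (y j : ℂ) / 2) * o1
      - (y j : ℂ) / 2 * (σ * deriv (deriv q) (‖y‖ ^ 2 / 4) + (1 + aa n) * deriv q (‖y‖ ^ 2 / 4)) * hI

/-- the modes solve the linearised equation at every level (from `bm0_eq` by scaling: `lap_affine`, `hasDerivAt_cp`, `V1_cp`, `V2_cp`;
`fin` from `Zs_bm`, `bm0_symb` and `SymNrmStmt`) -/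
theorem bm_lin (hN : SymNrmStmt) (hP : Prof n b q) (i : Ix) (k : ℕ) {T : ℝ} (hT : T < 1) :
    Lin n b q k 0 (Icc 0 T) (bm n b q i) 0 := by
  have hφ := (bm0_symb hP i).1
  have hev : 0 ≤ ev i := by
    rcases i with _ | _ | j <;> simp [ev]
  refine ⟨E.ck_of_contDiffOn isOpen_Iio (fun t ht => lt_of_le_of_lt ht.2 hT) ?_,
    (Lin.zero n b q k 0 _).regS, fun _ _ h => absurd rfl h, fun _ _ h => absurd rfl h,
    fun _ => ?_, fun t ht y => ?_⟩
  · have h1 : ContDiffOn ℝ ∞ (fun p : ℝ × R12 => 1 - p.1) (Iio 1 ×ˢ univ) :=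
      (contDiff_const.sub contDiff_fst).contDiffOn
    have h2 : ∀ p ∈ (Iio 1 ×ˢ univ : Set (ℝ × R12)), 0 < 1 - p.1 := fun p hp => sub_pos.2 hp.1
    exact ((E.contDiffOn_cp _).comp h1 h2).mul (hφ.comp_contDiffOn
      (((h1.sqrt fun p hp => (h2 p hp).ne').inv fun p hp => (Real.sqrt_pos.2 (h2 p hp)).ne').smul
        contDiff_snd.contDiffOn))
  · obtain ⟨C, hC, hN'⟩ := hN (k + 1) (aa n) (E.aa_pos hP.npos)
    obtain ⟨B, hB, hb⟩ := (mx_sy hP i).bound_le (k + 1)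
    have h1 := hN' 0 ⟨le_rfl, zero_le_one⟩ (bm0 n b q i) B hB.le fun j hj y => by
      simpa using hb () j hj y
    refine ⟨(1 - T) ^ (-(ev i)) * (C * B), fun t ht => ?_⟩
    have hτ : 0 < 1 - T := by linarith
    have hτ' : 1 - T ≤ 1 - t := by linarith [ht.2]
    unfold nrmT
    rw [Zs_bm i (lt_of_le_of_lt ht.2 hT), zero_mul, E.nrm_const_mul _ _ (hφ.of_le (by exact_mod_cast le_top)),
      ENNReal.ofReal_mul (Real.rpow_nonneg hτ.le _), Complex.norm_real,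
      Real.norm_of_nonneg (Real.rpow_nonneg (hτ.le.trans hτ') _)]
    exact mul_le_mul' (ENNReal.ofReal_le_ofReal
      (Real.rpow_le_rpow_of_nonpos hτ hτ' (by linarith))) h1
  · have ht1 : t < 1 := lt_of_le_of_lt ht.2 hT
    have hτ : 0 < 1 - t := by linarith
    have hτ' : ((1 - t : ℝ) : ℂ) ≠ 0 := by exact_mod_cast hτ.ne'
    refine ((mx_hasDerivAt (hφ.differentiable (by simp)) _ ht1 y).congr_deriv ?_).hasDerivWithinAt
    have he := bm0_eq hP i ((Real.sqrt (1 - t))⁻¹ • y)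
    set s : ℂ := -(aa n : ℂ) + Complex.I * b with hs
    have hlap : lap (bm n b q i t) y = cp (1 - t) (s - ev i) * (((1 - t : ℝ) : ℂ))⁻¹ *
        lap (bm0 n b q i) ((Real.sqrt (1 - t))⁻¹ • y) := by
      have h := E.lap_affine (hφ.of_le (by norm_cast)) (cp (1 - t) (s - ev i))
        (Real.sqrt (1 - t))⁻¹ 0 y
      simp only [zero_add] at h
      rw [← Complex.ofReal_pow, inv_pow, Real.sq_sqrt hτ.le, Complex.ofReal_inv] at h
      exact h
    have c1 : cp (1 - t) ((aa n : ℂ) - Complex.I * b) * cp (1 - t) s = 1 := by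
      rw [← E.cp_add, ← E.cp_zero (1 - t)]
      congr 1
      ring
    have c2 : cp (1 - t) (s - ev i) = cp (1 - t) s * (((1 - t) ^ (-(ev i)) : ℝ) : ℂ) := by
      rw [← mx_cp_real hτ, ← E.cp_add]
      congr 1
      push_cast
      ring
    have c3 : cp (1 - t) (s - ev i) = cp (1 - t) (s - ev i - 1) * ((1 - t : ℝ) : ℂ) := by
      rw [← E.cp_one hτ, ← E.cp_add]
      congr 1
      ring
    have hU : cp (1 - t) ((aa n : ℂ) - Complex.I * b) * UU n b q 0 t y =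
        q (‖(Real.sqrt (1 - t))⁻¹ • y‖ ^ 2 / 4) := by
      rw [mx_norm_sq_scale hτ, UU, ← mul_assoc, c1, one_mul]
    have hz : cp (1 - t) ((aa n : ℂ) - Complex.I * b) * bm n b q i t y =
        (((1 - t) ^ (-(ev i)) : ℝ) : ℂ) * bm0 n b q i ((Real.sqrt (1 - t))⁻¹ • y) := by
      rw [bm, c2, ← mul_assoc, ← mul_assoc, c1, one_mul]
    have w1 := V1_cp (b := b) hP.npos hτ (UU n b q 0 t y)
    have w2 := V2_cp (b := b) hP.npos hτ (UU n b q 0 t y) (bm n b q i t y)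
    rw [hU] at w1 w2
    rw [hz, map_mul, Complex.conj_ofReal] at w2
    have w3 : V1 n (UU n b q 0 t y) * bm n b q i t y = cp (1 - t) (s - ev i - 1) *
        (V1 n (q (‖(Real.sqrt (1 - t))⁻¹ • y‖ ^ 2 / 4)) *
          bm0 n b q i ((Real.sqrt (1 - t))⁻¹ • y)) := by
      rw [w1, bm, c3]
      ring
    have w4 : V2 n (UU n b q 0 t y) * conj (bm n b q i t y) = cp (1 - t) (s - ev i - 1) *
        (V2 n (q (‖(Real.sqrt (1 - t))⁻¹ • y‖ ^ 2 / 4)) *
          conj (bm0 n b q i ((Real.sqrt (1 - t))⁻¹ • y))) := by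
      refine mul_left_cancel₀ hτ' ?_
      rw [c2] at c3
      linear_combination (-cp (1 - t) s) * w2
        - ((1 - t : ℝ) : ℂ) * (V2 n (UU n b q 0 t y) * conj (bm n b q i t y)) * c1
        + (V2 n (q (‖(Real.sqrt (1 - t))⁻¹ • y‖ ^ 2 / 4)) *
          conj (bm0 n b q i ((Real.sqrt (1 - t))⁻¹ • y))) * c3
    rw [hlap, w3, w4, c3, mul_assoc (cp _ _) _ _⁻¹, mul_inv_cancel₀ hτ', Pi.zero_apply, Pi.zero_apply]
    linear_combination (-cp (1 - t) (s - ev i - 1)) * he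

/-- `mode` of Defs in terms of `bm` -/
theorem mode_eq (hP : Prof n b q) (c₀ c₁ : ℝ) (x : R12) {t : ℝ} (ht : t < 1) (y : R12) :
    mode n b q c₀ c₁ x t y = c₀ * bm n b q none t y + c₁ * bm n b q (some none) t y
      + ∑ j : Fin 12, (x j : ℂ) * bm n b q (some (some j)) t y := by
  have hτ : 0 < 1 - t := by linarith
  have hsq : 0 < Real.sqrt (1 - t) := Real.sqrt_pos.2 hτ
  have hqd : Differentiable ℝ q := hP.smooth.differentiable (by simp)
  have hQ : Differentiable ℝ fun y : R12 => q (‖y‖ ^ 2 / 4) :=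
    hqd.comp (mx_contDiff_sig.differentiable (by simp))
  set s : ℂ := -(aa n : ℂ) + Complex.I * b with hs
  have hU : ∀ t < 1, ∀ y, UU n b q 0 t y =
      cp (1 - t) s * q (‖(Real.sqrt (1 - t))⁻¹ • y‖ ^ 2 / 4) := fun t ht y => by
    rw [mx_norm_sq_scale (sub_pos.2 ht), UU]
  have h1 := ((mx_hasDerivAt hQ s ht y).congr_of_eventuallyEq (f₁ := fun t => UU n b q 0 t y)
    ((gt_mem_nhds ht).mono fun t ht => hU t ht y)).deriv
  have h2 : fderiv ℝ (UU n b q 0 t) y x = cp (1 - t) s * (((Real.sqrt (1 - t))⁻¹ : ℝ) *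
      fderiv ℝ (fun y : R12 => q (‖y‖ ^ 2 / 4)) ((Real.sqrt (1 - t))⁻¹ • y) x) := by
    have h3 := (((hQ _).hasFDerivAt.comp y
      ((hasFDerivAt_id y).const_smul (Real.sqrt (1 - t))⁻¹)).const_mul (cp (1 - t) s)).fderiv
    have h4 : fderiv ℝ (fun y : R12 =>
      cp (1 - t) s * q (‖(Real.sqrt (1 - t))⁻¹ • y‖ ^ 2 / 4)) y = _ := h3
    rw [funext (hU t ht), h4]
    simp
  have c1 : cp (1 - t) (s - ((1 / 2 : ℝ) : ℂ)) = cp (1 - t) s * (((Real.sqrt (1 - t))⁻¹ : ℝ) : ℂ) := by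
    rw [Real.sqrt_eq_rpow, ← Real.rpow_neg hτ.le, ← mx_cp_real hτ, ← E.cp_add]
    congr 1
    push_cast
    ring
  have c2 : ((inner ℝ ((Real.sqrt (1 - t))⁻¹ • y) x : ℝ) : ℂ) =
      ∑ j : Fin 12, (x j : ℂ) * ((((Real.sqrt (1 - t))⁻¹ • y) j : ℝ) : ℂ) := by
    rw [PiLp.inner_apply, Complex.ofReal_sum]
    refine Finset.sum_congr rfl fun j _ => ?_
    rw [RCLike.inner_apply, conj_trivial, Complex.ofReal_mul]
  rw [mode, h1, h2, mx_fderiv_rad hqd, mx_fderiv_rad hqd, real_inner_self_eq_norm_sq, c2, hU t ht]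
  simp only [bm, bm0, ev, ← hs, c1, Complex.ofReal_zero, sub_zero, Complex.ofReal_one]
  rw [Finset.sum_div, Finset.sum_mul, Finset.mul_sum, Finset.mul_sum]
  congr 1
  · push_cast
    ring
  · exact Finset.sum_congr rfl fun j _ => by ring

theorem mode_lin (hN : SymNrmStmt) (hP : Prof n b q) (c₀ c₁ : ℝ) (x : R12) (k : ℕ) {T : ℝ} (hT : T < 1) :
    Lin n b q k 0 (Icc 0 T) (mode n b q c₀ c₁ x) 0 := by
  exact ((((bm_lin hN hP none k hT).smul c₀).add ((bm_lin hN hP (some none) k hT).smul c₁)).add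
    (mx_lin_sum Finset.univ fun j _ => ((bm_lin hN hP (some (some j)) k hT).smul (x j)).congr
      (fun _ _ _ => rfl) fun _ _ _ => by simp)).congr
    (fun t ht y => (mode_eq hP c₀ c₁ x (lt_of_le_of_lt ht.2 hT) y).symm) fun _ _ _ => by simp

/-- explicit formula at t = 0 -/
theorem mode_zero (hP : Prof n b q) (c₀ c₁ : ℝ) (x y : R12) :
    mode n b q c₀ c₁ x 0 y = c₀ * (Complex.I * q (‖y‖ ^ 2 / 4))
      + c₁ * ((-(aa n : ℂ) + Complex.I * b) * q (‖y‖ ^ 2 / 4)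
        - ((‖y‖ ^ 2 / 4 : ℝ) : ℂ) * deriv q (‖y‖ ^ 2 / 4))
      + ((inner ℝ x y : ℝ) : ℂ) / 2 * deriv q (‖y‖ ^ 2 / 4) := by
  rw [mode_eq hP c₀ c₁ x zero_lt_one]
  simp only [bm_zero, bm0]
  congr 1
  rw [PiLp.inner_apply]
  push_cast
  rw [Finset.sum_div, Finset.sum_mul]
  refine Finset.sum_congr rfl fun j _ => ?_
  simp only [RCLike.inner_apply, conj_trivial]
  push_cast
  ring

end

end Crest.Agent.R086.C
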