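import Crest.Agent.R086.C.PairDef

/-! # Row 86, part C: properties of the complexified objects (task) -/

open MeasureTheory Set Filter Topology
open scoped ContDiff ComplexConjugate ENNReal
open Crest.AnalysisR.PDE.NLS

namespace Crest.Agent.R086.C

noncomputable section

variable {n : ℕ} {b : ℝ} {q : ℝ → ℂ} {k₀ k : ℕ}

private theorem h93_c1 (f : VV) : c1 f = fun y => pA f y + Complex.I * pB f y :=
  funext fun y => (congrArg Prod.fst (congrFun (mk2_pA_pB f) y)).symm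

private theorem h93_c2 (f : VV) : c2 f = fun y => conj (pA f y) + Complex.I * conj (pB f y) :=
  funext fun y => (congrArg Prod.snd (congrFun (mk2_pA_pB f) y)).symm

private theorem h93_conj {m : WithTop ℕ∞} {A : R12 → ℂ} (hA : ContDiff ℝ m A) :
    ContDiff ℝ m (fun y => conj (A y)) := Complex.conjCLE.contDiff.comp hA

private theorem h93_le {E : Type} [NormedAddCommGroup E] [NormedSpace ℝ E] {A : R12 → E}
    (hA : ContDiff ℝ (k + 2 : ℕ) A) : ContDiff ℝ k A :=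
  hA.of_le (by exact_mod_cast Nat.le_add_right k 2)

private theorem h93_nrm_c {f : VV} (hf : f ∈ XX n b q k) :
    nrm k 0 (c1 f) ≤ nrm k 0 (pA f) + nrm k 0 (pB f) ∧
      nrm k 0 (c2 f) ≤ nrm k 0 (pA f) + nrm k 0 (pB f) := by
  have hA := h93_le hf.1.contDiff
  have hB := h93_le hf.2.contDiff
  constructor
  · rw [h93_c1]
    refine (E.nrm_add_le 0 hA (contDiff_const.mul hB)).trans (le_of_eq ?_)
    rw [E.nrm_const_mul 0 _ hB, Complex.norm_I, ENNReal.ofReal_one, one_mul]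
  · rw [h93_c2]
    refine (E.nrm_add_le 0 (h93_conj hA) (contDiff_const.mul (h93_conj hB))).trans (le_of_eq ?_)
    rw [E.nrm_const_mul 0 _ (h93_conj hB), Complex.norm_I, ENNReal.ofReal_one, one_mul,
      E.nrm_conj, E.nrm_conj]

theorem XX_level {k' : ℕ} (hk : k' ≤ k) : XX n b q k ≤ XX n b q k' :=
  fun _ hf => ⟨hf.1.level hk, hf.2.level hk⟩

theorem XX_contDiff {f : VV} (hf : f ∈ XX n b q k) :
    ContDiff ℝ (k + 2 : ℕ) (c1 f) ∧ ContDiff ℝ (k + 2 : ℕ) (c2 f) ∧ ContDiff ℝ (k + 2 : ℕ) f := by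
  have hA := hf.1.contDiff
  have hB := hf.2.contDiff
  have h1 : ContDiff ℝ (k + 2 : ℕ) (c1 f) := by
    rw [h93_c1]; exact hA.add (contDiff_const.mul hB)
  have h2 : ContDiff ℝ (k + 2 : ℕ) (c2 f) := by
    rw [h93_c2]; exact (h93_conj hA).add (contDiff_const.mul (h93_conj hB))
  exact ⟨h1, h2, h1.prodMk h2⟩

theorem XX_rot : RotInv (XX n b q k) :=
  fun O _ hf => ⟨hf.1.rot O, hf.2.rot O⟩

/-- nrm c1, nrm c2 ≤ nrm A + nrm B < ⊤ -/
theorem XX_ne_top {f : VV} (hf : f ∈ XX n b q k) : nrm k 0 (c1 f) ≠ ⊤ ∧ nrm k 0 (c2 f) ≠ ⊤ := by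
  have h := ENNReal.add_ne_top.2 ⟨hf.1.nrm_ne_top, hf.2.nrm_ne_top⟩
  exact ⟨ne_top_of_le_ne_top h (h93_nrm_c hf).1, ne_top_of_le_ne_top h (h93_nrm_c hf).2⟩

theorem Nf_nonneg (f : VV) : 0 ≤ Nf k f := ENNReal.toReal_nonneg

private theorem h93_Nf {f : VV} (hf : f ∈ XX n b q k) :
    ENNReal.ofReal (Nf k f) = nrm k 0 (c1 f) + nrm k 0 (c2 f) :=
  ENNReal.ofReal_toReal (ENNReal.add_ne_top.2 (XX_ne_top hf))

theorem Nf_add_le {f g : VV} (hf : f ∈ XX n b q k) (hg : g ∈ XX n b q k) :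
    Nf k (f + g) ≤ Nf k f + Nf k g := by
  obtain ⟨f1, f2, -⟩ := XX_contDiff hf
  obtain ⟨g1, g2, -⟩ := XX_contDiff hg
  refine ENNReal.toReal_le_of_le_ofReal (add_nonneg (Nf_nonneg _) (Nf_nonneg _)) ?_
  rw [ENNReal.ofReal_add (Nf_nonneg _) (Nf_nonneg _), h93_Nf hf, h93_Nf hg, add_add_add_comm]
  exact add_le_add (E.nrm_add_le 0 (h93_le f1) (h93_le g1)) (E.nrm_add_le 0 (h93_le f2) (h93_le g2))

theorem Nf_smul (c : ℂ) {f : VV} (hf : f ∈ XX n b q k) : Nf k (c • f) = ‖c‖ * Nf k f := by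
  obtain ⟨f1, f2, -⟩ := XX_contDiff hf
  have e1 : nrm k 0 (c1 (c • f)) = ENNReal.ofReal ‖c‖ * nrm k 0 (c1 f) :=
    E.nrm_const_mul 0 c (h93_le f1)
  have e2 : nrm k 0 (c2 (c • f)) = ENNReal.ofReal ‖c‖ * nrm k 0 (c2 f) :=
    E.nrm_const_mul 0 c (h93_le f2)
  rw [Nf, e1, e2, ← mul_add, ENNReal.toReal_mul, ENNReal.toReal_ofReal (norm_nonneg _), Nf]

theorem nrm_pA_le {f : VV} (hf : f ∈ XX n b q k) :
    nrm k 0 (pA f) ≤ ENNReal.ofReal (Nf k f) ∧ nrm k 0 (pB f) ≤ ENNReal.ofReal (Nf k f) := by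
  obtain ⟨f1, f2, -⟩ := XX_contDiff hf
  have g1 := h93_le f1
  have g2 := h93_conj (h93_le f2)
  have e1 : pA f = fun y => (2 : ℂ)⁻¹ * (c1 f y + conj (c2 f y)) := by
    funext y; simp only [pA, c1, c2]; ring
  have e2 : pB f = fun y => (2 * Complex.I)⁻¹ * (c1 f y - conj (c2 f y)) := by
    funext y; simp only [pB, c1, c2]; rw [div_eq_inv_mul]
  rw [h93_Nf hf, e1, e2, E.nrm_const_mul 0 _ (g1.add g2), E.nrm_const_mul 0 _ (g1.sub g2),
    ← E.nrm_conj k 0 (c2 f)]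
  constructor
  · refine (mul_le_of_le_one_left' (ENNReal.ofReal_le_one.2 ?_)).trans (E.nrm_add_le 0 g1 g2)
    norm_num
  · refine (mul_le_of_le_one_left' (ENNReal.ofReal_le_one.2 ?_)).trans (E.nrm_sub_le 0 g1 g2)
    norm_num

theorem nrm_c_le {f : VV} (hf : f ∈ XX n b q k) :
    nrm k 0 (c1 f) ≤ ENNReal.ofReal (Nf k f) ∧ nrm k 0 (c2 f) ≤ ENNReal.ofReal (Nf k f) := by
  rw [h93_Nf hf]
  exact ⟨le_self_add, le_add_self⟩

theorem Nf_le {f : VV} (hf : f ∈ XX n b q k) {B : ℝ} (hB : 0 ≤ B)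
    (h1 : nrm k 0 (pA f) ≤ ENNReal.ofReal B) (h2 : nrm k 0 (pB f) ≤ ENNReal.ofReal B) : Nf k f ≤ 4 * B := by
  refine ENNReal.toReal_le_of_le_ofReal (by positivity) ?_
  have h := add_le_add h1 h2
  refine (add_le_add ((h93_nrm_c hf).1.trans h) ((h93_nrm_c hf).2.trans h)).trans (le_of_eq ?_)
  rw [← ENNReal.ofReal_add hB hB, ← ENNReal.ofReal_add (by positivity) (by positivity)]
  congr 1
  ring

/-- Sobolev with B = 0 -/
theorem Nf_eq_zero (H : Ctx n b q k₀) (hk : k₀ ≤ k) {f : VV} (hf : f ∈ XX n b q k) (h : Nf k f = 0) :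
    f = 0 := by
  have hb := H.big
  obtain ⟨C, -, hC⟩ := H.sob k (by omega)
  have key : ∀ g : R12 → ℂ, ContDiff ℝ (k + 2 : ℕ) g → nrm k 0 g ≤ ENNReal.ofReal 0 →
      ∀ y, g y = 0 := fun g hg hn y => by
    have := (hC 0 ⟨le_rfl, zero_le_one⟩ g 0 le_rfl (h93_le hg) (fun h => absurd rfl h) hn 0 y).1
      (by omega)
    rwa [norm_iteratedFDeriv_zero, mul_zero, norm_le_zero_iff] at this
  obtain ⟨f1, f2, -⟩ := XX_contDiff hf
  have h1 := nrm_c_le hf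
  rw [h] at h1
  funext y
  exact Prod.ext (key _ f1 h1.1 y) (key _ f2 h1.2 y)

/-- the seminorm pulled back along a linear map into `XX k` -/
def NS {Y : Type*} [AddCommGroup Y] [Module ℂ Y] (k : ℕ) (ι : Y →ₗ[ℂ] VV)
    (hι : ∀ y, ι y ∈ XX n b q k) : Seminorm ℂ Y :=
  Seminorm.of (fun y => Nf k (ι y))
    (fun x y => by rw [map_add]; exact Nf_add_le (hι x) (hι y))
    (fun c x => by rw [map_smul]; exact Nf_smul c (hι x))

@[simp] theorem NS_apply {Y : Type*} [AddCommGroup Y] [Module ℂ Y] (k : ℕ) (ι : Y →ₗ[ℂ] VV)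
    (hι : ∀ y, ι y ∈ XX n b q k) (y : Y) : NS k ι hι y = Nf k (ι y) := rfl

theorem TT_mem (H : Ctx n b q k₀) (hk : k₀ ≤ k) {t : ℝ} (ht : t ∈ Ico (0 : ℝ) 1) {f : VV}
    (hf : f ∈ XX n b q k) : TT n b q k₀ t f ∈ XX n b q k := by
  refine ⟨?_, ?_⟩
  · rw [TT, pA_mk2]; exact T1_mem H hk hf.1 ht
  · rw [TT, pB_mk2]; exact T1_mem H hk hf.2 ht

theorem TT_add (H : Ctx n b q k₀) {t : ℝ} (ht : t ∈ Ico (0 : ℝ) 1) {f g : VV}
    (hf : f ∈ XX n b q k₀) (hg : g ∈ XX n b q k₀) :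
    TT n b q k₀ t (f + g) = TT n b q k₀ t f + TT n b q k₀ t g := by
  simp only [TT]
  rw [pA_add, pB_add, T1_add H hf.1 hg.1 ht, T1_add H hf.2 hg.2 ht]
  funext y
  ext <;> simp only [mk2, Pi.add_apply, Prod.fst_add, Prod.snd_add, map_add] <;> ring

theorem TT_smul (H : Ctx n b q k₀) {t : ℝ} (ht : t ∈ Ico (0 : ℝ) 1) (c : ℂ) {f : VV}
    (hf : f ∈ XX n b q k₀) : TT n b q k₀ t (c • f) = c • TT n b q k₀ t f := by
  rw [← mk2_pA_pB (c • TT n b q k₀ t f)]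
  simp only [TT]
  rw [pA_smul, pB_smul, pA_smul, pB_smul, pA_mk2, pB_mk2,
    T1_add H (hf.1.smul _) (hf.2.smul _) ht, T1_add H (hf.1.smul _) (hf.2.smul _) ht,
    T1_smul H hf.1 _ ht, T1_smul H hf.2 _ ht, T1_smul H hf.1 _ ht, T1_smul H hf.2 _ ht]

/-- the solution operator as a linear map on `XX k` -/
def TL (H : Ctx n b q k₀) (hk : k₀ ≤ k) {t : ℝ} (ht : t ∈ Ico (0 : ℝ) 1) :
    XX n b q k →ₗ[ℂ] XX n b q k where
  toFun f := ⟨TT n b q k₀ t f, TT_mem H hk ht f.2⟩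
  map_add' f g := Subtype.ext (TT_add H ht (XX_level hk f.2) (XX_level hk g.2))
  map_smul' c f := Subtype.ext (TT_smul H ht c (XX_level hk f.2))

@[simp] theorem TL_apply (H : Ctx n b q k₀) (hk : k₀ ≤ k) {t : ℝ} (ht : t ∈ Ico (0 : ℝ) 1)
    (f : XX n b q k) : (TL H hk ht f : VV) = TT n b q k₀ t f := rfl

theorem TT_zero_time (H : Ctx n b q k₀) {f : VV} (hf : f ∈ XX n b q k₀) : TT n b q k₀ 0 f = f := by
  rw [TT, T1_zero_time H hf.1, T1_zero_time H hf.2, mk2_pA_pB]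

theorem TT_semi (H : Ctx n b q k₀) {f : VV} (hf : f ∈ XX n b q k₀) {s t : ℝ}
    (hs : s ∈ Ico (0 : ℝ) 1) (ht : t ∈ Ico (0 : ℝ) 1) :
    TT n b q k₀ s (TT n b q k₀ t f) = TT n b q k₀ (t + (1 - t) * s) f := by
  simp only [TT]
  rw [pA_mk2, pB_mk2, T1_semi H hf.1 hs ht, T1_semi H hf.2 hs ht]

/-- iterates: 1 - (1-t)^J ∈ [0,1) -/
theorem TL_pow (H : Ctx n b q k₀) (hk : k₀ ≤ k) {t : ℝ} (ht : t ∈ Ico (0 : ℝ) 1) (J : ℕ)
    (f : XX n b q k) : (((TL H hk ht) ^ J) f : VV) = TT n b q k₀ (1 - (1 - t) ^ J) f := by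
  have hf := XX_level hk f.2
  induction J with
  | zero => rw [pow_zero, pow_zero, sub_self, TT_zero_time H hf]; rfl
  | succ J ih =>
    have h1 : 0 < 1 - t := sub_pos.2 ht.2
    have h2 : 1 - (1 - t) ^ J ∈ Ico (0 : ℝ) 1 :=
      ⟨sub_nonneg.2 (pow_le_one₀ h1.le (by linarith [ht.1])), by linarith [pow_pos h1 J]⟩
    rw [pow_succ', Module.End.mul_apply, TL_apply, ih, TT_semi H hf ht h2]
    congr 1
    ring

theorem TT_rot (H : Ctx n b q k₀) {f : VV} (hf : f ∈ XX n b q k₀) (O : R12 ≃ₗᵢ[ℝ] R12) {t : ℝ}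
    (ht : t ∈ Ico (0 : ℝ) 1) : TT n b q k₀ t (fun y => f (O y)) = fun y => TT n b q k₀ t f (O y) := by
  have e1 : T1 n b q k₀ t (pA fun y => f (O y)) = fun y => T1 n b q k₀ t (pA f) (O y) :=
    T1_rot H hf.1 O ht
  have e2 : T1 n b q k₀ t (pB fun y => f (O y)) = fun y => T1 n b q k₀ t (pB f) (O y) :=
    T1_rot H hf.2 O ht
  simp only [TT]
  rw [e1, e2]
  rfl

theorem TT_bound (H : Ctx n b q k₀) (hk : k₀ ≤ k) : ∃ C : ℝ, 0 < C ∧ ∀ f ∈ XX n b q k,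
    ∀ t ∈ Ico (0 : ℝ) 1, Nf k (TT n b q k₀ t f) ≤ C * (1 / (1 - t)) ^ C * Nf k f := by
  obtain ⟨C, hC, h⟩ := T1_bound H hk
  refine ⟨4 * C, by positivity, fun f hf t ht => ?_⟩
  have h0 := Nf_nonneg (k := k) f
  have h1 : 0 < 1 - t := sub_pos.2 ht.2
  have h2 : 1 ≤ 1 / (1 - t) := by rw [le_div_iff₀ h1]; linarith [ht.1]
  have h3 : (1 / (1 - t)) ^ C ≤ (1 / (1 - t)) ^ (4 * C) :=
    Real.rpow_le_rpow_of_exponent_le h2 (by linarith)
  have h4 := Nf_le (TT_mem H hk ht hf) (B := C * (1 / (1 - t)) ^ C * Nf k f) (by positivity)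
    (by rw [TT, pA_mk2]; exact h _ _ h0 hf.1 (nrm_pA_le hf).1 t ht)
    (by rw [TT, pB_mk2]; exact h _ _ h0 hf.2 (nrm_pA_le hf).2 t ht)
  refine h4.trans ?_
  have h5 := mul_le_mul_of_nonneg_right (mul_le_mul_of_nonneg_left h3 hC.le) h0
  linarith

end

end Crest.Agent.R086.C
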