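import Crest.Agent.R086.C.Pair

/-! # Row 86, part C: the complexified modes and the generator (task) -/

open MeasureTheory Set Filter Topology
open scoped ContDiff ComplexConjugate ENNReal
open Crest.AnalysisR.PDE.NLS

namespace Crest.Agent.R086.C

noncomputable section

variable {n : ℕ} {b : ℝ} {q : ℝ → ℂ} {k₀ k : ℕ}

/-- pA (Phi c) = Σ Re c_i φ_i, pB (Phi c) = Σ Im c_i φ_i -/
theorem pA_Phi (c : Ix → ℂ) : pA (Phi n b q c) = fun y => ∑ i, ((c i).re : ℂ) * bm0 n b q i y := by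
  funext y
  simp only [pA, Phi, LinearMap.coe_mk, AddHom.coe_mk, map_sum, map_mul, Complex.conj_conj]
  rw [← Finset.sum_add_distrib, Finset.sum_div]
  refine Finset.sum_congr rfl (fun i _ => ?_)
  rw [Complex.re_eq_add_conj]
  ring

theorem pB_Phi (c : Ix → ℂ) : pB (Phi n b q c) = fun y => ∑ i, ((c i).im : ℂ) * bm0 n b q i y := by
  funext y
  simp only [pB, Phi, LinearMap.coe_mk, AddHom.coe_mk, map_sum, map_mul, Complex.conj_conj]
  rw [← Finset.sum_sub_distrib, Finset.sum_div]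
  refine Finset.sum_congr rfl (fun i _ => ?_)
  rw [Complex.im_eq_sub_conj]
  ring

private theorem p2_X1_sum (H : Ctx n b q k₀) (k : ℕ) (r : Ix → ℝ) (s : Finset Ix) :
    X1 n b q k (fun y => ∑ i ∈ s, (r i : ℂ) * bm0 n b q i y) := by
  classical
  induction s using Finset.induction_on with
  | empty => simpa using (X1.zero : X1 n b q k _)
  | insert i s hi ih =>
    simp only [Finset.sum_insert hi]
    exact ((X1.bm0 H i k).smul _).add ih

private theorem p2_T1_sum (H : Ctx n b q k₀) {t : ℝ} (ht : t ∈ Ico (0 : ℝ) 1) (r : Ix → ℝ)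
    (s : Finset Ix) :
    T1 n b q k₀ t (fun y => ∑ i ∈ s, (r i : ℂ) * bm0 n b q i y) =
      fun y => ∑ i ∈ s, (((1 - t) ^ (-(ev i)) * r i : ℝ) : ℂ) * bm0 n b q i y := by
  classical
  induction s using Finset.induction_on with
  | empty =>
    have := T1_smul H (X1.zero : X1 n b q k₀ _) 0 ht
    simpa using this
  | insert i s hi ih =>
    simp only [Finset.sum_insert hi]
    rw [T1_add H ((X1.bm0 H i k₀).smul _) (p2_X1_sum H k₀ r s) ht, ih,
      T1_smul H (X1.bm0 H i k₀) _ ht, T1_bm0 H i ht]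
    funext y
    push_cast
    ring

theorem EE_le (H : Ctx n b q k₀) (k : ℕ) : EE n b q ≤ XX n b q k := by
  rintro f ⟨c, rfl⟩
  refine ⟨?_, ?_⟩
  · rw [pA_Phi]
    exact p2_X1_sum H k (fun i => (c i).re) _
  · rw [pB_Phi]
    exact p2_X1_sum H k (fun i => (c i).im) _

theorem TT_Phi (H : Ctx n b q k₀) {t : ℝ} (ht : t ∈ Ico (0 : ℝ) 1) (c : Ix → ℂ) :
    TT n b q k₀ t (Phi n b q c) = Phi n b q (fun i => (((1 - t) ^ (-(ev i)) : ℝ) : ℂ) * c i) := by
  rw [← mk2_pA_pB (Phi n b q (fun i => (((1 - t) ^ (-(ev i)) : ℝ) : ℂ) * c i))]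
  unfold TT
  rw [pA_Phi, pB_Phi, pA_Phi, pB_Phi, p2_T1_sum H ht (fun i => (c i).re),
    p2_T1_sum H ht (fun i => (c i).im)]
  simp only [Complex.re_ofReal_mul, Complex.im_ofReal_mul]

private theorem p2_coord (O : R12 ≃ₗᵢ[ℝ] R12) (y : R12) (j : Fin 12) :
    O y j = ∑ i : Fin 12, y i * O (ee i) j := by
  have h : y = ∑ i : Fin 12, y i • ee i := by
    have := (EuclideanSpace.basisFun (Fin 12) ℝ).sum_repr y
    simp only [EuclideanSpace.basisFun_repr, EuclideanSpace.basisFun_apply] at this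
    exact this.symm
  conv_lhs => rw [h]
  simp [map_sum, map_smul]

private theorem p2_swap (O : R12 ≃ₗᵢ[ℝ] R12) (y : R12) (c : Fin 12 → ℂ) (D : ℂ) :
    ∑ j : Fin 12, c j * (((O y j : ℝ) : ℂ) / 2 * D) =
      ∑ i : Fin 12, (∑ j : Fin 12, c j * ((O (ee i) j : ℝ) : ℂ)) * (((y i : ℝ) : ℂ) / 2 * D) := by
  simp only [Finset.sum_mul]
  rw [Finset.sum_comm]
  refine Finset.sum_congr rfl (fun j _ => ?_)
  rw [p2_coord O y j]
  push_cast
  rw [Finset.sum_div, Finset.sum_mul, Finset.mul_sum]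
  refine Finset.sum_congr rfl (fun i _ => ?_)
  ring

/-- (O y)_j = Σ_i O_{ji} y_i with real coefficients -/
theorem EE_rot : RotInv (EE n b q) := by
  rintro O f ⟨c, rfl⟩
  refine ⟨fun i => match i with
    | none => c none
    | some none => c (some none)
    | some (some i) => ∑ j : Fin 12, c (some (some j)) * ((O (ee i) j : ℝ) : ℂ), ?_⟩
  funext y
  simp only [Phi, LinearMap.coe_mk, AddHom.coe_mk, Fintype.sum_option, bm0,
    LinearIsometryEquiv.norm_map]
  ext
  · simp only []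
    rw [p2_swap O y (fun j => c (some (some j)))]
  · simp only [map_mul (starRingEnd ℂ) (_ / 2), map_div₀, Complex.conj_ofReal, map_ofNat]
    rw [p2_swap O y (fun j => c (some (some j)))]

private theorem p2_c2 {A : R12 → ℂ} (hA : X1 n b q k A) : ContDiff ℝ 2 A :=
  hA.contDiff.of_le (by exact_mod_cast (by omega : 2 ≤ k + 2))

private theorem p2_fd_add {A B : R12 → ℂ} (hA : ContDiff ℝ 2 A) (hB : ContDiff ℝ 2 B) (y v : R12) :
    fderiv ℝ (fun y => A y + B y) y v = fderiv ℝ A y v + fderiv ℝ B y v := by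
  rw [fderiv_fun_add (hA.differentiable (by simp) y) (hB.differentiable (by simp) y)]
  rfl

private theorem p2_fd_mul {A : R12 → ℂ} (hA : ContDiff ℝ 2 A) (c : ℂ) (y v : R12) :
    fderiv ℝ (fun y => c * A y) y v = c * fderiv ℝ A y v := by
  rw [fderiv_const_mul (hA.differentiable (by simp) y)]
  rfl

private theorem p2_fd_conj {A : R12 → ℂ} (hA : ContDiff ℝ 2 A) (y v : R12) :
    fderiv ℝ (fun y => conj (A y)) y v = conj (fderiv ℝ A y v) := by
  have h := (Complex.conjCLE.hasFDerivAt (x := A y)).comp y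
    (hA.differentiable (by simp) y).hasFDerivAt
  have e : (fun y => conj (A y)) = Complex.conjCLE ∘ A := rfl
  rw [e, h.fderiv]
  rfl

private theorem p2_cd_conj {A : R12 → ℂ} (hA : ContDiff ℝ 2 A) : ContDiff ℝ 2 (fun y => conj (A y)) :=
  Complex.conjCLE.contDiff.comp hA

private theorem p2_LL_add {A B : R12 → ℂ} (hA : ContDiff ℝ 2 A) (hB : ContDiff ℝ 2 B) :
    LL n b q (fun y => A y + B y) = fun y => LL n b q A y + LL n b q B y := by
  funext y
  unfold LL
  rw [lap_add hA hB, p2_fd_add hA hB, map_add]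
  ring

private theorem p2_LL_smul {A : R12 → ℂ} (hA : ContDiff ℝ 2 A) (c : ℝ) :
    LL n b q (fun y => (c : ℂ) * A y) = fun y => (c : ℂ) * LL n b q A y := by
  funext y
  unfold LL
  rw [lap_const_mul hA, p2_fd_mul hA, map_mul, Complex.conj_ofReal]
  ring

private theorem p2_LL_rot {A : R12 → ℂ} (hA : ContDiff ℝ 2 A) (O : R12 ≃ₗᵢ[ℝ] R12) :
    LL n b q (fun y => A (O y)) = fun y => LL n b q A (O y) := by
  funext y
  unfold LL
  have h := (hA.differentiable (by simp) (O y)).hasFDerivAt.comp y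
    (O.toContinuousLinearEquiv.hasFDerivAt (x := y))
  have e : (fun y => A (O y)) = A ∘ O := rfl
  rw [lap_isometry hA, LinearIsometryEquiv.norm_map, e, h.fderiv]
  rfl

theorem LL2_add {f g : VV} (hf : f ∈ XX n b q k) (hg : g ∈ XX n b q k) :
    LL2 n b q (f + g) = LL2 n b q f + LL2 n b q g := by
  rw [← mk2_pA_pB (LL2 n b q f + LL2 n b q g), pA_add, pB_add]
  unfold LL2
  rw [pA_add, pB_add, p2_LL_add (p2_c2 hf.1) (p2_c2 hg.1), p2_LL_add (p2_c2 hf.2) (p2_c2 hg.2)]
  simp only [pA_mk2, pB_mk2]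

theorem LL2_smul (c : ℂ) {f : VV} (hf : f ∈ XX n b q k) : LL2 n b q (c • f) = c • LL2 n b q f := by
  rw [← mk2_pA_pB (c • LL2 n b q f), pA_smul, pB_smul]
  unfold LL2
  have hA := p2_c2 hf.1
  have hB := p2_c2 hf.2
  rw [pA_smul, pB_smul, p2_LL_add (contDiff_const.mul hA) (contDiff_const.mul hB),
    p2_LL_add (contDiff_const.mul hA) (contDiff_const.mul hB), p2_LL_smul hA, p2_LL_smul hA,
    p2_LL_smul hB, p2_LL_smul hB]
  simp only [pA_mk2, pB_mk2]

theorem LL2_rot {f : VV} (hf : f ∈ XX n b q k) (O : R12 ≃ₗᵢ[ℝ] R12) :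
    LL2 n b q (fun y => f (O y)) = fun y => LL2 n b q f (O y) := by
  unfold LL2
  have e1 : pA (fun y => f (O y)) = fun y => pA f (O y) := rfl
  have e2 : pB (fun y => f (O y)) = fun y => pB f (O y) := rfl
  rw [e1, e2, p2_LL_rot (p2_c2 hf.1), p2_LL_rot (p2_c2 hf.2)]
  rfl

/-- the generator in terms of the two components (V1 is real) -/
theorem LL2_apply {f : VV} (hf : f ∈ XX n b q k) (y : R12) :
    (LL2 n b q f y).1 = Complex.I * lap (c1 f) y - ((aa n : ℂ) - Complex.I * b) * c1 f y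
      - fderiv ℝ (c1 f) y y / 2
      - Complex.I * (V1 n (q (‖y‖ ^ 2 / 4)) * c1 f y + V2 n (q (‖y‖ ^ 2 / 4)) * c2 f y) ∧
    (LL2 n b q f y).2 = -Complex.I * lap (c2 f) y - ((aa n : ℂ) + Complex.I * b) * c2 f y
      - fderiv ℝ (c2 f) y y / 2
      + Complex.I * (V1 n (q (‖y‖ ^ 2 / 4)) * c2 f y + conj (V2 n (q (‖y‖ ^ 2 / 4))) * c1 f y) := by
  have hA := p2_c2 hf.1
  have hB := p2_c2 hf.2
  have e1 : c1 f = fun y => pA f y + Complex.I * pB f y := by
    conv_lhs => rw [← mk2_pA_pB f]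
    rfl
  have e2 : c2 f = fun y => conj (pA f y) + Complex.I * conj (pB f y) := by
    conv_lhs => rw [← mk2_pA_pB f]
    rfl
  have hV : conj (V1 n (q (‖y‖ ^ 2 / 4))) = V1 n (q (‖y‖ ^ 2 / 4)) := by
    unfold V1
    simp only [map_mul, map_add, map_natCast, map_one, map_pow, Complex.conj_conj]
    ring
  constructor
  · rw [e1, e2, lap_add hA (contDiff_const.mul hB), lap_const_mul hB,
      p2_fd_add hA (contDiff_const.mul hB), p2_fd_mul hB]
    simp only [LL2, mk2, LL]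
    ring
  · rw [e1, e2, lap_add (p2_cd_conj hA) (contDiff_const.mul (p2_cd_conj hB)),
      lap_const_mul (p2_cd_conj hB), p2_fd_add (p2_cd_conj hA) (contDiff_const.mul (p2_cd_conj hB)),
      p2_fd_mul (p2_cd_conj hB), lap_conj hA, lap_conj hB, p2_fd_conj hA, p2_fd_conj hB]
    simp only [LL2, mk2, LL, map_sub, map_add, map_mul, map_div₀, hV, Complex.conj_I,
      Complex.conj_conj, Complex.conj_ofReal, map_ofNat]
    ring

end

end Crest.Agent.R086.C
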