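import Crest.Agent.R086.C.Sp2

/-! # Row 86, part C: complexification.  A pair f = (f₁,f₂) = (A+iB, Ā+iB̄) with A, B data of real-linear solutions -/

open MeasureTheory Set Filter Topology
open scoped ContDiff ComplexConjugate ENNReal
open Crest.AnalysisR.PDE.NLS

namespace Crest.Agent.R086.C

noncomputable section

abbrev VV : Type := R12 → ℂ × ℂ

def pA (f : VV) : R12 → ℂ := fun y => ((f y).1 + conj (f y).2) / 2
def pB (f : VV) : R12 → ℂ := fun y => ((f y).1 - conj (f y).2) / (2 * Complex.I)
def mk2 (A B : R12 → ℂ) : VV := fun y => (A y + Complex.I * B y, conj (A y) + Complex.I * conj (B y))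

theorem pA_mk2 (A B : R12 → ℂ) : pA (mk2 A B) = A := by
  funext y; simp only [pA, mk2, map_add, map_mul, Complex.conj_conj, Complex.conj_I]; ring

theorem pB_mk2 (A B : R12 → ℂ) : pB (mk2 A B) = B := by
  funext y; simp only [pB, mk2, map_add, map_mul, Complex.conj_conj, Complex.conj_I]
  field_simp; ring

theorem mk2_pA_pB (f : VV) : mk2 (pA f) (pB f) = f := by
  funext y
  simp only [mk2, pA, pB, map_div₀, map_add, map_sub, map_mul, Complex.conj_conj, Complex.conj_I,
    map_ofNat]
  ext
  · simp only; field_simp; ring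
  · simp only; field_simp; ring

theorem pA_add (f g : VV) : pA (f + g) = fun y => pA f y + pA g y := by
  funext y; simp only [pA, Pi.add_apply, Prod.fst_add, Prod.snd_add, map_add]; ring

theorem pB_add (f g : VV) : pB (f + g) = fun y => pB f y + pB g y := by
  funext y; simp only [pB, Pi.add_apply, Prod.fst_add, Prod.snd_add, map_add]; ring

theorem pA_zero : pA 0 = fun _ => 0 := by funext y; simp [pA]
theorem pB_zero : pB 0 = fun _ => 0 := by funext y; simp [pB]

theorem pA_smul (c : ℂ) (f : VV) :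
    pA (c • f) = fun y => (c.re : ℂ) * pA f y + ((-c.im : ℝ) : ℂ) * pB f y := by
  funext y
  simp only [pA, pB, Pi.smul_apply, Prod.smul_fst, Prod.smul_snd, smul_eq_mul, map_mul]
  have h1 : c = c.re + c.im * Complex.I := (Complex.re_add_im c).symm
  have h2 : conj c = c.re - c.im * Complex.I := by
    apply Complex.ext <;> simp
  rw [h2]; nth_rewrite 1 [h1]
  push_cast; field_simp
  linear_combination (c.im * (f y).1 - c.im * conj (f y).2) * Complex.I_sq

theorem pB_smul (c : ℂ) (f : VV) :
    pB (c • f) = fun y => (c.im : ℂ) * pA f y + (c.re : ℂ) * pB f y := by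
  funext y
  simp only [pA, pB, Pi.smul_apply, Prod.smul_fst, Prod.smul_snd, smul_eq_mul, map_mul]
  have h1 : c = c.re + c.im * Complex.I := (Complex.re_add_im c).symm
  have h2 : conj c = c.re - c.im * Complex.I := by
    apply Complex.ext <;> simp
  rw [h2]; nth_rewrite 1 [h1]
  field_simp; ring

variable (n : ℕ) (b : ℝ) (q : ℝ → ℂ)

/-- the complex space of data at level k -/
def XX (k : ℕ) : Submodule ℂ VV where
  carrier := {f | X1 n b q k (pA f) ∧ X1 n b q k (pB f)}
  add_mem' := by
    rintro f g ⟨h1, h2⟩ ⟨h3, h4⟩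
    exact ⟨pA_add f g ▸ h1.add h3, pB_add f g ▸ h2.add h4⟩
  zero_mem' := ⟨pA_zero ▸ X1.zero, pB_zero ▸ X1.zero⟩
  smul_mem' := by
    rintro c f ⟨h1, h2⟩
    exact ⟨pA_smul c f ▸ (h1.smul _).add (h2.smul _), pB_smul c f ▸ (h1.smul _).add (h2.smul _)⟩

/-- the norm of a pair -/
def Nf (k : ℕ) (f : VV) : ℝ := (nrm k 0 (c1 f) + nrm k 0 (c2 f)).toReal

/-- the rescaled solution operator on pairs -/
def TT (k₀ : ℕ) (t : ℝ) (f : VV) : VV := mk2 (T1 n b q k₀ t (pA f)) (T1 n b q k₀ t (pB f))

/-- the generator on pairs -/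
def LL2 (f : VV) : VV := mk2 (LL n b q (pA f)) (LL n b q (pB f))

def Wk2 (k₀ : ℕ) (f : ℕ → VV) : Prop :=
  Wk1 n b q k₀ (fun l => pA (f l)) ∧ Wk1 n b q k₀ (fun l => pB (f l))

/-- the complexified modes -/
def Phi : (Ix → ℂ) →ₗ[ℂ] VV where
  toFun c := fun y => (∑ i, c i * bm0 n b q i y, ∑ i, c i * conj (bm0 n b q i y))
  map_add' c d := by
    funext y
    ext <;> simp only [Pi.add_apply, add_mul, Finset.sum_add_distrib, Prod.fst_add, Prod.snd_add]
  map_smul' a c := by
    funext y
    ext <;> simp only [Pi.smul_apply, smul_eq_mul, RingHom.id_apply, Prod.smul_fst, Prod.smul_snd,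
      Finset.mul_sum, mul_assoc]

def EE : Submodule ℂ VV := LinearMap.range (Phi n b q)

instance : FiniteDimensional ℂ (EE n b q) := by
  unfold EE; infer_instance

end

end Crest.Agent.R086.C
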