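import Mathlib

/-! # Row 86, part C: the quotient seminorm -/

open Filter Topology

namespace Crest.Agent.R086.C

noncomputable section

variable {X : Type*} [AddCommGroup X] [Module ℂ X]

/-- distance to the subspace E -/
def qN (N : Seminorm ℂ X) (E : Submodule ℂ X) (x : X) : ℝ := ⨅ e : E, N (x - e)

theorem qN_bdd (N : Seminorm ℂ X) (E : Submodule ℂ X) (x : X) :
    BddBelow (Set.range fun e : E => N (x - e)) :=
  ⟨0, by rintro _ ⟨e, rfl⟩; exact apply_nonneg _ _⟩

theorem qN_nonneg (N : Seminorm ℂ X) (E : Submodule ℂ X) (x : X) : 0 ≤ qN N E x :=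
  le_ciInf fun _ => apply_nonneg _ _

theorem qN_le (N : Seminorm ℂ X) (E : Submodule ℂ X) (x : X) {e : X} (he : e ∈ E) :
    qN N E x ≤ N (x - e) := ciInf_le (qN_bdd N E x) ⟨e, he⟩

theorem qN_le_self (N : Seminorm ℂ X) (E : Submodule ℂ X) (x : X) : qN N E x ≤ N x := by
  simpa using qN_le N E x E.zero_mem

theorem le_qN (N : Seminorm ℂ X) (E : Submodule ℂ X) (x : X) {c : ℝ}
    (h : ∀ e ∈ E, c ≤ N (x - e)) : c ≤ qN N E x := le_ciInf fun e => h e e.2

theorem exists_lt_qN (N : Seminorm ℂ X) (E : Submodule ℂ X) (x : X) {ε : ℝ} (hε : 0 < ε) :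
    ∃ e ∈ E, N (x - e) < qN N E x + ε := by
  obtain ⟨e, he⟩ := exists_lt_of_ciInf_lt (f := fun e : E => N (x - e))
    (lt_add_of_pos_right (qN N E x) hε)
  exact ⟨e, e.2, he⟩

theorem qN_sub_mem (N : Seminorm ℂ X) (E : Submodule ℂ X) (x : X) {e : X} (he : e ∈ E) :
    qN N E (x - e) = qN N E x := by
  apply le_antisymm
  · refine le_qN N E x fun e' he' => ?_
    have := qN_le N E (x - e) (E.sub_mem he' he)
    simpa [sub_sub] using this
  · refine le_qN N E _ fun e' he' => ?_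
    have := qN_le N E x (E.add_mem he he')
    simpa [sub_sub] using this

theorem qN_add_le (N : Seminorm ℂ X) (E : Submodule ℂ X) (x y : X) :
    qN N E (x + y) ≤ qN N E x + qN N E y := by
  refine le_of_forall_pos_le_add fun ε hε => ?_
  obtain ⟨e, he, h1⟩ := exists_lt_qN N E x (half_pos hε)
  obtain ⟨e', he', h2⟩ := exists_lt_qN N E y (half_pos hε)
  have h3 := qN_le N E (x + y) (E.add_mem he he')
  have h4 : x + y - (e + e') = (x - e) + (y - e') := by abel
  have h5 := map_add_le_add N (x - e) (y - e')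
  rw [h4] at h3
  linarith

theorem qN_smul_le (N : Seminorm ℂ X) (E : Submodule ℂ X) (c : ℂ) (x : X) :
    qN N E (c • x) ≤ ‖c‖ * qN N E x := by
  refine le_of_forall_pos_le_add fun ε hε => ?_
  have hc : 0 < ‖c‖ + 1 := by positivity
  obtain ⟨e, he, h1⟩ := exists_lt_qN N E x (div_pos hε hc)
  have h3 := qN_le N E (c • x) (E.smul_mem c he)
  rw [← smul_sub, map_smul_eq_mul] at h3
  have h4 : ‖c‖ * N (x - e) ≤ ‖c‖ * (qN N E x + ε / (‖c‖ + 1)) :=
    mul_le_mul_of_nonneg_left h1.le (norm_nonneg _)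
  have h5 : ‖c‖ * (ε / (‖c‖ + 1)) ≤ ε := by
    rw [mul_div_assoc', div_le_iff₀ hc]; nlinarith [norm_nonneg c]
  nlinarith

theorem qN_smul (N : Seminorm ℂ X) (E : Submodule ℂ X) (c : ℂ) (x : X) :
    qN N E (c • x) = ‖c‖ * qN N E x := by
  refine le_antisymm (qN_smul_le N E c x) ?_
  by_cases hc : c = 0
  · simp [hc, qN_nonneg]
  · have h := qN_smul_le N E c⁻¹ (c • x)
    rw [smul_smul, inv_mul_cancel₀ hc, one_smul, norm_inv] at h
    have hc' : 0 < ‖c‖ := norm_pos_iff.2 hc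
    calc ‖c‖ * qN N E x ≤ ‖c‖ * (‖c‖⁻¹ * qN N E (c • x)) :=
          mul_le_mul_of_nonneg_left h hc'.le
      _ = qN N E (c • x) := by field_simp

/-- the quotient seminorm as a seminorm on X -/
def qS (N : Seminorm ℂ X) (E : Submodule ℂ X) : Seminorm ℂ X :=
  Seminorm.of (qN N E) (qN_add_le N E) (qN_smul N E)

@[simp] theorem qS_apply (N : Seminorm ℂ X) (E : Submodule ℂ X) (x : X) : qS N E x = qN N E x := rfl

theorem qN_map_le (N : Seminorm ℂ X) (E : Submodule ℂ X) (T : X →ₗ[ℂ] X) {C : ℝ} (hC : 0 ≤ C)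
    (hT : ∀ x, N (T x) ≤ C * N x) (hE : ∀ e ∈ E, T e ∈ E) (x : X) :
    qN N E (T x) ≤ C * qN N E x := by
  refine le_of_forall_pos_le_add fun ε hε => ?_
  have hc : 0 < C + 1 := by positivity
  obtain ⟨e, he, h1⟩ := exists_lt_qN N E x (div_pos hε hc)
  have h3 := qN_le N E (T x) (hE e he)
  rw [← map_sub] at h3
  have h4 : C * N (x - e) ≤ C * (qN N E x + ε / (C + 1)) := mul_le_mul_of_nonneg_left h1.le hC
  have h5 : C * (ε / (C + 1)) ≤ ε := by
    rw [mul_div_assoc', div_le_iff₀ hc]; nlinarith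
  have := hT (x - e)
  nlinarith

end

end Crest.Agent.R086.C
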