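import Crest.Agent.R086.C.RotDef

/-! # Row 86, part C: plane rotations and their generators (task) -/

open Set Filter Topology
open scoped ContDiff ComplexConjugate RealInnerProductSpace
open Crest.AnalysisR.PDE.NLS

namespace Crest.Agent.R086.C

noncomputable section

theorem Rot_norm_aux (u v y : R12) (hu : ‖u‖ = 1) (hv : ‖v‖ = 1) (huv : ⟪u, v⟫ = 0) (α β : ℝ) :
    ‖y + α • u + β • v‖ ^ 2 = ‖y‖ ^ 2 + 2 * α * ⟪u, y⟫ + 2 * β * ⟪v, y⟫ + α ^ 2 + β ^ 2 := by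
  have huu : ⟪u, u⟫ = 1 := by rw [real_inner_self_eq_norm_sq, hu]; norm_num
  have hvv : ⟪v, v⟫ = 1 := by rw [real_inner_self_eq_norm_sq, hv]; norm_num
  have hvu : ⟪v, u⟫ = 0 := by rw [real_inner_comm]; exact huv
  rw [← real_inner_self_eq_norm_sq, ← real_inner_self_eq_norm_sq]
  simp only [inner_add_left, inner_add_right, real_inner_smul_left, real_inner_smul_right, huu, hvv,
    huv, hvu, real_inner_comm u y, real_inner_comm v y]
  ring

/-- The rotation by θ in the plane of the orthonormal pair (u,v):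
y ↦ y + (cos θ - 1)(⟪u,y⟫u + ⟪v,y⟫v) + sin θ (⟪u,y⟫v - ⟪v,y⟫u).  (Build a `LinearIsometry` - the norm is computed by expanding
the inner product - and use `LinearIsometry.toLinearIsometryEquiv`.) -/
theorem exists_rot (u v : R12) (hu : ‖u‖ = 1) (hv : ‖v‖ = 1) (huv : ⟪u, v⟫ = 0) (θ : ℝ) :
    ∃ O : R12 ≃ₗᵢ[ℝ] R12, ∀ y, O y = y + (Real.cos θ - 1) • (⟪u, y⟫ • u + ⟪v, y⟫ • v)
      + Real.sin θ • (⟪u, y⟫ • v - ⟪v, y⟫ • u) := by
  let L : R12 →L[ℝ] R12 := ContinuousLinearMap.id ℝ R12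
    + (Real.cos θ - 1) • ((innerSL ℝ u).smulRight u + (innerSL ℝ v).smulRight v)
    + Real.sin θ • ((innerSL ℝ u).smulRight v - (innerSL ℝ v).smulRight u)
  have hL : ∀ y, L y = y + (Real.cos θ - 1) • (⟪u, y⟫ • u + ⟪v, y⟫ • v)
      + Real.sin θ • (⟪u, y⟫ • v - ⟪v, y⟫ • u) := fun y => rfl
  have hn : ∀ y, ‖L y‖ = ‖y‖ := by
    intro y
    have e : L y = y + ((Real.cos θ - 1) * ⟪u, y⟫ - Real.sin θ * ⟪v, y⟫) • u
        + ((Real.cos θ - 1) * ⟪v, y⟫ + Real.sin θ * ⟪u, y⟫) • v := by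
      rw [hL]; module
    have h2 : ‖L y‖ ^ 2 = ‖y‖ ^ 2 := by
      rw [e, Rot_norm_aux u v y hu hv huv]
      have := Real.sin_sq_add_cos_sq θ
      linear_combination (⟪u, y⟫ ^ 2 + ⟪v, y⟫ ^ 2) * this
    exact (pow_left_inj₀ (norm_nonneg _) (norm_nonneg _) two_ne_zero).1 h2
  let I : R12 →ₗᵢ[ℝ] R12 := ⟨L.toLinearMap, hn⟩
  exact ⟨I.toLinearIsometryEquiv rfl, fun y => hL y⟩

theorem Rot_norm_ee (i : Fin 12) : ‖ee i‖ = 1 := by simp [ee]

theorem Rot_inner_ee (i : Fin 12) (y : R12) : ⟪ee i, y⟫ = y i := by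
  simp [ee, EuclideanSpace.inner_single_left]

theorem Rot_ee_self (i : Fin 12) : ee i i = 1 := by simp [ee]

theorem Rot_ee_ne {i j : Fin 12} (h : i ≠ j) : ee i j = 0 := by simp [ee, h.symm]

/-- the reflection y₁ ↦ -y₁ -/
theorem exists_refl : ∃ O : R12 ≃ₗᵢ[ℝ] R12, ∀ y, O y = y - (2 * y 1) • ee 1 := by
  let L : R12 →L[ℝ] R12 := ContinuousLinearMap.id ℝ R12
    - (2 : ℝ) • ((innerSL ℝ (ee 1)).smulRight (ee 1))
  have hL : ∀ y, L y = y - (2 * y 1) • ee 1 := by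
    intro y
    show y - (2 : ℝ) • (⟪ee 1, y⟫ • ee 1) = _
    rw [Rot_inner_ee, smul_smul]
  have hn : ∀ y, ‖L y‖ = ‖y‖ := by
    intro y
    have e : L y = y + (-(2 * y 1)) • ee 1 + (0 : ℝ) • ee 2 := by
      rw [hL]; module
    have h2 : ‖L y‖ ^ 2 = ‖y‖ ^ 2 := by
      rw [e, Rot_norm_aux (ee 1) (ee 2) y (Rot_norm_ee 1) (Rot_norm_ee 2)
        (by rw [Rot_inner_ee]; exact Rot_ee_ne (by decide)), Rot_inner_ee]
      ring
    exact (pow_left_inj₀ (norm_nonneg _) (norm_nonneg _) two_ne_zero).1 h2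
  let I : R12 →ₗᵢ[ℝ] R12 := ⟨L.toLinearMap, hn⟩
  exact ⟨I.toLinearIsometryEquiv rfl, fun y => hL y⟩

/-- the generator of the rotations in the (i,j)-plane -/
def AA (i j : Fin 12) : R12 →L[ℝ] R12 :=
  (EuclideanSpace.proj i : R12 →L[ℝ] ℝ).smulRight (ee j) - (EuclideanSpace.proj j : R12 →L[ℝ] ℝ).smulRight (ee i)

/-- derivative along the linear vector field A -/
def Om (A : R12 →L[ℝ] R12) (f : R12 → ℂ × ℂ) (y : R12) : ℂ × ℂ := fderiv ℝ f y (A y)

theorem AA_apply (i j : Fin 12) (y : R12) : AA i j y = y i • ee j - y j • ee i := by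
  rfl

/-- commutator: Ω_AΩ_B f (y) = D²f(y)(Ay,By) + Df(y)(B A y), and D²f is symmetric -/
theorem Om_comm (A B : R12 →L[ℝ] R12) (f : R12 → ℂ × ℂ) (hf : ContDiff ℝ 2 f) (y : R12) :
    Om A (Om B f) y - Om B (Om A f) y = Om (B.comp A - A.comp B) f y := by
  have h1 : ContDiff ℝ 1 (fderiv ℝ f) := hf.fderiv_right (m := 1) (by norm_num)
  have hd : HasFDerivAt (fderiv ℝ f) (fderiv ℝ (fderiv ℝ f) y) y :=
    (h1.differentiable one_ne_zero y).hasFDerivAt
  have key : ∀ C D : R12 →L[ℝ] R12, Om C (Om D f) y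
      = fderiv ℝ (fderiv ℝ f) y (C y) (D y) + fderiv ℝ f y (D (C y)) := by
    intro C D
    have := hd.clm_apply (D.hasFDerivAt (x := y))
    show fderiv ℝ (fun y => fderiv ℝ f y (D y)) y (C y) = _
    rw [this.fderiv]
    simp [add_comm]
  have hs : IsSymmSndFDerivAt ℝ f y := hf.contDiffAt.isSymmSndFDerivAt (by simp)
  rw [key, key, hs.eq (A y) (B y)]
  simp only [Om, sub_apply, ContinuousLinearMap.comp_apply, map_sub]
  abel

/-- the rotation path in the (i,j)-plane -/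
def Rot_path (i j : Fin 12) (y : R12) (θ : ℝ) : R12 :=
  y + (Real.cos θ - 1) • (y i • ee i + y j • ee j) + Real.sin θ • (y i • ee j - y j • ee i)

theorem Rot_path_zero (i j : Fin 12) (y : R12) : Rot_path i j y 0 = y := by
  simp [Rot_path]

theorem Rot_path_deriv {i j : Fin 12} (hij : i ≠ j) (y : R12) (θ : ℝ) :
    HasDerivAt (Rot_path i j y) (AA i j (Rot_path i j y θ)) θ := by
  have h1 := ((((Real.hasDerivAt_cos θ).sub_const 1).smul_const (y i • ee i + y j • ee j)).const_add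
    y).add ((Real.hasDerivAt_sin θ).smul_const (y i • ee j - y j • ee i))
  have hi : Rot_path i j y θ i = Real.cos θ * y i - Real.sin θ * y j := by
    simp [Rot_path, Rot_ee_self, Rot_ee_ne hij.symm]; ring
  have hj : Rot_path i j y θ j = Real.cos θ * y j + Real.sin θ * y i := by
    simp [Rot_path, Rot_ee_self, Rot_ee_ne hij]; ring
  have e : AA i j (Rot_path i j y θ) = -Real.sin θ • (y i • ee i + y j • ee j)
      + Real.cos θ • (y i • ee j - y j • ee i) := by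
    rw [AA_apply, hi, hj]; module
  rw [e]
  exact h1

theorem Rot_comp_deriv {i j : Fin 12} (hij : i ≠ j) {f : R12 → ℂ × ℂ} (hf : ContDiff ℝ 1 f) (y : R12)
    (θ : ℝ) : HasDerivAt (fun t => f (Rot_path i j y t)) (Om (AA i j) f (Rot_path i j y θ)) θ :=
  (hf.differentiable one_ne_zero _).hasFDerivAt.comp_hasDerivAt θ (Rot_path_deriv hij y θ)

/-- a finite-dimensional rotation-invariant space of C¹ functions is invariant under the generators:
(f∘R_θ - f)/θ → Ω f pointwise and the space is closed for pointwise convergence (`Submodule.closed_of_finiteDimensional`). -/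
theorem Om_mem (H : Submodule ℂ (R12 → ℂ × ℂ)) [FiniteDimensional ℂ H] (hH : RotInv H)
    (hs : ∀ f ∈ H, ContDiff ℝ 1 f) (i j : Fin 12) (hij : i ≠ j) (f : R12 → ℂ × ℂ) (hf : f ∈ H) :
    Om (AA i j) f ∈ H := by
  have hcl : IsClosed (H : Set (R12 → ℂ × ℂ)) := H.closed_of_finiteDimensional
  have hmem : ∀ θ : ℝ, (fun y => f (Rot_path i j y θ)) ∈ H := by
    intro θ
    obtain ⟨O, hO⟩ := exists_rot (ee i) (ee j) (Rot_norm_ee i) (Rot_norm_ee j)
      (by rw [Rot_inner_ee]; exact Rot_ee_ne hij.symm) θ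
    have := hH O f hf
    simp only [hO, Rot_inner_ee] at this
    exact this
  have ht : Tendsto (fun t : ℝ => ((t⁻¹ : ℝ) : ℂ) • ((fun y => f (Rot_path i j y t)) - f)) (𝓝[≠] 0)
      (𝓝 (Om (AA i j) f)) := by
    refine tendsto_pi_nhds.2 fun y => ?_
    have := hasDerivAt_iff_tendsto_slope_zero.1 (Rot_comp_deriv hij (hs f hf) y 0)
    simp only [Rot_path_zero, zero_add] at this
    refine this.congr fun t => ?_
    simp only [Pi.smul_apply, Pi.sub_apply]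
    exact (Complex.coe_smul _ _).symm
  exact hcl.mem_of_tendsto ht (Eventually.of_forall fun t =>
    H.smul_mem _ (H.sub_mem (hmem t) hf))

/-- an eigenfunction of Ω₀₁ : g(θ) = f(R_θ y) solves g' = c g -/
theorem rot_of_eig (f : R12 → ℂ × ℂ) (hf : ContDiff ℝ 1 f) (c : ℂ)
    (h : ∀ y, Om (AA 0 1) f y = c • f y) (θ : ℝ) (y : R12) :
    f (y + (Real.cos θ - 1) • (y 0 • ee 0 + y 1 • ee 1) + Real.sin θ • (y 0 • ee 1 - y 1 • ee 0))
      = Complex.exp (c * θ) • f y := by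
  show f (Rot_path 0 1 y θ) = _
  have hG : ∀ t : ℝ, HasDerivAt (fun t : ℝ => Complex.exp (-(c * t)) • f (Rot_path 0 1 y t)) 0 t := by
    intro t
    have h1 : HasDerivAt (fun t : ℝ => Complex.exp (-(c * t))) (Complex.exp (-(c * t)) * (-c)) t := by
      have := ((Complex.ofRealCLM.hasDerivAt (x := t)).const_mul c).neg.cexp
      simpa using this
    have h2 := h1.smul (Rot_comp_deriv (i := 0) (j := 1) (by decide) hf y t)
    rw [h] at h2
    refine h2.congr_deriv ?_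
    rw [smul_smul, ← add_smul]
    simp
  have hc := is_const_of_deriv_eq_zero (fun t => (hG t).differentiableAt) (fun t => (hG t).deriv) θ 0
  simp only [Rot_path_zero, Complex.ofReal_zero, mul_zero, neg_zero, Complex.exp_zero, one_smul] at hc
  rw [← hc, smul_smul, ← Complex.exp_add]
  simp

theorem Rot_sum_ee (w : R12) : ∑ j, w j • ee j = w := by
  ext k
  simp [ee, Pi.single_apply]

theorem Rot_norm_sq (w : R12) : ‖w‖ ^ 2 = ∑ j, w j * w j := by
  rw [EuclideanSpace.norm_sq_eq]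
  simp [sq]

theorem Rot_key (f : R12 → ℂ × ℂ) (m : ℕ)
    (h : ∀ y, Om (AA 0 1) f y = (Complex.I * m) • f y)
    (hR : ∀ j : Fin 12, j ≠ 0 → j ≠ 1 → ∀ y, Om (AA 0 j) f y + Complex.I • Om (AA 1 j) f y = 0)
    (w : R12) (h0 : w 0 = 0) (h1 : w 1 = 0) (a t : ℝ) (ha : a ≠ 0) :
    fderiv ℝ f (a • ee 0 + t • w) ((-(t * ‖w‖ ^ 2) / a) • ee 0 + w)
      = (m * (-(t * ‖w‖ ^ 2) / a) / a : ℝ) • f (a • ee 0 + t • w) := by
  set p : R12 := a • ee 0 + t • w with hp
  set D := fderiv ℝ f p with hD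
  have p0 : p 0 = a := by simp [hp, Rot_ee_self, h0]
  have p1 : p 1 = 0 := by simp [hp, Rot_ee_ne (show (0 : Fin 12) ≠ 1 by decide), h1]
  have e1 : a • D (ee 1) = (Complex.I * m) • f p := by
    have := h p
    simp only [Om, AA_apply, p0, p1, zero_smul, sub_zero, map_smul] at this
    exact this
  have e2 : ∀ j, (w j * a) • D (ee j) - (t * (w j * w j)) • D (ee 0)
      - (t * (w j * w j)) • (Complex.I • D (ee 1)) = 0 := by
    intro j
    by_cases hj0 : j = 0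
    · subst hj0; simp [h0]
    by_cases hj1 : j = 1
    · subst hj1; simp [h1]
    have pj : p j = t * w j := by simp [hp, Rot_ee_ne (Ne.symm hj0)]
    have := hR j hj0 hj1 p
    simp only [Om, AA_apply, p0, p1, pj, zero_smul, zero_sub, map_smul, map_sub, map_neg] at this
    rw [← hD] at this
    have h3 := congrArg (fun z => w j • z) this
    simp only [smul_zero] at h3
    rw [← h3, smul_neg, smul_comm Complex.I (t * w j)]
    module
  have e3 : a • D w - (t * ‖w‖ ^ 2) • D (ee 0) - (t * ‖w‖ ^ 2) • (Complex.I • D (ee 1)) = 0 := by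
    have := Finset.sum_eq_zero (s := Finset.univ) fun j _ => e2 j
    rw [Finset.sum_sub_distrib, Finset.sum_sub_distrib, ← Finset.sum_smul, ← Finset.sum_smul,
      ← Finset.mul_sum, ← Rot_norm_sq] at this
    rw [← this]
    congr 2
    conv_lhs => rw [← Rot_sum_ee w]
    rw [map_sum, Finset.smul_sum]
    refine Finset.sum_congr rfl fun j _ => ?_
    rw [map_smul, smul_smul, mul_comm]
  have e4 : a • (Complex.I • D (ee 1)) = (-(m : ℝ)) • f p := by
    rw [smul_comm, e1, smul_smul, ← mul_assoc, Complex.I_mul_I, ← Complex.coe_smul]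
    simp
  have e5 : Complex.I • D (ee 1) = (-(m : ℝ) / a) • f p := by
    have := congrArg (fun z => a⁻¹ • z) e4
    simp only [smul_smul, inv_mul_cancel₀ ha, one_smul] at this
    rw [this]; congr 1; field_simp
  have e6 : D w = ((t * ‖w‖ ^ 2) / a) • D (ee 0) + ((t * ‖w‖ ^ 2) / a * (-(m : ℝ) / a)) • f p := by
    rw [e5] at e3
    have e7 : a • D w = (t * ‖w‖ ^ 2) • D (ee 0) + (t * ‖w‖ ^ 2) • (-(m : ℝ) / a) • f p := by
      rw [← sub_eq_zero, ← e3]; abel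
    have := congrArg (fun z => a⁻¹ • z) e7
    simp only [smul_smul, inv_mul_cancel₀ ha, one_smul, smul_add] at this
    rw [this]
    congr 2 <;> field_simp
  rw [map_add, map_smul, e6, ← add_assoc, ← add_smul]
  have : -(t * ‖w‖ ^ 2) / a + t * ‖w‖ ^ 2 / a = 0 := by ring
  rw [this, zero_smul, zero_add]
  congr 1
  ring

theorem Rot_radial (f : R12 → ℂ × ℂ) (hf : ContDiff ℝ 1 f) (m : ℕ)
    (h : ∀ y, Om (AA 0 1) f y = (Complex.I * m) • f y)
    (hR : ∀ j : Fin 12, j ≠ 0 → j ≠ 1 → ∀ y, Om (AA 0 j) f y + Complex.I • Om (AA 1 j) f y = 0)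
    (w : R12) (h0 : w 0 = 0) (h1 : w 1 = 0) (ρ r : ℝ) (hρ : 0 < ρ) (hr : 0 < r)
    (hrr : r ^ 2 = ρ ^ 2 + ‖w‖ ^ 2) :
    f (ρ • ee 0 + w) = (ρ / r) ^ m • f (r • ee 0) := by
  set a : ℝ → ℝ := fun t => √(r ^ 2 - t ^ 2 * ‖w‖ ^ 2) with ha
  have hq : ∀ t ∈ Icc (0 : ℝ) 1, 0 < r ^ 2 - t ^ 2 * ‖w‖ ^ 2 := by
    intro t ht
    have : t ^ 2 ≤ 1 := pow_le_one₀ ht.1 ht.2
    have h2 : t ^ 2 * ‖w‖ ^ 2 ≤ 1 * ‖w‖ ^ 2 := by gcongr
    have := pow_pos hρ 2
    linarith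
  have hapos : ∀ t ∈ Icc (0 : ℝ) 1, 0 < a t := fun t ht => Real.sqrt_pos.2 (hq t ht)
  have hda : ∀ t ∈ Icc (0 : ℝ) 1, HasDerivAt a (-(t * ‖w‖ ^ 2) / a t) t := by
    intro t ht
    have h2 : HasDerivAt (fun t : ℝ => r ^ 2 - t ^ 2 * ‖w‖ ^ 2) (-(2 * t * ‖w‖ ^ 2)) t := by
      have := ((hasDerivAt_pow 2 t).mul_const (‖w‖ ^ 2)).const_sub (r ^ 2)
      simpa using this
    have h3 := h2.sqrt (hq t ht).ne'
    convert h3 using 1
    have := (hapos t ht).ne'
    simp only [ha] at this ⊢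
    field_simp
  have hG : ∀ t ∈ Icc (0 : ℝ) 1,
      HasDerivAt (fun t => ((a t) ^ m)⁻¹ • f (a t • ee 0 + t • w)) 0 t := by
    intro t ht
    have hat := (hapos t ht).ne'
    have hγ : HasDerivAt (fun t => a t • ee 0 + t • w) ((-(t * ‖w‖ ^ 2) / a t) • ee 0 + w) t := by
      have := ((hda t ht).smul_const (ee 0)).add ((hasDerivAt_id t).smul_const w)
      rw [one_smul] at this
      exact this
    have h2 := (hf.differentiable one_ne_zero _).hasFDerivAt.comp_hasDerivAt t hγ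
    rw [Rot_key f m h hR w h0 h1 (a t) t hat] at h2
    have h3 := ((hda t ht).pow m).inv (pow_ne_zero m hat)
    have h4 := h3.smul h2
    refine h4.congr_deriv ?_
    simp only [Function.comp_apply, Pi.inv_apply, Pi.pow_apply, smul_smul]
    rw [← add_smul]
    have : ((a t) ^ m)⁻¹ * (m * (-(t * ‖w‖ ^ 2) / a t) / a t)
        + -(m * a t ^ (m - 1) * (-(t * ‖w‖ ^ 2) / a t)) / (a t ^ m) ^ 2 = 0 := by
      rcases m with _ | m
      · simp
      · simp only [Nat.add_sub_cancel]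
        field_simp
        ring
    rw [this, zero_smul]
  have hc := constant_of_has_deriv_right_zero
    (f := fun t => ((a t) ^ m)⁻¹ • f (a t • ee 0 + t • w)) (a := 0) (b := 1)
    (fun t ht => (hG t ht).continuousAt.continuousWithinAt)
    (fun t ht => (hG t (Ico_subset_Icc_self ht)).hasDerivWithinAt) 1 ⟨zero_le_one, le_rfl⟩
  have a0 : a 0 = r := by simp [ha, Real.sqrt_sq hr.le]
  have a1 : a 1 = ρ := by
    simp only [ha, one_pow, one_mul, hrr, add_sub_cancel_right, Real.sqrt_sq hρ.le]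
  simp only [a0, a1, one_smul, zero_smul, add_zero] at hc
  have := congrArg (fun z => ρ ^ m • z) hc
  simp only [smul_smul, mul_inv_cancel₀ (pow_ne_zero m hρ.ne'), one_smul] at this
  rw [this, div_pow, div_eq_mul_inv]

theorem Rot_hw (f : R12 → ℂ × ℂ) (hf : ContDiff ℝ 1 f) (m : ℕ)
    (h : ∀ y, Om (AA 0 1) f y = (Complex.I * m) • f y)
    (hR : ∀ j : Fin 12, j ≠ 0 → j ≠ 1 → ∀ y, Om (AA 0 j) f y + Complex.I • Om (AA 1 j) f y = 0)
    (y : R12) (hy : zeta y ≠ 0) : f y = (zeta y / (‖y‖ : ℂ)) ^ m • f (‖y‖ • ee 0) := by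
  set ρ : ℝ := ‖zeta y‖ with hρ
  set θ : ℝ := Complex.arg (zeta y) with hθ
  have hρ0 : 0 < ρ := norm_pos_iff.2 hy
  set w : R12 := y - y 0 • ee 0 - y 1 • ee 1 with hw
  have e01 : ee 0 1 = 0 := Rot_ee_ne (by decide)
  have e10 : ee 1 0 = 0 := Rot_ee_ne (by decide)
  have h0 : w 0 = 0 := by simp [hw, Rot_ee_self, e10]
  have h1 : w 1 = 0 := by simp [hw, Rot_ee_self, e01]
  have hre : (zeta y).re = y 0 := by simp [zeta]
  have him : (zeta y).im = y 1 := by simp [zeta]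
  have hcos : ρ * Real.cos θ = y 0 := by rw [← hre]; exact Complex.norm_mul_cos_arg _
  have hsin : ρ * Real.sin θ = y 1 := by rw [← him]; exact Complex.norm_mul_sin_arg _
  have hρ2 : ρ ^ 2 = y 0 ^ 2 + y 1 ^ 2 := by
    rw [hρ, Complex.sq_norm, Complex.normSq_apply, hre, him]; ring
  have hrr : ‖y‖ ^ 2 = ρ ^ 2 + ‖w‖ ^ 2 := by
    have e : y = w + y 0 • ee 0 + y 1 • ee 1 := by rw [hw]; abel
    have := Rot_norm_aux (ee 0) (ee 1) w (Rot_norm_ee 0) (Rot_norm_ee 1)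
      (by rw [Rot_inner_ee]; exact e10) (y 0) (y 1)
    rw [← e, Rot_inner_ee, Rot_inner_ee, h0, h1] at this
    rw [this, hρ2]; ring
  have hr : 0 < ‖y‖ := by
    have : 0 < ‖y‖ ^ 2 := by rw [hrr]; positivity
    exact lt_of_le_of_ne (norm_nonneg _) fun h => by rw [← h] at this; simp at this
  have hrad := Rot_radial f hf m h hR w h0 h1 ρ ‖y‖ hρ0 hr hrr
  have hrot := rot_of_eig f hf _ h θ (ρ • ee 0 + w)
  have q0 : (ρ • ee 0 + w : R12) 0 = ρ := by simp [Rot_ee_self, h0]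
  have q1 : (ρ • ee 0 + w : R12) 1 = 0 := by simp [e01, h1]
  rw [q0, q1] at hrot
  have ey : ρ • ee 0 + w + (Real.cos θ - 1) • (ρ • ee 0 + (0 : ℝ) • ee 1)
      + Real.sin θ • (ρ • ee 1 - (0 : ℝ) • ee 0) = y := by
    rw [hw, ← hcos, ← hsin]
    module
  rw [ey, hrad, ← Complex.coe_smul, smul_smul] at hrot
  rw [hrot]
  congr 1
  have hz : zeta y = ρ * Complex.exp (θ * Complex.I) := (Complex.norm_mul_exp_arg_mul_I _).symm
  have : Complex.exp (Complex.I * m * θ) = Complex.exp (θ * Complex.I) ^ m := by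
    rw [← Complex.exp_nat_mul]; congr 1; ring
  rw [this, hz]
  push_cast
  rw [← mul_pow]
  congr 1
  ring

/-- highest weight relations ⇒ the form (ζ/r)^m × radial.  For ζ(y) ≠ 0 write ζ = |ζ|e^{iθ}, y = R_θ y', y' = (|ζ|,0,y_⊥)
(`rot_of_eig`); y' = γ(s₀), γ(s) = r cos s e₀ + r sin s v, v ⟂ e₀,e₁ a unit vector, 0 ≤ s₀ < π/2.  At p = γ(s): Ω₀₁f = p₀∂₁f = i m f and
(Ω₀ⱼ + iΩ₁ⱼ)f = (p₀∂ⱼ - pⱼ∂₀)f - i pⱼ∂₁f = 0, so (f∘γ)' = -m tan(s) f∘γ and f(γ s) = cos^m s · f(r e₀). -/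
theorem hw_form (f : R12 → ℂ × ℂ) (hf : ContDiff ℝ 1 f) (m : ℕ)
    (h : ∀ y, Om (AA 0 1) f y = (Complex.I * m) • f y)
    (hR : ∀ j : Fin 12, j ≠ 0 → j ≠ 1 → ∀ y, Om (AA 0 j) f y + Complex.I • Om (AA 1 j) f y = 0) :
    HWForm m (c1 f) ∧ HWForm m (c2 f) := by
  refine ⟨fun y hy => ?_, fun y hy => ?_⟩
  · simp only [c1]
    rw [Rot_hw f hf m h hR y hy]; rfl
  · simp only [c2]
    rw [Rot_hw f hf m h hR y hy]; rfl

end

end Crest.Agent.R086.C
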