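import Crest.Agent.R086.C.SpDef
import Crest.Agent.R086.C.CompB

/-! # Row 86, part C: properties of `X1`, `T1` (task) -/

open MeasureTheory Set Filter Topology
open scoped ContDiff ComplexConjugate ENNReal
open Crest.AnalysisR.PDE.NLS

namespace Crest.Agent.R086.C

noncomputable section

variable {n : ℕ} {b : ℝ} {q : ℝ → ℂ} {k₀ k : ℕ}

theorem exists_ctx (hS : SobStmt) (hN : SymNrmStmt) (hU : UUStmt) (hL : LowStmt) (hE : EnergyStmt)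
    (hC : CompactStmt) (hP : Prof n b q) : ∃ k₀, Ctx n b q k₀ := by
  obtain ⟨k₁, h₁⟩ := Lin.unique hS hE hP
  obtain ⟨k₂, h₂⟩ := hE n b q hP
  refine ⟨max 100 (max k₁ k₂), hP, hS, hN, hU, hL, hC, le_max_left _ _,
    fun k hk => h₁ k (by omega), fun k hk => ?_⟩
  obtain ⟨μ, C, hμ, hC0, h₃⟩ := h₂ k (by omega)
  refine ⟨μ, C, hμ, hC0, fun t ht0 ht1 z hz A hA hzA => ?_⟩
  have h₄ := h₃ 0 ⟨le_rfl, zero_le_one⟩ 0 t le_rfl ht0 ht1 z 0 hz A 0 hA le_rfl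
    (by rwa [nrmT_zero_time]) (fun s _ => by simp [nrmT_zero])
  simpa only [sub_zero, add_zero, div_one] using h₄

theorem Cls.level {z : ℝ → R12 → ℂ} (hz : Cls n b q k z) {k' : ℕ} (hk : k' ≤ k) : Cls n b q k' z := by
  exact fun T hT => (hz T hT).level hk

private theorem h69_mem {s t : ℝ} (hs : s ∈ Ico (0 : ℝ) 1) (ht : t ∈ Ico (0 : ℝ) 1) :
    t + (1 - t) * s ∈ Ico (0 : ℝ) 1 := by
  obtain ⟨h1, h2⟩ := hs
  obtain ⟨h3, h4⟩ := ht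
  constructor <;> nlinarith

private theorem h69_add {z w : ℝ → R12 → ℂ} (hz : Cls n b q k z) (hw : Cls n b q k w) :
    Cls n b q k (fun t y => z t y + w t y) := fun T hT =>
  ((hz T hT).add (hw T hT)).congr (fun _ _ _ => rfl) fun _ _ _ => by simp

private theorem h69_smul {z : ℝ → R12 → ℂ} (hz : Cls n b q k z) (c : ℝ) :
    Cls n b q k (fun t y => (c : ℂ) * z t y) := fun T hT =>
  ((hz T hT).smul c).congr (fun _ _ _ => rfl) fun _ _ _ => by simp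

private theorem h69_rot {z : ℝ → R12 → ℂ} (hz : Cls n b q k z) (O : R12 ≃ₗᵢ[ℝ] R12) :
    Cls n b q k (fun t y => z t (O y)) := fun T hT => (hz T hT).rot O

theorem Cls.shift (hn : 1 ≤ n) {z : ℝ → R12 → ℂ} (hz : Cls n b q k z) {t₀ : ℝ} (h₀ : t₀ ∈ Ico (0 : ℝ) 1) :
    Cls n b q k (fun s => Zs n b (1 - t₀) 0 0 (z (t₀ + (1 - t₀) * s))) := by
  exact fun T hT => Lin.shift hn h₀.1 h₀.2 hT.2 (hz _ (h69_mem hT h₀))

theorem X1.level {A : R12 → ℂ} (hA : X1 n b q k A) {k' : ℕ} (hk : k' ≤ k) : X1 n b q k' A := by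
  obtain ⟨z, hz, rfl⟩ := hA
  exact ⟨z, hz.level hk, rfl⟩

theorem X1.zero : X1 n b q k (fun _ => 0) := by
  exact ⟨fun _ _ => 0, fun T _ => Lin.zero n b q k 0 _, rfl⟩

theorem X1.add {A B : R12 → ℂ} (hA : X1 n b q k A) (hB : X1 n b q k B) :
    X1 n b q k (fun y => A y + B y) := by
  obtain ⟨z, hz, rfl⟩ := hA
  obtain ⟨w, hw, rfl⟩ := hB
  exact ⟨_, h69_add hz hw, rfl⟩

theorem X1.smul {A : R12 → ℂ} (hA : X1 n b q k A) (c : ℝ) : X1 n b q k (fun y => (c : ℂ) * A y) := by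
  obtain ⟨z, hz, rfl⟩ := hA
  exact ⟨_, h69_smul hz c, rfl⟩

theorem X1.rot {A : R12 → ℂ} (hA : X1 n b q k A) (O : R12 ≃ₗᵢ[ℝ] R12) : X1 n b q k (fun y => A (O y)) := by
  obtain ⟨z, hz, rfl⟩ := hA
  exact ⟨_, h69_rot hz O, rfl⟩

theorem X1.contDiff {A : R12 → ℂ} (hA : X1 n b q k A) : ContDiff ℝ (k + 2 : ℕ) A := by
  obtain ⟨z, hz, rfl⟩ := hA
  exact (hz 0 ⟨le_rfl, one_pos⟩).reg.diff 0 ⟨le_rfl, le_rfl⟩

theorem X1.nrm_ne_top {A : R12 → ℂ} (hA : X1 n b q k A) : nrm k 0 A ≠ ⊤ := by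
  obtain ⟨z, hz, rfl⟩ := hA
  obtain ⟨B, hB⟩ := (hz 0 ⟨le_rfl, one_pos⟩).fin rfl
  have h1 := hB 0 ⟨le_rfl, le_rfl⟩
  rw [nrmT_zero_time] at h1
  exact ne_top_of_le_ne_top ENNReal.ofReal_ne_top ((E.nrm_mono (Nat.le_succ k) 0 _).trans h1)

theorem X1.bm0 (H : Ctx n b q k₀) (i : Ix) (k : ℕ) : X1 n b q k (bm0 n b q i) := by
  exact ⟨bm n b q i, fun T hT => bm_lin H.sym H.prof i k hT.2, bm_zero i⟩

/-- by uniqueness at level k₀ -/
theorem T1_spec (H : Ctx n b q k₀) (hk : k₀ ≤ k) {z : ℝ → R12 → ℂ} (hz : Cls n b q k z) {t : ℝ}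
    (ht : t ∈ Ico (0 : ℝ) 1) : T1 n b q k₀ t (z 0) = Zs n b (1 - t) 0 0 (z t) := by
  have hX : X1 n b q k₀ (z 0) := ⟨z, hz.level hk, rfl⟩
  have hs := Classical.choose_spec hX
  rw [T1, sol, dif_pos hX,
    H.uniq k₀ le_rfl t ht.2 _ _ (hs.1 t ht) (hz.level hk t ht) hs.2 t ⟨ht.1, le_rfl⟩]

theorem T1_mem (H : Ctx n b q k₀) (hk : k₀ ≤ k) {A : R12 → ℂ} (hA : X1 n b q k A) {t : ℝ}
    (ht : t ∈ Ico (0 : ℝ) 1) : X1 n b q k (T1 n b q k₀ t A) := by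
  obtain ⟨z, hz, rfl⟩ := hA
  rw [T1_spec H hk hz ht]
  exact ⟨_, hz.shift H.prof.npos ht, by simp⟩

theorem T1_zero_time (H : Ctx n b q k₀) {A : R12 → ℂ} (hA : X1 n b q k₀ A) : T1 n b q k₀ 0 A = A := by
  obtain ⟨z, hz, rfl⟩ := hA
  rw [T1_spec H le_rfl hz ⟨le_rfl, one_pos⟩, sub_zero, Zs_one]

theorem T1_add (H : Ctx n b q k₀) {A B : R12 → ℂ} (hA : X1 n b q k₀ A) (hB : X1 n b q k₀ B) {t : ℝ}
    (ht : t ∈ Ico (0 : ℝ) 1) :
    T1 n b q k₀ t (fun y => A y + B y) = fun y => T1 n b q k₀ t A y + T1 n b q k₀ t B y := by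
  obtain ⟨z, hz, rfl⟩ := hA
  obtain ⟨w, hw, rfl⟩ := hB
  rw [T1_spec H le_rfl hz ht, T1_spec H le_rfl hw ht, ← Zs_add]
  exact T1_spec H le_rfl (h69_add hz hw) ht

theorem T1_smul (H : Ctx n b q k₀) {A : R12 → ℂ} (hA : X1 n b q k₀ A) (c : ℝ) {t : ℝ}
    (ht : t ∈ Ico (0 : ℝ) 1) :
    T1 n b q k₀ t (fun y => (c : ℂ) * A y) = fun y => (c : ℂ) * T1 n b q k₀ t A y := by
  obtain ⟨z, hz, rfl⟩ := hA
  rw [T1_spec H le_rfl hz ht, ← Zs_const_mul]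
  exact T1_spec H le_rfl (h69_smul hz c) ht

theorem T1_rot (H : Ctx n b q k₀) {A : R12 → ℂ} (hA : X1 n b q k₀ A) (O : R12 ≃ₗᵢ[ℝ] R12) {t : ℝ}
    (ht : t ∈ Ico (0 : ℝ) 1) :
    T1 n b q k₀ t (fun y => A (O y)) = fun y => T1 n b q k₀ t A (O y) := by
  obtain ⟨z, hz, rfl⟩ := hA
  rw [T1_spec H le_rfl hz ht]
  refine (T1_spec H le_rfl (h69_rot hz O) ht).trans (funext fun y => ?_)
  simp only [Zs_apply0, map_smul]

theorem T1_semi (H : Ctx n b q k₀) {A : R12 → ℂ} (hA : X1 n b q k₀ A) {s t : ℝ}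
    (hs : s ∈ Ico (0 : ℝ) 1) (ht : t ∈ Ico (0 : ℝ) 1) :
    T1 n b q k₀ s (T1 n b q k₀ t A) = T1 n b q k₀ (t + (1 - t) * s) A := by
  obtain ⟨z, hz, rfl⟩ := hA
  have h1 := T1_spec H le_rfl (hz.shift H.prof.npos ht) hs
  simp only [mul_zero, add_zero] at h1
  rw [T1_spec H le_rfl hz ht, T1_spec H le_rfl hz (h69_mem hs ht), h1,
    Zs_Zs (sub_pos.2 hs.2) (sub_pos.2 ht.2), smul_zero, add_zero, add_zero]
  congr 1
  ring

theorem T1_bm0 (H : Ctx n b q k₀) (i : Ix) {t : ℝ} (ht : t ∈ Ico (0 : ℝ) 1) :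
    T1 n b q k₀ t (bm0 n b q i) = fun y => (((1 - t) ^ (-(ev i)) : ℝ) : ℂ) * bm0 n b q i y := by
  rw [← Zs_bm i ht.2, ← bm_zero i]
  exact T1_spec H le_rfl (fun T hT => bm_lin H.sym H.prof i k₀ hT.2) ht

theorem T1_bound (H : Ctx n b q k₀) (hk : k₀ ≤ k) : ∃ C : ℝ, 0 < C ∧ ∀ (A : R12 → ℂ) (B : ℝ), 0 ≤ B →
    X1 n b q k A → nrm k 0 A ≤ ENNReal.ofReal B → ∀ t ∈ Ico (0 : ℝ) 1,
      nrm k 0 (T1 n b q k₀ t A) ≤ ENNReal.ofReal (C * (1 / (1 - t)) ^ C * B) := by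
  obtain ⟨μ, C, -, hC, h⟩ := H.en k hk
  refine ⟨C, hC, fun A B hB hA hAB t ht => ?_⟩
  obtain ⟨z, hz, rfl⟩ := hA
  have h1 := (h t ht.1 ht.2 z (hz t ht) B hB hAB).1
  rwa [nrmT, zero_mul, ← T1_spec H hk hz ht] at h1

/-- joint continuity of the solution -/
theorem T1_continuousOn (H : Ctx n b q k₀) {A : R12 → ℂ} (hA : X1 n b q k₀ A) (y : R12) :
    ContinuousOn (fun t => T1 n b q k₀ t A y) (Ico 0 1) := by
  obtain ⟨z, hz, rfl⟩ := hA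
  refine ContinuousOn.congr (f := fun t => cp (1 - t) ((aa n : ℂ) - Complex.I * b) *
    z t (Real.sqrt (1 - t) • y)) ?_ fun t ht => by simp only [T1_spec H le_rfl hz ht, Zs_apply0]
  refine ContinuousOn.mul ((E.contDiffOn_cp _).continuousOn.comp (f := fun t : ℝ => 1 - t)
    (by fun_prop) fun t ht => sub_pos.2 ht.2) fun t ht => ?_
  have hT : (t + 1) / 2 ∈ Ico (0 : ℝ) 1 := ⟨by linarith [ht.1], by linarith [ht.2]⟩
  have h1 := (E.ck_continuousOn (hz _ hT).reg).comp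
    (f := fun s : ℝ => (s, Real.sqrt (1 - s) • y)) (s := Icc 0 ((t + 1) / 2)) (by fun_prop)
    fun s hs => ⟨hs, trivial⟩
  refine (h1 t ⟨ht.1, by linarith [ht.2]⟩).mono_of_mem_nhdsWithin ?_
  filter_upwards [self_mem_nhdsWithin,
    mem_nhdsWithin_of_mem_nhds (Iic_mem_nhds (by linarith [ht.2] : t < (t + 1) / 2))] with s h1 h2
  exact ⟨h1.1, h2⟩

/-- `hasDerivWithinAt_curve` with γ t = √(1-t) y, `hasDerivAt_cp`, `Lin.ck_rhs`; UU 0 0 y = q(|y|²/4) -/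
theorem T1_deriv (H : Ctx n b q k₀) {A : R12 → ℂ} (hA : X1 n b q k₀ A) (y : R12) :
    HasDerivWithinAt (fun t => T1 n b q k₀ t A y) (LL n b q A y) (Ici 0) 0 := by
  have hA2 : Differentiable ℝ A := hA.contDiff.differentiable (by simp)
  obtain ⟨z, hz, rfl⟩ := hA
  have hL := hz (1 / 2) ⟨by norm_num, by norm_num⟩
  have hG := E.ck_continuousOn (hL.ck_rhs H.uu H.prof fun t ht => lt_of_le_of_lt ht.2 (by norm_num))
  have h1 : HasDerivAt (fun t : ℝ => 1 - t) (-1) 0 := (hasDerivAt_id (0 : ℝ)).const_sub 1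
  have hγ : HasDerivAt (fun t : ℝ => Real.sqrt (1 - t) • y) ((-1 / 2 : ℝ) • y) 0 := by
    simpa using (h1.sqrt (by norm_num)).smul_const y
  have h2 := hasDerivWithinAt_curve (by norm_num) hG hL.eqn hA2 hγ
  have h3 := (E.hasDerivAt_cp (τ := 1 - 0) (by norm_num) ((aa n : ℂ) - Complex.I * b)).scomp (0 : ℝ) h1
  have h4 := h3.hasDerivWithinAt.mul h2
  refine (h4.congr_deriv ?_).congr_of_eventuallyEq ?_ ?_
  · have hu : UU n b q 0 0 y = q (‖y‖ ^ 2 / 4) := by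
      simp [UU, E.cp_one_left, E.PP_zero]
    simp only [Function.comp_apply, sub_zero, Real.sqrt_one, one_smul, E.cp_one_left, hu, map_smul,
      Pi.zero_apply, add_zero, LL, Complex.real_smul]
    push_cast
    ring
  · filter_upwards [self_mem_nhdsWithin, mem_nhdsWithin_of_mem_nhds (Iio_mem_nhds one_pos)]
      with t h1 h2
    simp only [T1_spec H le_rfl hz ⟨h1, h2⟩, Zs_apply0, Pi.mul_apply, Function.comp_apply]
  · simp only [T1_spec H le_rfl hz ⟨le_rfl, one_pos⟩, Zs_apply0, Pi.mul_apply, Function.comp_apply]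

end

end Crest.Agent.R086.C
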