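import Crest.Agent.R086.C.Sp1

/-! # Row 86, part C: weakly null sequences, Lasota–Yorke, compactness for `T1` (task) -/

open MeasureTheory Set Filter Topology
open scoped ContDiff ComplexConjugate ENNReal
open Crest.AnalysisR.PDE.NLS

namespace Crest.Agent.R086.C

noncomputable section

variable {n : ℕ} {b : ℝ} {q : ℝ → ℂ} {k₀ k : ℕ}

theorem sp2_mono {C t T : ℝ} (hC : 0 < C) (ht : t ≤ T) (hT : T < 1) :
    (1 / (1 - t)) ^ C ≤ (1 / (1 - T)) ^ C :=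
  Real.rpow_le_rpow (one_div_pos.2 (by linarith)).le
    (one_div_le_one_div_of_le (by linarith) (by linarith)) hC.le

theorem sp2_sup (H : Ctx n b q k₀) (hk : k₀ ≤ k) {T : ℝ} (hT : T < 1) :
    ∃ M : ℝ, 0 < M ∧ ∀ (A : R12 → ℂ) (B : ℝ), 0 ≤ B → X1 n b q k A → nrm k 0 A ≤ ENNReal.ofReal B →
      ∀ t ∈ Icc 0 T, ∀ y, ‖T1 n b q k₀ t A y‖ ≤ M * B := by
  obtain ⟨C, hC, h1⟩ := T1_bound H hk
  have hbig := H.big
  obtain ⟨Cs, hCs, h2⟩ := H.sob k (by omega)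
  have hp : 0 < (1 / (1 - T)) ^ C := Real.rpow_pos_of_pos (one_div_pos.2 (by linarith)) C
  refine ⟨Cs * (C * (1 / (1 - T)) ^ C), by positivity, fun A B hB hA hAB t ht y => ?_⟩
  have ht' : t ∈ Ico (0 : ℝ) 1 := ⟨ht.1, ht.2.trans_lt hT⟩
  have h3 : nrm k 0 (T1 n b q k₀ t A) ≤ ENNReal.ofReal (C * (1 / (1 - T)) ^ C * B) :=
    (h1 A B hB hA hAB t ht').trans (ENNReal.ofReal_le_ofReal (by
      have := sp2_mono hC ht.2 hT
      gcongr))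
  have h4 := (h2 0 ⟨le_rfl, zero_le_one⟩ _ _ (by positivity)
    ((T1_mem H hk hA ht').contDiff.of_le (by exact_mod_cast Nat.le_add_right k 2))
    (fun h => absurd rfl h) h3 0 y).1 (by omega)
  rw [norm_iteratedFDeriv_zero] at h4
  exact h4.trans (le_of_eq (by ring))

theorem Wk1.add (H : Ctx n b q k₀) {A B : ℕ → R12 → ℂ} (hA : ∀ l, X1 n b q k₀ (A l))
    (hB : ∀ l, X1 n b q k₀ (B l)) (h1 : Wk1 n b q k₀ A) (h2 : Wk1 n b q k₀ B) :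
    Wk1 n b q k₀ (fun l y => A l y + B l y) := by
  intro T hT ϱ ε hε
  filter_upwards [h1 T hT ϱ (ε / 2) (half_pos hε), h2 T hT ϱ (ε / 2) (half_pos hε)]
    with l a1 a2 t ht y hy
  rw [T1_add H (hA l) (hB l) ⟨ht.1, ht.2.trans_lt hT.2⟩]
  exact (norm_add_le _ _).trans (by linarith [a1 t ht y hy, a2 t ht y hy])

theorem Wk1.smul (H : Ctx n b q k₀) {A : ℕ → R12 → ℂ} (hA : ∀ l, X1 n b q k₀ (A l))
    (h1 : Wk1 n b q k₀ A) (c : ℝ) : Wk1 n b q k₀ (fun l y => (c : ℂ) * A l y) := by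
  intro T hT ϱ ε hε
  have hc : 0 < |c| + 1 := by positivity
  filter_upwards [h1 T hT ϱ (ε / (|c| + 1)) (div_pos hε hc)] with l a1 t ht y hy
  rw [T1_smul H (hA l) c ⟨ht.1, ht.2.trans_lt hT.2⟩]
  have a2 := (le_div_iff₀ hc).1 (a1 t ht y hy)
  rw [norm_mul, Complex.norm_real, Real.norm_eq_abs]
  nlinarith [norm_nonneg (C.T1 n b q k₀ t (A l) y)]

/-- `T1_semi` -/
theorem Wk1.T1 (H : Ctx n b q k₀) {A : ℕ → R12 → ℂ} (hA : ∀ l, X1 n b q k₀ (A l))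
    (h1 : Wk1 n b q k₀ A) {t : ℝ} (ht : t ∈ Ico (0 : ℝ) 1) :
    Wk1 n b q k₀ (fun l => T1 n b q k₀ t (A l)) := by
  intro T hT ϱ ε hε
  have hτ : 0 < 1 - t := sub_pos.2 ht.2
  have hT' : t + (1 - t) * T ∈ Ico (0 : ℝ) 1 :=
    ⟨add_nonneg ht.1 (mul_nonneg hτ.le hT.1), by nlinarith [mul_lt_mul_of_pos_left hT.2 hτ]⟩
  filter_upwards [h1 _ hT' ϱ ε hε] with l a1 s hs y hy
  rw [T1_semi H (hA l) ⟨hs.1, hs.2.trans_lt hT.2⟩ ht]
  exact a1 _ ⟨add_nonneg ht.1 (mul_nonneg hτ.le hs.1),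
    by linarith [mul_le_mul_of_nonneg_left hs.2 hτ.le]⟩ y hy

theorem Wk1.sub {A : ℕ → R12 → ℂ} (h1 : Wk1 n b q k₀ A) {φ : ℕ → ℕ} (hφ : StrictMono φ) :
    Wk1 n b q k₀ (fun l => A (φ l)) := by
  intro T hT ϱ ε hε
  exact hφ.tendsto_atTop.eventually (h1 T hT ϱ ε hε)

theorem Wk1.const (H : Ctx n b q k₀) {A : R12 → ℂ} (hA : X1 n b q k₀ A)
    (h1 : Wk1 n b q k₀ (fun _ => A)) : A = fun _ => 0 := by
  funext y
  refine norm_le_zero_iff.1 (le_of_forall_pos_le_add fun ε hε => ?_)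
  obtain ⟨l, hl⟩ := (h1 0 ⟨le_rfl, one_pos⟩ ‖y‖ ε hε).exists
  have := hl 0 ⟨le_rfl, le_rfl⟩ y le_rfl
  rw [T1_zero_time H hA] at this
  rwa [zero_add]

/-- `T1_bound` + `SobStmt` (j = 0) -/
theorem wk1_of_nrm (H : Ctx n b q k₀) (hk : k₀ ≤ k) {A : ℕ → R12 → ℂ} (hA : ∀ l, X1 n b q k (A l))
    (h : Tendsto (fun l => (nrm k 0 (A l)).toReal) atTop (𝓝 0)) : Wk1 n b q k₀ A := by
  intro T hT ϱ ε hε
  obtain ⟨M, hM, h1⟩ := sp2_sup H hk hT.2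
  filter_upwards [h.eventually (gt_mem_nhds (div_pos hε hM))] with l hl t ht y _
  refine (h1 _ _ ENNReal.toReal_nonneg (hA l) (ENNReal.ofReal_toReal (hA l).nrm_ne_top).ge
    t ht y).trans ?_
  rw [mul_comm]
  exact ((lt_div_iff₀ hM).1 hl).le

/-- Lasota–Yorke: choose t* with C(1-t*)^μ ≤ ε/2; for t ≥ t* the functions T1 s (A l), s ∈ [0,t], are bounded by B(t) (`T1_bound`, Sobolev) and small
on balls, so `LowStmt` makes lowT ≤ ε/(2C) on [0,t] eventually; second part of `Ctx.en`. -/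
theorem T1_LY (H : Ctx n b q k₀) (hk : k₀ ≤ k) {ε : ℝ} (hε : 0 < ε) :
    ∃ t₀ ∈ Ico (0 : ℝ) 1, ∀ t ∈ Ico t₀ 1, ∀ A : ℕ → R12 → ℂ, (∀ l, X1 n b q k (A l)) →
      (∀ l, nrm k 0 (A l) ≤ 1) → Wk1 n b q k₀ A →
      ∀ᶠ l in atTop, nrm k 0 (T1 n b q k₀ t (A l)) ≤ ENNReal.ofReal ε := by
  obtain ⟨μ, C, hμ, hC, hen⟩ := H.en k hk
  obtain ⟨CL, hCL, hlow⟩ := H.lowS
  set D₀ := ε / (2 * C) with hD₀
  have hD : 0 < D₀ := by positivity
  have hδ : 0 < min 1 (D₀ ^ μ⁻¹) := lt_min one_pos (Real.rpow_pos_of_pos hD _)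
  refine ⟨1 - min 1 (D₀ ^ μ⁻¹), ⟨sub_nonneg.2 (min_le_left _ _), by linarith⟩,
    fun t ht A hA hA1 hW => ?_⟩
  have ht0 : 0 ≤ t := (sub_nonneg.2 (min_le_left _ _)).trans ht.1
  have hpow : (1 - t) ^ μ ≤ D₀ := by
    rw [← Real.rpow_inv_rpow hD.le hμ.ne']
    exact Real.rpow_le_rpow (sub_pos.2 ht.2).le (by linarith [ht.1, min_le_right 1 (D₀ ^ μ⁻¹)]) hμ.le
  obtain ⟨M, hM, hsup⟩ := sp2_sup H hk ht.2
  obtain ⟨ϱ, hϱ⟩ := hlow (D₀ / (2 * M)) (by positivity)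
  filter_upwards [hW t ⟨ht0, ht.2⟩ ϱ (D₀ / (2 * CL)) (by positivity)] with l hl
  obtain ⟨z, hz, hz0⟩ := hA l
  have hn1 : nrm k 0 (A l) ≤ ENNReal.ofReal 1 := by rw [ENNReal.ofReal_one]; exact hA1 l
  have h1 := (hen t ht0 ht.2 z (hz t ⟨ht0, ht.2⟩) 1 zero_le_one (hz0 ▸ hn1)).2 D₀ hD.le
    fun s hs => by
      have h2 := hϱ 0 ⟨le_rfl, zero_le_one⟩ (T1 n b q k₀ s (A l)) (M * 1) (D₀ / (2 * CL))
        (by positivity) (by positivity) (hsup _ 1 zero_le_one (hA l) hn1 s hs) (hl s hs)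
      rw [← hz0, T1_spec H hk hz ⟨hs.1, hs.2.trans_lt ht.2⟩] at h2
      rw [lowT, zero_mul]
      refine h2.trans (le_of_eq ?_)
      congr 1
      field_simp
      norm_num
  rw [nrmT, zero_mul, ← T1_spec H hk hz ⟨ht0, ht.2⟩, hz0] at h1
  refine h1.trans (ENNReal.ofReal_le_ofReal ?_)
  calc C * ((1 - t) ^ μ * 1 + D₀) ≤ C * (D₀ * 1 + D₀) := by gcongr
    _ = ε := by rw [hD₀]; field_simp; norm_num

/-- `CompactStmt` with hs = 0, ts l = 1 - 1/(l+2), Ss = 0, B T = C(1/(1-T))^C; T1 t (A(φ l) - A) = Zs (1-t) (z_{φ l} t - z t) by `T1_spec`,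
|τ^a| ≤ 1 and |√τ y| ≤ |y| -/
theorem T1_compact (H : Ctx n b q k₀) (hk : k₀ + 20 ≤ k) (A : ℕ → R12 → ℂ) (hA : ∀ l, X1 n b q k (A l))
    (hb : ∀ l, nrm k 0 (A l) ≤ 1) :
    ∃ (φ : ℕ → ℕ) (A' : R12 → ℂ), StrictMono φ ∧ X1 n b q (k - 20) A' ∧
      Wk1 n b q k₀ (fun l y => A (φ l) y - A' y) := by
  have hk' : k₀ ≤ k := by omega
  have hbig := H.big
  obtain ⟨C, hC, h1⟩ := T1_bound H hk'
  choose z hz hz0 using hA
  have hts : ∀ l : ℕ, 1 - 1 / ((l : ℝ) + 1) ∈ Ico (0 : ℝ) 1 := fun l =>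
    ⟨sub_nonneg.2 ((div_le_one (by positivity)).2 (by linarith [Nat.cast_nonneg (α := ℝ) l])),
      sub_lt_self _ (by positivity)⟩
  obtain ⟨φ, w, hφ, hw, -, hlim⟩ := H.comp n b q H.prof k (by omega) (fun _ => 0)
    (fun l => 1 - 1 / ((l : ℝ) + 1)) z (fun _ => 0) (fun T => C * (1 / (1 - T)) ^ C * 1)
    (fun _ => ⟨le_rfl, zero_le_one⟩) tendsto_const_nhds hts
    (by simpa using tendsto_one_div_add_atTop_nhds_zero_nat.const_sub (1 : ℝ))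
    (fun l => hz l _ (hts l))
    (fun T hT => Eventually.of_forall fun l t ht => by
      have ht' : t ∈ Ico (0 : ℝ) 1 := ⟨ht.1, ht.2.trans_lt hT.2⟩
      have h2 := h1 (A l) 1 zero_le_one ⟨z l, hz l, hz0 l⟩
        (by rw [ENNReal.ofReal_one]; exact hb l) t ht'
      rw [← hz0, T1_spec H hk' (hz l) ht'] at h2
      rw [nrmT, zero_mul]
      refine h2.trans (ENNReal.ofReal_le_ofReal ?_)
      have := sp2_mono hC ht.2 hT.2
      gcongr)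
    (fun T hT ε hε => Eventually.of_forall fun l t ht => by
      simp only [Pi.zero_apply, mul_zero, nrmT_zero]
      exact zero_le)
  refine ⟨φ, w 0, hφ, ⟨w, hw, rfl⟩, fun T hT ϱ ε hε => ?_⟩
  filter_upwards [hlim T hT ϱ ε hε] with l hl t ht y hy
  have ht' : t ∈ Ico (0 : ℝ) 1 := ⟨ht.1, ht.2.trans_lt hT.2⟩
  have hτ : 0 < 1 - t := sub_pos.2 ht'.2
  have hc : Cls n b q (k - 20) fun t y => z (φ l) t y - w t y := fun T' hT' =>
    (((hz (φ l) T' hT').level (Nat.sub_le k 20)).sub (hw T' hT')).congr (fun _ _ _ => rfl)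
      fun _ _ _ => sub_self _
  have h2 := T1_spec H (by omega) hc ht'
  rw [hz0] at h2
  rw [h2, norm_Zs hτ, zero_add]
  have h3 : (1 - t) ^ aa n ≤ 1 :=
    Real.rpow_le_one hτ.le (by linarith [ht.1]) (by unfold aa; positivity)
  refine (mul_le_of_le_one_left (norm_nonneg _) h3).trans (hl t ht _ ?_)
  rw [norm_smul, Real.norm_of_nonneg (Real.sqrt_nonneg _)]
  exact (mul_le_of_le_one_left (norm_nonneg _) (Real.sqrt_le_one.2 (by linarith [ht.1]))).trans hy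

end

end Crest.Agent.R086.C
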