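import Crest.Agent.R086.C.Modes

/-! # Row 86, part C: the space of initial data of global linear solutions and the rescaled solution operator -/

open MeasureTheory Set Filter Topology
open scoped ContDiff ComplexConjugate ENNReal
open Crest.AnalysisR.PDE.NLS

namespace Crest.Agent.R086.C

noncomputable section

/-- homogeneous linear solutions on [0,1) × ℝ¹² at level k -/
def Cls (n : ℕ) (b : ℝ) (q : ℝ → ℂ) (k : ℕ) (z : ℝ → R12 → ℂ) : Prop :=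
  ∀ T ∈ Ico (0 : ℝ) 1, Lin n b q k 0 (Icc 0 T) z 0

/-- their initial data -/
def X1 (n : ℕ) (b : ℝ) (q : ℝ → ℂ) (k : ℕ) (A : R12 → ℂ) : Prop := ∃ z, Cls n b q k z ∧ z 0 = A

open Classical in
/-- a solution with data A -/
def sol (n : ℕ) (b : ℝ) (q : ℝ → ℂ) (k₀ : ℕ) (A : R12 → ℂ) : ℝ → R12 → ℂ :=
  if h : X1 n b q k₀ A then Classical.choose h else 0

/-- the rescaled solution operator -/
def T1 (n : ℕ) (b : ℝ) (q : ℝ → ℂ) (k₀ : ℕ) (t : ℝ) (A : R12 → ℂ) : R12 → ℂ :=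
  Zs n b (1 - t) 0 0 (sol n b q k₀ A t)

/-- weakly null sequences -/
def Wk1 (n : ℕ) (b : ℝ) (q : ℝ → ℂ) (k₀ : ℕ) (A : ℕ → R12 → ℂ) : Prop :=
  ∀ T ∈ Ico (0 : ℝ) 1, ∀ ϱ ε : ℝ, 0 < ε → ∀ᶠ l in atTop, ∀ t ∈ Icc 0 T, ∀ y : R12, ‖y‖ ≤ ϱ →
    ‖T1 n b q k₀ t (A l) y‖ ≤ ε

/-- everything that is known -/
structure Ctx (n : ℕ) (b : ℝ) (q : ℝ → ℂ) (k₀ : ℕ) : Prop where
  prof : Prof n b q
  sob : SobStmt
  sym : SymNrmStmt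
  uu : UUStmt
  lowS : LowStmt
  comp : CompactStmt
  big : 100 ≤ k₀
  uniq : ∀ k : ℕ, k₀ ≤ k → ∀ T : ℝ, T < 1 → ∀ z w : ℝ → R12 → ℂ,
      Lin n b q k 0 (Icc 0 T) z 0 → Lin n b q k 0 (Icc 0 T) w 0 → z 0 = w 0 → ∀ t ∈ Icc 0 T, z t = w t
  en : ∀ k : ℕ, k₀ ≤ k → ∃ μ C : ℝ, 0 < μ ∧ 0 < C ∧ ∀ t : ℝ, 0 ≤ t → t < 1 →
      ∀ z : ℝ → R12 → ℂ, Lin n b q k 0 (Icc 0 t) z 0 → ∀ A : ℝ, 0 ≤ A →
        nrm k 0 (z 0) ≤ ENNReal.ofReal A →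
        nrmT n b k 0 t (z t) ≤ ENNReal.ofReal (C * (1 / (1 - t)) ^ C * A) ∧
        ∀ D : ℝ, 0 ≤ D → (∀ s ∈ Icc 0 t, lowT n b 0 s (z s) ≤ ENNReal.ofReal D) →
          nrmT n b k 0 t (z t) ≤ ENNReal.ofReal (C * ((1 - t) ^ μ * A + D))

/-- the linearised operator in similarity variables (real form) -/
def LL (n : ℕ) (b : ℝ) (q : ℝ → ℂ) (A : R12 → ℂ) (y : R12) : ℂ :=
  Complex.I * (lap A y - (V1 n (q (‖y‖ ^ 2 / 4)) * A y + V2 n (q (‖y‖ ^ 2 / 4)) * conj (A y)))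
    - ((aa n : ℂ) - Complex.I * b) * A y - fderiv ℝ A y y / 2

end

end Crest.Agent.R086.C
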