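import Crest.Agent.R086.E.Scale
import Crest.Agent.R086.E.Nrm
import Crest.Agent.R086.E.CkA
import Crest.Agent.R086.E.CkB

/-! # Row 86, part C: algebra of `Zs`, `nrmT`, `lap`, affine changes of variables (task) -/

open MeasureTheory Set Filter Topology
open scoped ContDiff ComplexConjugate ENNReal
open Crest.AnalysisR.PDE.NLS

namespace Crest.Agent.R086.C

noncomputable section

variable {n : ℕ} {b : ℝ} {q : ℝ → ℂ}

theorem Zs_Zs {t₁ t₂ : ℝ} (h₁ : 0 < t₁) (h₂ : 0 < t₂) (x₁ x₂ : R12) (v₁ v₂ : ℝ) (f : R12 → ℂ) :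
    Zs n b t₁ x₁ v₁ (Zs n b t₂ x₂ v₂ f) = Zs n b (t₁ * t₂) (x₂ + Real.sqrt t₂ • x₁) (v₁ + v₂) f := by
  funext y
  simp only [Zs]
  rw [E.cp_mul h₁ h₂, Real.sqrt_mul h₁.le, smul_add, smul_smul, mul_comm (Real.sqrt t₂), add_assoc,
    Complex.ofReal_add, mul_add, Complex.exp_add]
  ring

theorem Zs_one (f : R12 → ℂ) : Zs n b 1 0 0 f = f := by
  funext y
  simp [Zs, E.cp_one_left]

theorem Zs_apply0 (τ : ℝ) (f : R12 → ℂ) (y : R12) :
    Zs n b τ 0 0 f y = cp τ ((aa n : ℂ) - Complex.I * b) * f (Real.sqrt τ • y) := by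
  simp [Zs]

theorem Zs_add (τ : ℝ) (x : R12) (ϑ : ℝ) (f g : R12 → ℂ) :
    Zs n b τ x ϑ (fun y => f y + g y) = fun y => Zs n b τ x ϑ f y + Zs n b τ x ϑ g y := by
  funext y
  simp only [Zs, mul_add]

theorem Zs_sub (τ : ℝ) (x : R12) (ϑ : ℝ) (f g : R12 → ℂ) :
    Zs n b τ x ϑ (fun y => f y - g y) = fun y => Zs n b τ x ϑ f y - Zs n b τ x ϑ g y := by
  funext y
  simp only [Zs, mul_sub]

theorem Zs_const_mul (τ : ℝ) (x : R12) (ϑ : ℝ) (c : ℂ) (f : R12 → ℂ) :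
    Zs n b τ x ϑ (fun y => c * f y) = fun y => c * Zs n b τ x ϑ f y := by
  funext y
  simp only [Zs]
  ring

theorem Zs_zero (τ : ℝ) (x : R12) (ϑ : ℝ) : Zs n b τ x ϑ (fun _ => 0) = fun _ => 0 := by
  funext y
  simp only [Zs, mul_zero]

theorem norm_Zs {τ : ℝ} (hτ : 0 < τ) (x : R12) (ϑ : ℝ) (f : R12 → ℂ) (y : R12) :
    ‖Zs n b τ x ϑ f y‖ = τ ^ aa n * ‖f (x + Real.sqrt τ • y)‖ := by
  rw [Zs, norm_mul, norm_mul, E.norm_cp hτ, Complex.norm_exp]
  simp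

/-- self-similarity of U (`PP_scale`, `cp_mul`, `cp_add`) -/
theorem UU_shift (h : ℝ) {t₀ s : ℝ} (h₀ : t₀ < 1) (hs : s < 1) :
    Zs n b (1 - t₀) 0 0 (UU n b q h (t₀ + (1 - t₀) * s)) = UU n b q (h * Real.sqrt (1 - t₀)) s := by
  have h1 : 0 < 1 - t₀ := sub_pos.2 h₀
  have h2 : 0 < 1 - s := sub_pos.2 hs
  funext y
  have e : 1 - (t₀ + (1 - t₀) * s) = (1 - t₀) * (1 - s) := by ring
  rw [Zs_apply0, UU, UU, e, E.cp_mul h1 h2, E.PP_scale h y (Real.sqrt_pos.2 h1).ne',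
    Real.sq_sqrt h1.le, div_div, ← mul_assoc, ← mul_assoc, ← E.cp_add,
    show (aa n : ℂ) - Complex.I * b + (-(aa n : ℂ) + Complex.I * b) = 0 by ring, E.cp_zero, one_mul,
    mul_left_comm]

theorem Zs_UU (h : ℝ) {t : ℝ} (ht : t < 1) :
    Zs n b (1 - t) 0 0 (UU n b q h t) = UU n b q (h * Real.sqrt (1 - t)) 0 := by
  simpa using UU_shift (n := n) (b := b) (q := q) h ht zero_lt_one

theorem Zs_cc (hn : 1 ≤ n) {τ : ℝ} (hτ : 0 < τ) :
    cp τ ((aa n : ℂ) - Complex.I * b) ^ n * conj (cp τ ((aa n : ℂ) - Complex.I * b)) ^ n = τ := by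
  have hn' : (n : ℂ) ≠ 0 := Nat.cast_ne_zero.2 (by omega)
  rw [← mul_pow, ← E.cp_one hτ, cp, cp, ← Complex.exp_conj, ← Complex.exp_add,
    ← Complex.exp_nat_mul]
  congr 1
  simp only [aa, map_mul, map_sub, Complex.conj_ofReal, Complex.conj_I]
  push_cast
  field_simp
  ring

/-- homogeneity of the potentials: for c = τ^{a-ib}, |c|^{2n} = τ (n ≥ 1) -/
theorem V1_cp (hn : 1 ≤ n) {τ : ℝ} (hτ : 0 < τ) (u : ℂ) :
    V1 n (cp τ ((aa n : ℂ) - Complex.I * b) * u) = τ * V1 n u := by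
  rw [← Zs_cc (b := b) hn hτ]
  simp only [V1, map_mul, mul_pow]
  ring

theorem V2_cp (hn : 1 ≤ n) {τ : ℝ} (hτ : 0 < τ) (u z : ℂ) :
    V2 n (cp τ ((aa n : ℂ) - Complex.I * b) * u) * conj (cp τ ((aa n : ℂ) - Complex.I * b) * z)
      = τ * (cp τ ((aa n : ℂ) - Complex.I * b) * (V2 n u * conj z)) := by
  rw [← Zs_cc (b := b) hn hτ]
  obtain ⟨m, rfl⟩ : ∃ m, n = m + 1 := ⟨n - 1, by omega⟩
  simp only [V2, map_mul, mul_pow, Nat.add_sub_cancel]
  ring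

theorem nrmT_zero_time (k : ℕ) (h : ℝ) (f : R12 → ℂ) : nrmT n b k h 0 f = nrm k h f := by
  rw [nrmT, sub_zero, Real.sqrt_one, mul_one, Zs_one]

theorem nrmT_add_le {k : ℕ} (h t : ℝ) {f g : R12 → ℂ} (hf : ContDiff ℝ k f) (hg : ContDiff ℝ k g) :
    nrmT n b k h t (fun y => f y + g y) ≤ nrmT n b k h t f + nrmT n b k h t g := by
  rw [nrmT, Zs_add]
  exact E.nrm_add_le _ (E.contDiff_Zs _ _ _ _ _ hf) (E.contDiff_Zs _ _ _ _ _ hg)

theorem nrmT_sub_le {k : ℕ} (h t : ℝ) {f g : R12 → ℂ} (hf : ContDiff ℝ k f) (hg : ContDiff ℝ k g) :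
    nrmT n b k h t (fun y => f y - g y) ≤ nrmT n b k h t f + nrmT n b k h t g := by
  rw [nrmT, Zs_sub]
  exact E.nrm_sub_le _ (E.contDiff_Zs _ _ _ _ _ hf) (E.contDiff_Zs _ _ _ _ _ hg)

theorem nrmT_const_mul {k : ℕ} (h t : ℝ) (c : ℂ) {f : R12 → ℂ} (hf : ContDiff ℝ k f) :
    nrmT n b k h t (fun y => c * f y) = ENNReal.ofReal ‖c‖ * nrmT n b k h t f := by
  rw [nrmT, Zs_const_mul]
  exact E.nrm_const_mul _ c (E.contDiff_Zs _ _ _ _ _ hf)

theorem nrmT_mono {k k' : ℕ} (hk : k ≤ k') (h t : ℝ) (f : R12 → ℂ) :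
    nrmT n b k h t f ≤ nrmT n b k' h t f := by
  exact E.nrm_mono hk _ _

theorem nrmT_zero (k : ℕ) (h t : ℝ) : nrmT n b k h t (fun _ => 0) = 0 := by
  rw [nrmT, Zs_zero]
  exact E.nrm_zero _ _

/-- `nrmT` of the shifted solution: 1 - (t₀+(1-t₀)s) = (1-t₀)(1-s), `Zs_Zs` -/
theorem nrmT_shift (k : ℕ) (h : ℝ) {t₀ s : ℝ} (h₀ : t₀ < 1) (hs : s < 1) (f : R12 → ℂ) :
    nrmT n b k (h * Real.sqrt (1 - t₀)) s (Zs n b (1 - t₀) 0 0 f) = nrmT n b k h (t₀ + (1 - t₀) * s) f := by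
  have h1 : 0 < 1 - t₀ := sub_pos.2 h₀
  have h2 : 0 < 1 - s := sub_pos.2 hs
  have e : 1 - (t₀ + (1 - t₀) * s) = (1 - s) * (1 - t₀) := by ring
  rw [nrmT, nrmT, Zs_Zs h2 h1, e, Real.sqrt_mul h2.le, smul_zero, add_zero, add_zero, mul_assoc,
    mul_comm (Real.sqrt (1 - t₀))]

theorem Zs_lap' {ι : Type} [Fintype ι] (v : OrthonormalBasis ι ℝ R12) (f : R12 → ℂ) (y : R12) :
    Laplacian.laplacian f y = ∑ i, iteratedFDeriv ℝ 2 f y ![v i, v i] := by
  rw [InnerProductSpace.laplacian_eq_iteratedFDeriv_orthonormalBasis f v]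

theorem Zs_lap (f : R12 → ℂ) (y : R12) : lap f y = Laplacian.laplacian f y := by
  rw [Zs_lap' (EuclideanSpace.basisFun (Fin 12) ℝ)]
  simp only [lap, ee, EuclideanSpace.basisFun_apply]

theorem lap_add {f g : R12 → ℂ} (hf : ContDiff ℝ 2 f) (hg : ContDiff ℝ 2 g) (y : R12) :
    lap (fun y => f y + g y) y = lap f y + lap g y := by
  simp only [Zs_lap]
  exact hf.contDiffAt.laplacian_add hg.contDiffAt

theorem lap_sub {f g : R12 → ℂ} (hf : ContDiff ℝ 2 f) (hg : ContDiff ℝ 2 g) (y : R12) :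
    lap (fun y => f y - g y) y = lap f y - lap g y := by
  simp only [Zs_lap]
  exact hf.contDiffAt.laplacian_sub hg.contDiffAt

theorem lap_const_mul {f : R12 → ℂ} (hf : ContDiff ℝ 2 f) (c : ℂ) (y : R12) :
    lap (fun y => c * f y) y = c * lap f y := by
  simpa using E.lap_affine hf c 1 0 y

theorem lap_conj {f : R12 → ℂ} (hf : ContDiff ℝ 2 f) (y : R12) :
    lap (fun y => conj (f y)) y = conj (lap f y) := by
  simp only [Zs_lap]
  exact hf.contDiffAt.laplacian_CLM_comp_left (l := (Complex.conjCLE : ℂ →L[ℝ] ℂ))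

theorem lap_Zs {f : R12 → ℂ} (hf : ContDiff ℝ 2 f) {τ : ℝ} (hτ : 0 < τ) (x : R12) (ϑ : ℝ) (y : R12) :
    lap (Zs n b τ x ϑ f) y = τ * Zs n b τ x ϑ (lap f) y := by
  have := E.lap_affine hf
    (Complex.exp (-Complex.I * ϑ) * cp τ ((aa n : ℂ) - Complex.I * b)) (Real.sqrt τ) x y
  rw [← Complex.ofReal_pow, Real.sq_sqrt hτ.le] at this
  refine this.trans ?_
  simp only [Zs]
  ring

/-- `Ck` under an affine change of time and a linear-affine change of space (`ContinuousLinearMap.iteratedFDeriv_comp_right`,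
`iteratedFDeriv_comp_add_left`; or induction with `ck_succ_of_pd`) -/
theorem ck_affine {k : ℕ} {J : Set ℝ} {z : ℝ → R12 → ℂ} (hz : Ck k J z) (t₀ τ : ℝ) (c : ℂ) (x : R12)
    (A : R12 →L[ℝ] R12) :
    Ck k ((fun s => t₀ + τ * s) ⁻¹' J) (fun s y => c * z (t₀ + τ * s) (x + A y)) := by
  refine E.ck_const_mul c ⟨fun t ht => (hz.diff _ ht).comp (contDiff_const.add A.contDiff),
    fun j hj => ?_⟩
  have h1 : ContinuousOn
      (fun p : ℝ × R12 => iteratedFDeriv ℝ j (z (t₀ + τ * p.1)) (x + A p.2))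
      (((fun s => t₀ + τ * s) ⁻¹' J) ×ˢ univ) :=
    (hz.cont j hj).comp (f := fun p : ℝ × R12 => (t₀ + τ * p.1, x + A p.2)) (by fun_prop)
      fun p hp => ⟨hp.1, trivial⟩
  refine ((ContinuousMultilinearMap.compContinuousLinearMapL (F := ℂ)
    fun _ : Fin j => A).continuous.comp_continuousOn h1).congr fun p hp => ?_
  have h2 : ContDiff ℝ k fun w => z (t₀ + τ * p.1) (x + w) :=
    (hz.diff _ hp.1).comp (contDiff_const.add contDiff_id)
  have := A.iteratedFDeriv_comp_right h2 p.2 (i := j) (by exact_mod_cast hj)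
  rw [iteratedFDeriv_comp_add_left] at this
  exact this

theorem ck_Zs {k : ℕ} {J : Set ℝ} {z : ℝ → R12 → ℂ} (hz : Ck k J z) (t₀ τ : ℝ) (x : R12) (ϑ : ℝ) :
    Ck k ((fun s => t₀ + τ * s) ⁻¹' J) (fun s => Zs n b τ x ϑ (z (t₀ + τ * s))) := by
  exact ck_affine hz t₀ τ _ x (Real.sqrt τ • ContinuousLinearMap.id ℝ R12)

/-- `LinearIsometryEquiv.norm_iteratedFDeriv_comp_right`, `LinearIsometryEquiv.measurePreserving`, `PP_zero` -/
theorem nrm_isometry (k : ℕ) (O : R12 ≃ₗᵢ[ℝ] R12) (f : R12 → ℂ) :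
    nrm k 0 (fun y => f (O y)) = nrm k 0 f := by
  unfold nrm
  refine Finset.sum_congr rfl fun j _ => ?_
  rw [E.cell_zero, Measure.restrict_univ]
  conv_rhs => rw [← O.measurePreserving.map_eq]
  rw [MeasurableEmbedding.eLpNorm_map_measure (f := O) O.toHomeomorph.measurableEmbedding]
  refine eLpNorm_congr_norm_ae (Eventually.of_forall fun y => ?_)
  rw [Function.comp_apply, norm_smul, norm_smul, E.PP_zero, E.PP_zero, O.norm_map,
    ← O.norm_iteratedFDeriv_comp_right]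
  rfl

theorem nrmT_isometry (k : ℕ) (t : ℝ) (O : R12 ≃ₗᵢ[ℝ] R12) (f : R12 → ℂ) :
    nrmT n b k 0 t (fun y => f (O y)) = nrmT n b k 0 t f := by
  rw [nrmT, nrmT, zero_mul, ← nrm_isometry k O (Zs n b (1 - t) 0 0 f)]
  congr 1
  funext y
  rw [Zs_apply0, Zs_apply0, map_smul]

/-- the trace of the bilinear form D²f does not depend on the orthonormal basis
(Mathlib: `InnerProductSpace.laplacian_eq_iteratedFDeriv_orthonormalBasis`) -/
theorem lap_isometry {f : R12 → ℂ} (hf : ContDiff ℝ 2 f) (O : R12 ≃ₗᵢ[ℝ] R12) (y : R12) :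
    lap (fun y => f (O y)) y = lap f (O y) := by
  rw [Zs_lap f, Zs_lap' ((EuclideanSpace.basisFun (Fin 12) ℝ).map O), lap]
  refine Finset.sum_congr rfl fun i _ => ?_
  have := (O.toContinuousLinearEquiv : R12 →L[ℝ] R12).iteratedFDeriv_comp_right hf y (i := 2) le_rfl
  refine (DFunLike.congr_fun this _).trans ?_
  rw [ContinuousMultilinearMap.compContinuousLinearMap_apply]
  congr 1
  funext l
  fin_cases l <;> simp [ee]

theorem UU_isometry (t : ℝ) (O : R12 ≃ₗᵢ[ℝ] R12) (y : R12) : UU n b q 0 t (O y) = UU n b q 0 t y := by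
  rw [UU, UU, E.PP_zero, E.PP_zero, O.norm_map]

/-- derivative of t ↦ z t (γ t) at the left end point: z(t,γ t) - z(0,γ t) = t G(0,γ 0) + o(t) by the mean value inequality and the joint
continuity of G; z(0,γ t) - z(0,γ 0) by the chain rule -/
theorem hasDerivWithinAt_curve {T : ℝ} (hT : 0 < T) {z G : ℝ → R12 → ℂ}
    (hG : ContinuousOn (fun p : ℝ × R12 => G p.1 p.2) (Icc 0 T ×ˢ univ))
    (hz : ∀ t ∈ Icc 0 T, ∀ y, HasDerivWithinAt (fun s => z s y) (G t y) (Icc 0 T) t)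
    (h0 : Differentiable ℝ (z 0)) {γ : ℝ → R12} {v : R12} (hγ : HasDerivAt γ v 0) :
    HasDerivWithinAt (fun t => z t (γ t)) (G 0 (γ 0) + fderiv ℝ (z 0) (γ 0) v) (Ici 0) 0 := by
  have h1 : HasDerivAt (fun t => z 0 (γ t)) (fderiv ℝ (z 0) (γ 0) v) 0 :=
    (h0 (γ 0)).hasFDerivAt.comp_hasDerivAt 0 hγ
  have h2 : HasDerivWithinAt (fun t => z t (γ t) - z 0 (γ t)) (G 0 (γ 0)) (Ici 0) 0 := by
    rw [hasDerivWithinAt_iff_isLittleO, Asymptotics.isLittleO_iff]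
    intro ε hε
    obtain ⟨δ, hδ, hδ'⟩ := Metric.continuousWithinAt_iff.1
      (hG (0, γ 0) ⟨⟨le_rfl, hT.le⟩, trivial⟩) ε hε
    filter_upwards [Ico_mem_nhdsGE (lt_min hT hδ),
      mem_nhdsWithin_of_mem_nhds (hγ.continuousAt (Metric.ball_mem_nhds _ hδ))] with t ht hy
    have htT : t ≤ T := (ht.2.trans_le (min_le_left _ _)).le
    have := (convex_Icc 0 t).norm_image_sub_le_of_norm_hasDerivWithin_le
      (f := fun s => z s (γ t) - s • G 0 (γ 0)) (f' := fun s => G s (γ t) - G 0 (γ 0)) (C := ε)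
      (fun s hs => by
        have h3 := ((hasDerivAt_id s).smul_const (G 0 (γ 0))).hasDerivWithinAt (s := Icc 0 t)
        rw [one_smul] at h3
        exact ((hz s ⟨hs.1, hs.2.trans htT⟩ (γ t)).mono (Icc_subset_Icc_right htT)).sub h3)
      (fun s hs => by
        rw [← dist_eq_norm]
        refine (hδ' (x := (s, γ t)) ⟨⟨hs.1, hs.2.trans htT⟩, trivial⟩ ?_).le
        rw [Prod.dist_eq, Real.dist_eq, sub_zero, abs_of_nonneg hs.1]
        exact max_lt (hs.2.trans_lt (ht.2.trans_le (min_le_right _ _))) hy)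
      (left_mem_Icc.2 ht.1) (right_mem_Icc.2 ht.1)
    refine le_of_eq_of_le (congrArg norm ?_) this
    simp only [sub_zero, zero_smul, sub_self]
    ring
  simpa using h2.fun_add h1.hasDerivWithinAt

end

end Crest.Agent.R086.C
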